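import Vale.Agent.Lib.PCP.Defs

/-!
Intermediate instance types of the gap amplification proof and extra closure properties of `CT`.
-/

namespace Vale.Agent.Lib.TM

open Turing

variable {α β γ : Type} [Enc α] [Enc β] [Enc γ] {e : ℕ}

theorem CT.polyTime {f : α → β} (h : CT 0 f) : PCP.PolyTime f := by
  obtain ⟨M, C, hF, hM⟩ := h.export
  refine ⟨{ toTM2ComputableAux := M.toTM2ComputableAux
            time := (4 * Polynomial.X + 4) ^ C
            outputsFun := fun a => ?_ }, hF⟩
  have h1 := M.outputsFun a
  refine { h1 with steps_le_m := h1.steps_le_m.trans ((hM _).trans ?_) }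
  simp only [bd, lg, zero_add, pow_one, Polynomial.eval_pow, Polynomial.eval_add,
    Polynomial.eval_mul, Polynomial.eval_ofNat, Polynomial.eval_X]
  rw [mul_comm, pow_mul]
  refine Nat.pow_le_pow_left ?_ _
  generalize (enc a).code.length = n
  rcases Nat.eq_zero_or_pos n with rfl | hn
  · simp
  · have h2 := Nat.size_pos.mpr hn
    have h3 := Nat.lt_size.mp (show n.size - 1 < n.size by omega)
    rw [show n.size + 1 = n.size - 1 + 2 by omega, pow_add]
    omega

@[fun_prop]
theorem CT.testBit {m n : α → ℕ} (hm : CT e m) (hn : CT e n) :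
    CT e fun a => (m a).testBit (n a) :=
  (hm.bits.getD hn (CT.const false)).of_eq fun a => by
    rw [Nat.testBit_eq_inth, List.getI_eq_getElem?_getD, List.getD_eq_getElem?_getD]; rfl

@[fun_prop]
theorem CT.all {f : α → β → Bool} {l : α → List β}
    (hf : CT e fun p : α × β => f p.1 p.2) (hl : CT e l) : CT e fun a => (l a).all (f a) :=
  (CT.filter (f := fun a b => !f a b) hf.not hl).isEmpty.of_eq fun a => by
    rw [Bool.eq_iff_iff]; simp [List.isEmpty_iff, List.filter_eq_nil_iff]

@[fun_prop]
theorem CT.any {f : α → β → Bool} {l : α → List β}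
    (hf : CT e fun p : α × β => f p.1 p.2) (hl : CT e l) : CT e fun a => (l a).any (f a) :=
  (CT.filter (f := f) hf hl).isEmpty.not.of_eq fun a => by
    rw [Bool.eq_iff_iff]; simp [List.filter_eq_nil_iff]

@[fun_prop]
theorem CT.countP {f : α → β → Bool} {l : α → List β}
    (hf : CT e fun p : α × β => f p.1 p.2) (hl : CT e l) : CT e fun a => (l a).countP (f a) :=
  (CT.filter (f := f) hf hl).length.of_eq fun a => by rw [List.countP_eq_length_filter]

@[fun_prop]
theorem CT.beqBool {c d : α → Bool} (hc : CT e c) (hd : CT e d) : CT e fun a => c a == d a :=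
  (hc.cond hd hd.not).of_eq fun a => by cases c a <;> cases d a <;> rfl

@[fun_prop]
theorem CT.xor {c d : α → Bool} (hc : CT e c) (hd : CT e d) : CT e fun a => (c a ^^ d a) :=
  (hc.cond hd.not hd).of_eq fun a => by cases c a <;> cases d a <;> rfl

@[fun_prop]
theorem CT.beqNat {m n : α → ℕ} (hm : CT e m) (hn : CT e n) : CT e fun a => m a == n a :=
  (hm.beq hn).of_eq fun a => by rw [Bool.eq_iff_iff]; simp

@[fun_prop]
theorem CT.decLt {m n : α → ℕ} (hm : CT e m) (hn : CT e n) : CT e fun a => decide (m a < n a) :=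
  (hm.blt hn).of_eq fun a => by rw [Bool.eq_iff_iff]; simp

@[fun_prop]
theorem CT.decLe {m n : α → ℕ} (hm : CT e m) (hn : CT e n) : CT e fun a => decide (m a ≤ n a) :=
  (hm.ble hn).of_eq fun a => by rw [Bool.eq_iff_iff]; simp

/-- The list `0, …, c * length - 1`. -/
theorem CT.range_mul_length (c : ℕ) {l : α → List β} (hl : CT e l) :
    CT e fun a => List.range (c * (l a).length) :=
  ((CT.const c).mul hl.length).range ((Bd.const c).mul hl.bd_length)

/-- Square roots of polynomially bounded numbers. -/
theorem CT.sqrt {n : α → ℕ} (hn : CT e n) (hB : Bd 0 n) : CT e fun a => (n a).sqrt := by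
  have h1 : CT e fun a => List.range (n a) := hn.range hB
  have h2 : CT e fun a => (List.range (n a)).countP fun i => decide ((i + 1) * (i + 1) ≤ n a) :=
    CT.countP (f := fun a i => decide ((i + 1) * (i + 1) ≤ n a)) (by fun_prop) h1
  refine h2.of_eq fun a => ?_
  have h3 : ∀ k, (List.range k).countP (fun i => decide ((i + 1) * (i + 1) ≤ n a)) =
      Min.min k (n a).sqrt := by
    intro k
    induction k with
    | zero => simp
    | succ k ih =>
      rw [List.range_succ, List.countP_append, ih]
      have := @Nat.le_sqrt (k + 1) (n a)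
      by_cases h : (k + 1) * (k + 1) ≤ n a
      · have := this.mpr h
        simp [h]; omega
      · have h' : ¬ k + 1 ≤ (n a).sqrt := fun h' => h (this.mp h')
        simp [h]; omega
  rw [h3]
  exact min_eq_right (Nat.sqrt_le_self _)

end Vale.Agent.Lib.TM

namespace Vale.Agent.Lib.PCP

open Vale.Agent.Lib.TM

/-- The number with the given binary digits, least significant first. -/
def ofBits (l : List Bool) : ℕ := l.foldr Nat.bit 0

lemma testBit_ofBits (l : List Bool) (i : ℕ) : (ofBits l).testBit i = l.getD i false := by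
  induction l generalizing i with
  | nil => simp [ofBits]
  | cons b l ih =>
    cases i with
    | zero => simp [ofBits]
    | succ i => simpa [ofBits, Nat.testBit_bit_succ] using ih i

lemma ofBits_lt (l : List Bool) : ofBits l < 2 ^ l.length := by
  induction l with
  | nil => simp [ofBits]
  | cons b l ih =>
    have : ofBits (b :: l) = Nat.bit b (ofBits l) := rfl
    rw [this, List.length_cons, pow_succ, Nat.bit_val]
    cases b <;> simp <;> omega

@[fun_prop]
theorem ct_ofBits {α : Type} [Enc α] {e : ℕ} {l : α → List Bool} (hl : CT e l) :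
    CT e fun a => ofBits (l a) :=
  (CT.foldl (g := fun _ n b => Nat.bit b n) (init := fun _ => 0) (G := fun _ => 6) (by fun_prop)
    (CT.const 0) hl.reverse (Bd.const 6) fun _ s x => sz_bit_le x s).of_eq fun a => by
      simp [ofBits, List.foldl_reverse]

/-- The fixed ten-bit predicate of the long code test. -/
def Phi (x : ℕ → Bool) : Bool :=
  (x 2 == (x 0 ^^ x 1)) && ((x 0 && x 1) == (x 4 ^^ x 3)) && (x 5 == !x 0) &&
    (x 6 == (x 7 ^^ x 3)) && (x 8 == (x 9 ^^ x 3))

lemma Phi_congr {x y : ℕ → Bool} (h : ∀ j < 10, x j = y j) : Phi x = Phi y := by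
  simp only [Phi]
  rw [h 0, h 1, h 2, h 3, h 4, h 5, h 6, h 7, h 8, h 9] <;> norm_num

/-- Instances of the constraint problem with predicate `Phi`: each constraint lists the variables
read (missing entries are read as variable `0`). -/
abbrev CSP := List (List ℕ)

/-- Whether an assignment satisfies a constraint. -/
def conSat (σ : ℕ → Bool) (c : List ℕ) : Bool := Phi fun j => σ (c.getD j 0)

/-- Satisfiability. -/
def CSP.Sat (φ : CSP) : Prop := ∃ σ : ℕ → Bool, ∀ c ∈ φ, conSat σ c = true

/-- Every assignment violates at least an `ε` fraction of the constraints. -/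
def CSP.Gap (ε : ℝ) (φ : CSP) : Prop :=
  ∀ σ : ℕ → Bool, ε * φ.length ≤ φ.countP fun c => !conSat σ c

/-- All constraints have ten variables, all of them below `B`. -/
def CSP.Bdd (B : ℕ) (φ : CSP) : Prop := ∀ c ∈ φ, c.length = 10 ∧ ∀ x ∈ c, x < B

/-- Binary constraint graphs: constraints `(u, v, r)` where `r` is the bit mask of the relation. -/
abbrev BG := List (ℕ × ℕ × ℕ)

/-- Whether a labelling with `s` labels satisfies a constraint. -/
def edgeSat (s : ℕ) (A : ℕ → Fin s) (e : ℕ × ℕ × ℕ) : Bool :=
  e.2.2.testBit (A e.1 * s + A e.2.1)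

/-- Satisfiability. -/
def BG.Sat (s : ℕ) (G : BG) : Prop := ∃ A : ℕ → Fin s, ∀ e ∈ G, edgeSat s A e = true

/-- Every labelling violates at least an `ε` fraction of the constraints. -/
def BG.Gap (s : ℕ) (ε : ℝ) (G : BG) : Prop :=
  ∀ A : ℕ → Fin s, ε * G.length ≤ G.countP fun e => !edgeSat s A e

/-- All vertices are below `B`. -/
def BG.Bdd (B : ℕ) (G : BG) : Prop := ∀ e ∈ G, e.1 < B ∧ e.2.1 < B

end Vale.Agent.Lib.PCP
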