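import Vale.Agent.Lib.PCP.Reg

/-! From the gap constraint problem to a biregular projection game. -/

namespace Vale.Agent.Lib.PCP

open Vale.Agent.Lib.TM

namespace BaseGame

/-- Whether the pair of labels coded by `p` satisfies the constraint of the dart `d`. -/
def ok (q : ℕ) (φ : CSP) (d p : ℕ) : Bool := regOk φ (d % 52) (d / 52) (p / q) (p % q)

/-- Replaces a violating pair by a satisfying one. -/
def fix (q : ℕ) (l : List ℕ) (φ : CSP) (d p : ℕ) : ℕ :=
  bif ok q φ d p then p else (l.filter fun p' => ok q φ d p').headD 0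

/-- The two constraints of a dart. -/
def dart (q : ℕ) (l : List ℕ) (φ : CSP) (d : ℕ) : List (ℕ × ℕ × List ℕ) :=
  [(d, d / 52, l.map fun p => fix q l φ d p / q),
    (d, regStep φ (d % 52) (d / 52), l.map fun p => fix q l φ d p % q)]

/-- The game. -/
def base (q : ℕ) (l : List ℕ) (φ : CSP) : LC :=
  (10 * φ.length * 52, 10 * φ.length,
    (List.range (10 * φ.length * 52)).flatMap fun d => dart q l φ d)

lemma ct_base (q : ℕ) (l : List ℕ) : CT 0 (base q l) := by
  have h1 : CT 0 fun φ : CSP => List.range (10 * φ.length * 52) :=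
    CT.range (by fun_prop) (((Bd.const 10).mul (CT.id (e := 0)).bd_length).mul (Bd.const 52))
  have h2 : CT 0 fun p : CSP × ℕ => dart q l p.1 p.2 := by
    unfold dart fix ok
    fun_prop
  unfold base
  exact CT.mk (by fun_prop) (CT.mk (by fun_prop) (CT.flatMap h2 h1))

lemma fix_spec {q : ℕ} (φ : CSP) (d : ℕ)
    (hex : ∃ a < q, ∃ b < q, regOk φ (d % 52) (d / 52) a b = true) {p : ℕ} (hp : p < q * q) :
    fix q (List.range (q * q)) φ d p < q * q ∧
      ok q φ d (fix q (List.range (q * q)) φ d p) = true := by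
  unfold fix
  cases h : ok q φ d p
  · obtain ⟨a, ha, b, hb, hab⟩ := hex
    have h1 : a * q + b < q * q := by
      have : (a + 1) * q ≤ q * q := Nat.mul_le_mul_right _ ha
      rw [add_mul] at this
      omega
    have h2 : (a * q + b) / q = a := by
      rw [add_comm, Nat.add_mul_div_right _ _ (by omega), Nat.div_eq_of_lt hb, zero_add]
    have h3 : (a * q + b) % q = b := by
      rw [add_comm, Nat.add_mul_mod_self_right, Nat.mod_eq_of_lt hb]
    have h4 : a * q + b ∈ (List.range (q * q)).filter fun p' => ok q φ d p' :=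
      List.mem_filter.mpr ⟨List.mem_range.mpr h1, by rw [ok, h2, h3, hab]⟩
    have h5 : ∀ L : List ℕ, a * q + b ∈ L → L.headD 0 ∈ L := by
      intro L hL
      cases L with
      | nil => exact absurd hL List.not_mem_nil
      | cons x L => exact List.mem_cons_self
    have h6 := List.mem_filter.mp (h5 _ h4)
    exact ⟨List.mem_range.mp h6.1, h6.2⟩
  · exact ⟨hp, h⟩

lemma getD_map_range (n : ℕ) (f : ℕ → ℕ) {a : ℕ} (ha : a < n) :
    ((List.range n).map f).getD a 0 = f a := by
  rw [List.getD_eq_getElem _ _ (by simpa using ha), List.getElem_map, List.getElem_range]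

lemma countP_flatMap_range {β : Type} (n : ℕ) (F : ℕ → List β) (p : β → Bool) :
    ((List.range n).flatMap F).countP p = ∑ d ∈ Finset.range n, (F d).countP p := by
  induction n with
  | zero => simp
  | succ n ih =>
    rw [List.range_succ, List.flatMap_append, List.countP_append, ih, Finset.sum_range_succ]
    simp

lemma sum_range_mul (n m : ℕ) (F : ℕ → ℕ → ℕ) :
    ∑ d ∈ Finset.range (n * m), F (d / m) (d % m) = ∑ p : Fin n × Fin m, F p.1 p.2 := by
  rw [Finset.sum_range]
  exact Equiv.sum_comp finProdFinEquiv.symm fun p : Fin n × Fin m => F p.1 p.2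

lemma base_length (q : ℕ) (l : List ℕ) (φ : CSP) :
    (base q l φ).2.2.length = 2 * (10 * φ.length * 52) := by
  rw [← List.countP_true]
  unfold base
  dsimp only
  rw [countP_flatMap_range]
  simp [dart, mul_comm]

lemma base_wf {q : ℕ} (hq : 0 < q) {φ : CSP} (hφ : φ ≠ [])
    (hex : ∀ s o, ∃ a < q, ∃ b < q, regOk φ s o a b = true) :
    (base q (List.range (q * q)) φ).WF (q * q) q := by
  constructor
  · rw [← List.length_pos_iff, base_length]
    have := List.length_pos_iff.mpr hφ
    omega
  · intro e he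
    obtain ⟨d, hd, he⟩ := List.mem_flatMap.mp he
    have hd' := List.mem_range.mp hd
    have ho : d / 52 < 10 * φ.length := by omega
    simp only [dart, List.mem_cons, List.not_mem_nil, or_false] at he
    rcases he with rfl | rfl
    · refine ⟨hd', ho, by simp, fun b hb => ?_⟩
      obtain ⟨p, hp, rfl⟩ := List.mem_map.mp hb
      exact (Nat.div_lt_iff_lt_mul hq).mpr (fix_spec φ d (hex _ _) (List.mem_range.mp hp)).1
    · refine ⟨hd', regStep_lt φ _ ho, by simp, fun b hb => ?_⟩
      obtain ⟨p, -, rfl⟩ := List.mem_map.mp hb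
      exact Nat.mod_lt _ hq

lemma stepF_eq_iff (φ : CSP) (s : Fin 52) (o v : Fin (10 * φ.length)) :
    stepF φ s o = v ↔ o = stepF φ (regInv s) v := by
  constructor
  · rintro rfl
    exact (stepF_inv φ s o).symm
  · rintro rfl
    have := stepF_inv φ (regInv s) v
    rwa [regInv_regInv] at this

lemma base_bireg (q : ℕ) (l : List ℕ) (φ : CSP) : (base q l φ).Bireg 2 104 := by
  constructor
  · intro u hu
    unfold base
    dsimp only
    rw [countP_flatMap_range, Finset.sum_eq_single u]
    · simp [dart]
    · intro d _ hd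
      simp [dart, hd]
    · intro h
      exact absurd (Finset.mem_range.mpr hu) h
  · intro v hv
    have hv' : v < 10 * φ.length := hv
    unfold base
    dsimp only
    rw [countP_flatMap_range]
    have h1 : ∀ d, (dart q l φ d).countP (fun e => e.2.1 == v) =
        (if d / 52 = v then 1 else 0) + if regStep φ (d % 52) (d / 52) = v then 1 else 0 := by
      intro d
      simp only [dart, List.countP_cons, List.countP_nil, beq_iff_eq]
      omega
    simp only [h1]
    rw [sum_range_mul _ _ fun o s => (if o = v then 1 else 0) + if regStep φ s o = v then 1 else 0,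
      Fintype.sum_prod_type_right]
    have h2 : ∀ s : Fin 52, ∑ o : Fin (10 * φ.length), ((if (o : ℕ) = v then 1 else 0) +
        if regStep φ s o = v then 1 else 0) = 2 := by
      intro s
      have h3 : ∀ o : Fin (10 * φ.length), (o : ℕ) = v ↔ o = ⟨v, hv'⟩ := fun o => by
        rw [Fin.ext_iff]
      have h4 : ∀ o : Fin (10 * φ.length), regStep φ s o = v ↔
          o = stepF φ (regInv s) ⟨v, hv'⟩ := fun o => by
        rw [← stepF_eq_iff, Fin.ext_iff]
        rfl
      simp only [h4]
      simp only [h3]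
      rw [Finset.sum_add_distrib, Finset.sum_ite_eq', Finset.sum_ite_eq']
      simp
    simp only [h2]
    simp

lemma base_perfect {q : ℕ} {φ : CSP} (lab : ℕ → ℕ) (hl : ∀ o, lab o < q)
    (h : ∀ s o, o < 10 * φ.length → regOk φ s o (lab o) (lab (regStep φ s o)) = true) :
    (base q (List.range (q * q)) φ).Perfect (q * q) q := by
  have h1 : ∀ a b, lab a * q + lab b < q * q := fun a b => by
    have : (lab a + 1) * q ≤ q * q := Nat.mul_le_mul_right _ (hl a)
    have := hl b
    rw [add_mul] at *
    omega
  have h2 : ∀ a b, (lab a * q + lab b) / q = lab a := fun a b => by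
    rw [add_comm, Nat.add_mul_div_right _ _ (Nat.zero_lt_of_lt (hl b)), Nat.div_eq_of_lt (hl b),
      zero_add]
  have h3 : ∀ a b, (lab a * q + lab b) % q = lab b := fun a b => by
    rw [add_comm, Nat.add_mul_mod_self_right, Nat.mod_eq_of_lt (hl b)]
  refine ⟨fun d => lab (d / 52) * q + lab (regStep φ (d % 52) (d / 52)), lab, fun _ => h1 _ _, hl,
    fun e he => ?_⟩
  obtain ⟨d, hd, he⟩ := List.mem_flatMap.mp he
  have hd' := List.mem_range.mp hd
  have ho : d / 52 < 10 * φ.length := by omega
  have h4 : fix q (List.range (q * q)) φ d (lab (d / 52) * q + lab (regStep φ (d % 52) (d / 52))) =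
      lab (d / 52) * q + lab (regStep φ (d % 52) (d / 52)) := by
    unfold fix
    rw [ok, h2, h3, h _ _ ho, cond_true]
  simp only [dart, List.mem_cons, List.not_mem_nil, or_false] at he
  rcases he with rfl | rfl
  · dsimp only
    rw [getD_map_range _ _ (h1 _ _), h4, h2]
  · dsimp only
    rw [getD_map_range _ _ (h1 _ _), h4, h3]

lemma base_good {q : ℕ} (hq : 0 < q) {φ : CSP}
    (hex : ∀ s o, ∃ a < q, ∃ b < q, regOk φ s o a b = true) (A B lab : ℕ → ℕ)
    (hA : ∀ u, A u < q * q) (hl : ∀ o, B o < q → lab o = B o) :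
    (base q (List.range (q * q)) φ).good A B +
      (Finset.univ.filter fun p : Fin (10 * φ.length) × Fin 52 =>
        regOk φ p.2 p.1 (lab p.1) (lab (regStep φ p.2 p.1)) = false).card ≤
      2 * (10 * φ.length * 52) := by
  rw [Finset.card_filter, ← sum_range_mul _ _ fun o s =>
    if regOk φ s o (lab o) (lab (regStep φ s o)) = false then 1 else 0]
  unfold LC.good base
  dsimp only
  rw [countP_flatMap_range, ← Finset.sum_add_distrib]
  refine (Finset.sum_le_card_nsmul _ _ 2 fun d _ => ?_).trans (by simp [mul_comm])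
  obtain ⟨h1, h2⟩ := fix_spec φ d (hex _ _) (hA d)
  simp only [dart, List.countP_cons, List.countP_nil, beq_iff_eq, getD_map_range _ _ (hA d)]
  split_ifs with k1 k2 k3 <;> try omega
  rw [hl _ (k2 ▸ (Nat.div_lt_iff_lt_mul hq).mpr h1), hl _ (k1 ▸ Nat.mod_lt _ hq), ← k1, ← k2] at k3
  exact absurd (h2.symm.trans k3) (by simp)

end BaseGame

open BaseGame in
/-- The dart versus vertex game of the regular graph. -/
theorem exists_base : ∃ (L R : ℕ) (base : CSP → LC), 0 < L ∧ CT 0 base ∧
    ∀ φ : CSP, φ ≠ [] → (base φ).WF L R ∧ (base φ).Bireg 2 104 ∧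
      (φ.Sat → (base φ).Perfect L R) ∧ ∀ ε, φ.Gap ε → (base φ).ValLe L (1 - ε / 104000) := by
  obtain ⟨q, hq⟩ : ∃ q : ℕ, q = 1024 := ⟨_, rfl⟩
  have hq0 : 0 < q := by omega
  have hex : ∀ (φ : CSP) s o, ∃ a < q, ∃ b < q, regOk φ s o a b = true := by
    rw [hq]
    exact regOk_exists
  refine ⟨q * q, q, base q (List.range (q * q)), Nat.mul_pos hq0 hq0, ct_base _ _,
    fun φ hφ => ⟨base_wf hq0 hφ (hex φ), base_bireg _ _ _, fun hs => ?_, fun ε hε A B hA => ?_⟩⟩
  · obtain ⟨lab, h⟩ := reg_complete hs
    exact base_perfect (fun o => lab o) (fun o => by have := (lab o).2; omega) h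
  · have hl : ∀ o, (if B o < q then B o else 0) < 1024 := fun o => by split_ifs <;> omega
    have h1 := base_good hq0 (hex φ) A B (fun o => if B o < q then B o else 0) hA
      fun o ho => if_pos ho
    have h2 := reg_sound hε fun o => ⟨_, hl o⟩
    rw [Fintype.card_fin, Fintype.card_fin] at h2
    rw [base_length]
    have h3 := (Nat.cast_le (α := ℝ)).mpr h1
    rw [Nat.cast_add] at h3
    have h4 := h3.trans' (add_le_add_right h2 _)
    push_cast at h4 ⊢
    linarith

end Vale.Agent.Lib.PCP
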