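import Vale.Agent.Lib.CT.Rec

/-!
Statement-level definitions for hardness of approximation: 3-CNF formulas, polynomial-time maps,
and label cover (projection game) instances.
-/

namespace Vale.Agent.Lib.PCP

open Vale.Agent.Lib.TM Turing

/-- A literal: a variable index and the truth value that makes the literal true. -/
abbrev Lit := ℕ × Bool

/-- A clause with three literals. -/
abbrev Clause := Lit × Lit × Lit

/-- A 3-CNF formula. -/
abbrev CNF3 := List Clause

/-- Value of a literal. -/
def litVal (σ : ℕ → Bool) (l : Lit) : Bool := σ l.1 == l.2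

/-- Value of a clause. -/
def clauseVal (σ : ℕ → Bool) (c : Clause) : Bool :=
  litVal σ c.1 || litVal σ c.2.1 || litVal σ c.2.2

/-- Satisfiability. -/
def Sat (φ : CNF3) : Prop := ∃ σ : ℕ → Bool, ∀ c ∈ φ, clauseVal σ c = true

/-- Computable in polynomial time by a multi-stack machine with finite alphabets, on the binary
codes of the input and the output. -/
def PolyTime {α β : Type} [Enc α] [Enc β] (f : α → β) : Prop :=
  ∃ M : TM2ComputableInPolyTime (fun a => (enc a).code) (fun b => (enc b).code) f,
    ∀ k, Finite (M.tm.Γ k)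

/-- A projection game: the numbers of left and right vertices and the list of constraints
`(u, v, π)`, where `π` is the table of the projection from left labels to right labels. -/
abbrev LC := ℕ × ℕ × List (ℕ × ℕ × List ℕ)

/-- Well-formed with `L` left labels and `R` right labels. -/
def LC.WF (L R : ℕ) (G : LC) : Prop :=
  G.2.2 ≠ [] ∧ ∀ e ∈ G.2.2, e.1 < G.1 ∧ e.2.1 < G.2.1 ∧ e.2.2.length = L ∧ ∀ b ∈ e.2.2, b < R

/-- The number of constraints satisfied by a labelling. -/
def LC.good (G : LC) (A B : ℕ → ℕ) : ℕ :=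
  G.2.2.countP fun e => e.2.2.getD (A e.1) 0 == B e.2.1

/-- Some labelling satisfies all constraints. -/
def LC.Perfect (L R : ℕ) (G : LC) : Prop :=
  ∃ A B : ℕ → ℕ, (∀ u, A u < L) ∧ (∀ v, B v < R) ∧ ∀ e ∈ G.2.2, e.2.2.getD (A e.1) 0 = B e.2.1

/-- Every labelling satisfies at most a `δ` fraction of the constraints. -/
def LC.ValLe (L : ℕ) (δ : ℝ) (G : LC) : Prop :=
  ∀ A B : ℕ → ℕ, (∀ u, A u < L) → (G.good A B : ℝ) ≤ δ * G.2.2.length

/-- Left degrees are `dU` and right degrees are `dV`. -/
def LC.Bireg (dU dV : ℕ) (G : LC) : Prop :=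
  (∀ u < G.1, G.2.2.countP (fun e => e.1 == u) = dU) ∧
    ∀ v < G.2.1, G.2.2.countP (fun e => e.2.1 == v) = dV

end Vale.Agent.Lib.PCP
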