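import Mathlib

/-! Poincare inequality for the Margulis graph on `ZMod m × ZMod m`. -/

namespace Vale.Agent.Lib.PCP

open Finset

namespace Marg

variable {m : ℕ} [NeZero m]

/-- The Fourier transform on `ZMod m × ZMod m`. -/
noncomputable def ft (g : ZMod m × ZMod m → ℂ) (w : ZMod m × ZMod m) : ℂ :=
  ∑ z, g z * ZMod.stdAddChar (w.1 * z.1 + w.2 * z.2)

lemma orth (c : ZMod m × ZMod m) :
    ∑ w : ZMod m × ZMod m, (ZMod.stdAddChar (w.1 * c.1 + w.2 * c.2) : ℂ) =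
      if c = 0 then (m : ℂ) ^ 2 else 0 := by
  have h1 := fun b : ZMod m => AddChar.sum_mulShift b (ZMod.isPrimitive_stdAddChar m)
  simp only [AddChar.map_add_eq_mul]
  rw [Fintype.sum_prod_type]
  dsimp only
  rw [← Finset.sum_mul_sum, h1, h1, ZMod.card]
  obtain ⟨a, b⟩ := c
  by_cases ha : a = 0 <;> by_cases hb : b = 0 <;> simp [ha, hb, sq]

lemma conj_char (x : ZMod m) :
    (starRingEnd ℂ) (ZMod.stdAddChar x) = ZMod.stdAddChar (-x) := by
  rw [AddChar.map_neg_eq_conj]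

lemma parseval (g : ZMod m × ZMod m → ℂ) :
    ∑ w, ‖ft g w‖ ^ 2 = (m : ℝ) ^ 2 * ∑ z, ‖g z‖ ^ 2 := by
  have h : ∀ w, ft g w * (starRingEnd ℂ) (ft g w) = ∑ z, ∑ z', g z * (starRingEnd ℂ) (g z') *
      ZMod.stdAddChar (w.1 * (z - z').1 + w.2 * (z - z').2) := by
    intro w
    simp only [ft, map_sum, map_mul, conj_char]
    rw [Finset.sum_mul_sum]
    refine sum_congr rfl fun z _ => sum_congr rfl fun z' _ => ?_
    have : w.1 * (z - z').1 + w.2 * (z - z').2 =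
        (w.1 * z.1 + w.2 * z.2) + -(w.1 * z'.1 + w.2 * z'.2) := by
      simp only [Prod.fst_sub, Prod.snd_sub]; ring
    rw [this, AddChar.map_add_eq_mul _ (w.1 * z.1 + w.2 * z.2)]
    exact mul_mul_mul_comm _ _ _ _
  have h2 : ∑ w, ft g w * (starRingEnd ℂ) (ft g w) =
      (m : ℂ) ^ 2 * ∑ z, g z * (starRingEnd ℂ) (g z) := by
    simp only [h]
    rw [Finset.sum_comm, Finset.mul_sum]
    refine sum_congr rfl fun z _ => ?_
    rw [Finset.sum_comm]
    simp only [← Finset.mul_sum, orth, sub_eq_zero]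
    rw [Finset.sum_eq_single z]
    · simp [mul_comm]
    · intro b _ hb
      simp [Ne.symm hb]
    · simp
  simp only [Complex.mul_conj, Complex.normSq_eq_norm_sq] at h2
  exact_mod_cast h2

lemma ft_sub (g h : ZMod m × ZMod m → ℂ) (w) :
    ft (fun z => g z - h z) w = ft g w - ft h w := by
  simp only [ft, sub_mul, Finset.sum_sub_distrib]

lemma ft_comp (g : ZMod m × ZMod m → ℂ) (T : ZMod m × ZMod m ≃ ZMod m × ZMod m) (w) :
    ft (fun z => g (T z)) w =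
      ∑ u, g u * ZMod.stdAddChar (w.1 * (T.symm u).1 + w.2 * (T.symm u).2) := by
  unfold ft
  symm
  rw [← T.sum_comp]
  simp

/-- Translation in the first coordinate. -/
def t1 : ZMod m × ZMod m ≃ ZMod m × ZMod m :=
  ⟨fun z => (z.1 + 1, z.2), fun z => (z.1 - 1, z.2), fun z => by simp, fun z => by simp⟩

/-- Translation in the second coordinate. -/
def t2 : ZMod m × ZMod m ≃ ZMod m × ZMod m :=
  ⟨fun z => (z.1, z.2 + 1), fun z => (z.1, z.2 - 1), fun z => by simp, fun z => by simp⟩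

/-- Shear in the first coordinate. -/
def s1 : ZMod m × ZMod m ≃ ZMod m × ZMod m :=
  ⟨fun z => (z.1 + 2 * z.2, z.2), fun z => (z.1 - 2 * z.2, z.2), fun z => by simp,
    fun z => by simp⟩

/-- Shear in the second coordinate. -/
def s2 : ZMod m × ZMod m ≃ ZMod m × ZMod m :=
  ⟨fun z => (z.1, z.2 + 2 * z.1), fun z => (z.1, z.2 - 2 * z.1), fun z => by simp,
    fun z => by simp⟩

lemma ft_t1 (g : ZMod m × ZMod m → ℂ) (w) :
    ft (fun z => g (t1 z)) w = ZMod.stdAddChar (-w.1) * ft g w := by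
  rw [ft_comp, ft, Finset.mul_sum]
  refine sum_congr rfl fun u _ => ?_
  have : w.1 * ((t1 (m := m)).symm u).1 + w.2 * ((t1 (m := m)).symm u).2 =
      -w.1 + (w.1 * u.1 + w.2 * u.2) := by
    show w.1 * (u.1 - 1) + w.2 * u.2 = _
    ring
  rw [this, AddChar.map_add_eq_mul]; ring

lemma ft_t2 (g : ZMod m × ZMod m → ℂ) (w) :
    ft (fun z => g (t2 z)) w = ZMod.stdAddChar (-w.2) * ft g w := by
  rw [ft_comp, ft, Finset.mul_sum]
  refine sum_congr rfl fun u _ => ?_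
  have : w.1 * ((t2 (m := m)).symm u).1 + w.2 * ((t2 (m := m)).symm u).2 =
      -w.2 + (w.1 * u.1 + w.2 * u.2) := by
    show w.1 * u.1 + w.2 * (u.2 - 1) = _
    ring
  rw [this, AddChar.map_add_eq_mul]; ring

lemma ft_s1 (g : ZMod m × ZMod m → ℂ) (w) :
    ft (fun z => g (s1 z)) w = ft g (s2.symm w) := by
  rw [ft_comp, ft]
  refine sum_congr rfl fun u _ => ?_
  have : w.1 * ((s1 (m := m)).symm u).1 + w.2 * ((s1 (m := m)).symm u).2 =
      ((s2 (m := m)).symm w).1 * u.1 + ((s2 (m := m)).symm w).2 * u.2 := by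
    show w.1 * (u.1 - 2 * u.2) + w.2 * u.2 = w.1 * u.1 + (w.2 - 2 * w.1) * u.2
    ring
  rw [this]

lemma ft_s2 (g : ZMod m × ZMod m → ℂ) (w) :
    ft (fun z => g (s2 z)) w = ft g (s1.symm w) := by
  rw [ft_comp, ft]
  refine sum_congr rfl fun u _ => ?_
  have : w.1 * ((s2 (m := m)).symm u).1 + w.2 * ((s2 (m := m)).symm u).2 =
      ((s1 (m := m)).symm w).1 * u.1 + ((s1 (m := m)).symm w).2 * u.2 := by
    show w.1 * u.1 + w.2 * (u.2 - 2 * u.1) = (w.1 - 2 * w.2) * u.1 + w.2 * u.2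
    ring
  rw [this]

/-- The Jimbo-Maruoka weight. -/
noncomputable def gam (p q : ℕ) : ℝ := if q < p then 9 / 8 else if p < q then 8 / 9 else 1

lemma gam_le (p q : ℕ) : gam p q ≤ 9 / 8 := by
  unfold gam; split_ifs <;> norm_num

lemma two_mul_le (p q : ℕ) (x y : ℝ) : 2 * x * y ≤ gam p q * x ^ 2 + gam q p * y ^ 2 := by
  unfold gam
  rcases lt_trichotomy p q with h | h | h
  · rw [if_neg (by omega), if_pos h, if_pos h]
    nlinarith [sq_nonneg (8 * x - 9 * y)]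
  · subst h
    simp only [lt_irrefl, if_false]
    nlinarith [sq_nonneg (x - y)]
  · rw [if_pos h, if_neg (by omega), if_pos h]
    nlinarith [sq_nonneg (9 * x - 8 * y)]

lemma gam_int (a b : ℤ) (h : ¬ (a = 0 ∧ b = 0)) :
    gam (a.natAbs + b.natAbs) (a.natAbs + (b - 2 * a).natAbs) +
      gam (a.natAbs + b.natAbs) (a.natAbs + (b + 2 * a).natAbs) +
      gam (a.natAbs + b.natAbs) ((a - 2 * b).natAbs + b.natAbs) +
      gam (a.natAbs + b.natAbs) ((a + 2 * b).natAbs + b.natAbs) ≤ 39 / 10 := by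
  unfold gam
  split_ifs <;> first | (exfalso; omega) | norm_num

/-- The size of a frequency. -/
def nn (z : ZMod m × ZMod m) : ℕ := z.1.valMinAbs.natAbs + z.2.valMinAbs.natAbs

lemma vma (x y : ZMod m) (c : ℤ) (hc : c = 2 ∨ c = -2) (hx : 6 * x.valMinAbs.natAbs < m)
    (hy : 6 * y.valMinAbs.natAbs < m) :
    (x + c * y).valMinAbs = x.valMinAbs + c * y.valMinAbs := by
  rw [ZMod.valMinAbs_spec]
  refine ⟨by simp, ?_⟩
  rw [Set.mem_Ioc]
  rcases hc with rfl | rfl <;> constructor <;> omega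

lemma pot_ge (x : ZMod m) (hx : m ≤ 6 * x.valMinAbs.natAbs) :
    1 ≤ ‖1 - (ZMod.stdAddChar (-x) : ℂ)‖ ^ 2 := by
  have hm : (0 : ℝ) < m := Nat.cast_pos.mpr (NeZero.pos m)
  set j := x.valMinAbs with hj
  have h1 : (-x) = ((-j : ℤ) : ZMod m) := by simp [hj]
  have h2 : j.natAbs * 2 ≤ m := by
    have := ZMod.natAbs_valMinAbs_le x
    rw [← hj] at this
    omega
  set θ : ℝ := 2 * Real.pi * (-j : ℤ) / m with hθ
  have h3 : (ZMod.stdAddChar (-x) : ℂ) = Complex.exp (θ * Complex.I) := by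
    rw [h1, ZMod.stdAddChar_coe]
    congr 1
    rw [hθ]; push_cast; ring
  have h4 : |θ| = 2 * Real.pi * j.natAbs / m := by
    rw [hθ, abs_div, abs_mul, abs_of_pos hm, abs_of_pos (by positivity : 0 < 2 * Real.pi)]
    simp
  have h5 : Real.cos θ ≤ 1 / 2 := by
    rw [← Real.cos_abs, ← Real.cos_pi_div_three]
    have hx' : (m : ℝ) ≤ 6 * j.natAbs := by exact_mod_cast hx
    have h2' : (j.natAbs : ℝ) * 2 ≤ m := by exact_mod_cast h2
    refine Real.cos_le_cos_of_nonneg_of_le_pi (by positivity) ?_ ?_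
    · rw [h4, div_le_iff₀ hm]
      nlinarith [Real.pi_pos]
    · rw [h4, le_div_iff₀ hm]
      nlinarith [Real.pi_pos]
  rw [h3, Complex.sq_norm, Complex.normSq_apply]
  simp only [Complex.sub_re, Complex.one_re, Complex.exp_ofReal_mul_I_re, Complex.sub_im,
    Complex.one_im, Complex.exp_ofReal_mul_I_im]
  nlinarith [Real.sin_sq_add_cos_sq θ]

lemma coef (w : ZMod m × ZMod m) (hw : w ≠ 0) :
    1 / 10 ≤ ‖1 - (ZMod.stdAddChar (-w.1) : ℂ)‖ ^ 2 + ‖1 - (ZMod.stdAddChar (-w.2) : ℂ)‖ ^ 2 +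
      (4 - (gam (nn w) (nn (s2.symm w)) + gam (nn w) (nn (s2 w)) +
        gam (nn w) (nn (s1.symm w)) + gam (nn w) (nn (s1 w)))) := by
  have p1 := sq_nonneg ‖1 - (ZMod.stdAddChar (-w.1) : ℂ)‖
  have p2 := sq_nonneg ‖1 - (ZMod.stdAddChar (-w.2) : ℂ)‖
  have g1 := gam_le (nn w) (nn (s2.symm w))
  have g2 := gam_le (nn w) (nn (s2 w))
  have g3 := gam_le (nn w) (nn (s1.symm w))
  have g4 := gam_le (nn w) (nn (s1 w))
  by_cases ha : m ≤ 6 * w.1.valMinAbs.natAbs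
  · have := pot_ge _ ha
    linarith
  by_cases hb : m ≤ 6 * w.2.valMinAbs.natAbs
  · have := pot_ge _ hb
    linarith
  push Not at ha hb
  have e1 : nn (s2.symm w) =
      w.1.valMinAbs.natAbs + (w.2.valMinAbs - 2 * w.1.valMinAbs).natAbs := by
    have := vma w.2 w.1 (-2) (Or.inr rfl) hb ha
    show w.1.valMinAbs.natAbs + (w.2 - 2 * w.1).valMinAbs.natAbs = _
    rw [show w.2 - 2 * w.1 = w.2 + ((-2 : ℤ) : ZMod m) * w.1 by push_cast; ring, this]
    congr 2; ring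
  have e2 : nn (s2 w) =
      w.1.valMinAbs.natAbs + (w.2.valMinAbs + 2 * w.1.valMinAbs).natAbs := by
    have := vma w.2 w.1 2 (Or.inl rfl) hb ha
    show w.1.valMinAbs.natAbs + (w.2 + 2 * w.1).valMinAbs.natAbs = _
    rw [show w.2 + 2 * w.1 = w.2 + ((2 : ℤ) : ZMod m) * w.1 by push_cast; ring, this]
  have e3 : nn (s1.symm w) =
      (w.1.valMinAbs - 2 * w.2.valMinAbs).natAbs + w.2.valMinAbs.natAbs := by
    have := vma w.1 w.2 (-2) (Or.inr rfl) ha hb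
    show (w.1 - 2 * w.2).valMinAbs.natAbs + w.2.valMinAbs.natAbs = _
    rw [show w.1 - 2 * w.2 = w.1 + ((-2 : ℤ) : ZMod m) * w.2 by push_cast; ring, this]
    congr 2; ring
  have e4 : nn (s1 w) =
      (w.1.valMinAbs + 2 * w.2.valMinAbs).natAbs + w.2.valMinAbs.natAbs := by
    have := vma w.1 w.2 2 (Or.inl rfl) ha hb
    show (w.1 + 2 * w.2).valMinAbs.natAbs + w.2.valMinAbs.natAbs = _
    rw [show w.1 + 2 * w.2 = w.1 + ((2 : ℤ) : ZMod m) * w.2 by push_cast; ring, this]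
  have h0 : ¬ (w.1.valMinAbs = 0 ∧ w.2.valMinAbs = 0) := by
    rintro ⟨h1, h2⟩
    rw [ZMod.valMinAbs_eq_zero] at h1 h2
    exact hw (Prod.ext h1 h2)
  have := gam_int _ _ h0
  rw [e1, e2, e3, e4]
  unfold nn
  linarith

lemma edge_sum (G : ZMod m × ZMod m → ℝ) (S : ZMod m × ZMod m ≃ ZMod m × ZMod m) :
    ∑ w, (2 - (gam (nn w) (nn (S.symm w)) + gam (nn w) (nn (S w)))) * G w ^ 2 ≤
      ∑ w, (G w - G (S.symm w)) ^ 2 := by
  have h1 : ∑ w, (1 - gam (nn w) (nn (S w))) * G w ^ 2 =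
      ∑ w, (1 - gam (nn (S.symm w)) (nn w)) * G (S.symm w) ^ 2 := by
    rw [← S.symm.sum_comp]
    simp
  have h2 : ∑ w, (2 - (gam (nn w) (nn (S.symm w)) + gam (nn w) (nn (S w)))) * G w ^ 2 =
      ∑ w, (1 - gam (nn w) (nn (S.symm w))) * G w ^ 2 +
        ∑ w, (1 - gam (nn w) (nn (S w))) * G w ^ 2 := by
    rw [← Finset.sum_add_distrib]
    exact sum_congr rfl fun w _ => by ring
  rw [h2, h1, ← Finset.sum_add_distrib]
  refine sum_le_sum fun w _ => ?_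
  have := two_mul_le (nn w) (nn (S.symm w)) (G w) (G (S.symm w))
  nlinarith

end Marg

open Marg in
theorem margulis (m : ℕ) [NeZero m] (f : ZMod m × ZMod m → ℝ) (hf : ∑ z, f z = 0) :
    ∑ z, f z ^ 2 ≤ 10 * ∑ z : ZMod m × ZMod m,
      ((f z - f (z.1 + 1, z.2)) ^ 2 + (f z - f (z.1, z.2 + 1)) ^ 2 +
        (f z - f (z.1 + 2 * z.2, z.2)) ^ 2 + (f z - f (z.1, z.2 + 2 * z.1)) ^ 2) := by
  have hm : (0 : ℝ) < m := Nat.cast_pos.mpr (NeZero.pos m)
  set g : ZMod m × ZMod m → ℂ := fun z => f z with hg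
  set G : ZMod m × ZMod m → ℝ := fun w => ‖ft g w‖ with hG
  have hG0 : G 0 = 0 := by
    have : ft g 0 = ((∑ z, f z : ℝ) : ℂ) := by simp [ft, hg]
    simp only [hG, this, hf]; simp
  have hP : ∀ T : ZMod m × ZMod m → ZMod m × ZMod m, (m : ℝ) ^ 2 * ∑ z, (f z - f (T z)) ^ 2 =
      ∑ w, ‖ft g w - ft (fun z => g (T z)) w‖ ^ 2 := by
    intro T
    have := parseval fun z => g z - g (T z)
    simp only [ft_sub] at this
    rw [this]
    congr 1
    refine sum_congr rfl fun z _ => ?_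
    simp only [hg]
    rw [← Complex.ofReal_sub, Complex.norm_real, Real.norm_eq_abs, sq_abs]
  have h0 : (m : ℝ) ^ 2 * ∑ z, f z ^ 2 = ∑ w, G w ^ 2 := by
    rw [parseval]
    simp [hg]
  have h1 : (m : ℝ) ^ 2 * ∑ z, (f z - f (t1 z)) ^ 2 =
      ∑ w, ‖1 - (ZMod.stdAddChar (-w.1) : ℂ)‖ ^ 2 * G w ^ 2 := by
    rw [hP]
    refine sum_congr rfl fun w _ => ?_
    rw [ft_t1, ← mul_pow, ← norm_mul]
    congr 2; ring
  have h2 : (m : ℝ) ^ 2 * ∑ z, (f z - f (t2 z)) ^ 2 =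
      ∑ w, ‖1 - (ZMod.stdAddChar (-w.2) : ℂ)‖ ^ 2 * G w ^ 2 := by
    rw [hP]
    refine sum_congr rfl fun w _ => ?_
    rw [ft_t2, ← mul_pow, ← norm_mul]
    congr 2; ring
  have hrev : ∀ w w', (G w - G w') ^ 2 ≤ ‖ft g w - ft g w'‖ ^ 2 := fun w w' => by
    rw [← sq_abs (G w - G w')]
    exact pow_le_pow_left₀ (abs_nonneg _) (abs_norm_sub_norm_le _ _) 2
  have h3 : ∑ w, (G w - G (s2.symm w)) ^ 2 ≤ (m : ℝ) ^ 2 * ∑ z, (f z - f (s1 z)) ^ 2 := by
    rw [hP]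
    refine sum_le_sum fun w _ => ?_
    rw [ft_s1]
    exact hrev _ _
  have h4 : ∑ w, (G w - G (s1.symm w)) ^ 2 ≤ (m : ℝ) ^ 2 * ∑ z, (f z - f (s2 z)) ^ 2 := by
    rw [hP]
    refine sum_le_sum fun w _ => ?_
    rw [ft_s2]
    exact hrev _ _
  have h5 := edge_sum G s2
  have h6 := edge_sum G s1
  have h7 : ∑ w, 1 / 10 * G w ^ 2 ≤
      ∑ w, ‖1 - (ZMod.stdAddChar (-w.1) : ℂ)‖ ^ 2 * G w ^ 2 +
      ∑ w, ‖1 - (ZMod.stdAddChar (-w.2) : ℂ)‖ ^ 2 * G w ^ 2 +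
      ∑ w, (2 - (gam (nn w) (nn (s2.symm w)) + gam (nn w) (nn (s2 w)))) * G w ^ 2 +
      ∑ w, (2 - (gam (nn w) (nn (s1.symm w)) + gam (nn w) (nn (s1 w)))) * G w ^ 2 := by
    simp only [← Finset.sum_add_distrib]
    refine sum_le_sum fun w _ => ?_
    by_cases hw : w = 0
    · subst hw
      rw [hG0]; simp
    · have := mul_le_mul_of_nonneg_right (coef w hw) (sq_nonneg (G w))
      linarith
  rw [← Finset.mul_sum] at h7
  have h8 : ∑ z : ZMod m × ZMod m,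
      ((f z - f (z.1 + 1, z.2)) ^ 2 + (f z - f (z.1, z.2 + 1)) ^ 2 +
        (f z - f (z.1 + 2 * z.2, z.2)) ^ 2 + (f z - f (z.1, z.2 + 2 * z.1)) ^ 2) =
      ∑ z, (f z - f (t1 z)) ^ 2 + ∑ z, (f z - f (t2 z)) ^ 2 + ∑ z, (f z - f (s1 z)) ^ 2 +
        ∑ z, (f z - f (s2 z)) ^ 2 := by
    simp only [← Finset.sum_add_distrib]
    rfl
  rw [h8]
  refine le_of_mul_le_mul_left ?_ (pow_pos hm 2)
  linarith

end Vale.Agent.Lib.PCP
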