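import Vale.Agent.Lib.PCP.Base
import Vale.Agent.Lib.PCP.Margulis

/-! Explicit expanders of every size, given by twelve permutations of `0, …, k - 1`. -/

namespace Vale.Agent.Lib.PCP

open Vale.Agent.Lib.TM Finset

/-- Generator `i < 12` of the expander on `k` points, with `m = sqrt k`. Generators `i` and
`i + 6` are inverse to each other. A point `x < m * m` stands for the pair `(x / m, x % m)`. -/
def expAux (k m i x : ℕ) : ℕ :=
  bif i == 4 then (x + m * m) % k
  else bif i == 10 then (x + (k - m * m)) % k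
  else bif i == 5 then (x + 2 * (m * m)) % k
  else bif i == 11 then (x + 2 * (k - m * m)) % k
  else bif decide (m * m ≤ x) then x
  else bif i == 0 then (x / m + 1) % m * m + x % m
  else bif i == 6 then (x / m + (m - 1)) % m * m + x % m
  else bif i == 1 then x / m * m + (x % m + 1) % m
  else bif i == 7 then x / m * m + (x % m + (m - 1)) % m
  else bif i == 2 then (x / m + 2 * (x % m)) % m * m + x % m
  else bif i == 8 then (x / m + 2 * (m - x % m)) % m * m + x % m
  else bif i == 3 then x / m * m + (x % m + 2 * (x / m)) % m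
  else x / m * m + (x % m + 2 * (m - x / m)) % m

/-- Generator `i < 12` of the expander on `k` points. -/
def expStep (k i x : ℕ) : ℕ := expAux k k.sqrt i x

lemma pair_lt {a b m : ℕ} (ha : a < m) (hb : b < m) : a * m + b < m * m := by
  have := Nat.mul_le_mul_right m (show a + 1 ≤ m from ha)
  rw [add_mul] at this
  omega

lemma pair_div {a b m : ℕ} (hb : b < m) : (a * m + b) / m = a := by
  rw [add_comm, Nat.add_mul_div_right _ _ (by omega), Nat.div_eq_of_lt hb, zero_add]

lemma pair_mod {a b m : ℕ} (hb : b < m) : (a * m + b) % m = b := by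
  rw [add_comm, Nat.add_mul_mod_self_right, Nat.mod_eq_of_lt hb]

lemma exists_pair {x m : ℕ} (hx : x < m * m) : ∃ a < m, ∃ b < m, x = a * m + b := by
  have hm : 0 < m := Nat.pos_of_ne_zero fun h => by simp [h] at hx
  exact ⟨x / m, (Nat.div_lt_iff_lt_mul hm).mpr hx, x % m, Nat.mod_lt _ hm,
    (Nat.div_add_mod' x m).symm⟩

section core

variable {k m a b : ℕ} (ha : a < m) (hb : b < m)
include ha hb

lemma core0 : expAux k m 0 (a * m + b) = (a + 1) % m * m + b := by
  simp [expAux, pair_div hb, pair_mod hb, not_le.mpr (pair_lt ha hb)]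

lemma core6 : expAux k m 6 (a * m + b) = (a + (m - 1)) % m * m + b := by
  simp [expAux, pair_div hb, pair_mod hb, not_le.mpr (pair_lt ha hb)]

lemma core1 : expAux k m 1 (a * m + b) = a * m + (b + 1) % m := by
  simp [expAux, pair_div hb, not_le.mpr (pair_lt ha hb)]

lemma core7 : expAux k m 7 (a * m + b) = a * m + (b + (m - 1)) % m := by
  simp [expAux, pair_div hb, not_le.mpr (pair_lt ha hb)]

lemma core2 : expAux k m 2 (a * m + b) = (a + 2 * b) % m * m + b := by
  simp [expAux, pair_div hb, pair_mod hb, not_le.mpr (pair_lt ha hb)]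

lemma core8 : expAux k m 8 (a * m + b) = (a + 2 * (m - b)) % m * m + b := by
  simp [expAux, pair_div hb, pair_mod hb, not_le.mpr (pair_lt ha hb)]

lemma core3 : expAux k m 3 (a * m + b) = a * m + (b + 2 * a) % m := by
  simp [expAux, pair_div hb, not_le.mpr (pair_lt ha hb)]

lemma core9 : expAux k m 9 (a * m + b) = a * m + (b + 2 * (m - a)) % m := by
  simp [expAux, pair_div hb, not_le.mpr (pair_lt ha hb)]

end core

lemma expAux_out {k m i x : ℕ} (hx : m * m ≤ x) (h4 : i ≠ 4) (h5 : i ≠ 5) (h10 : i ≠ 10)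
    (h11 : i ≠ 11) : expAux k m i x = x := by
  simp [expAux, Bool.cond_eq_ite, hx, h4, h5, h10, h11]

lemma mod_cancel {a c d j m : ℕ} (ha : a < m) (h : c + d = j * m) :
    ((a + c) % m + d) % m = a := by
  rw [Nat.mod_add_mod, add_assoc, h, Nat.add_mul_mod_self_right, Nat.mod_eq_of_lt ha]

theorem expStep_lt {k i x : ℕ} (hx : x < k) : expStep k i x < k := by
  have hk : 0 < k := by omega
  have hm : 0 < k.sqrt := Nat.sqrt_pos.mpr hk
  have hmk := Nat.sqrt_le k
  unfold expStep expAux
  generalize k.sqrt = m at hm hmk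
  have h1 : ∀ y, y % k < k := fun y => Nat.mod_lt _ hk
  have h2 : ∀ y, y % m < m := fun y => Nat.mod_lt _ hm
  have h3 : ∀ y z, y % m * m + z % m < k := fun y z => (pair_lt (h2 _) (h2 _)).trans_le hmk
  have hc : ∀ (c : Bool) (p q : ℕ), p < k → q < k → (bif c then p else q) < k := by
    intro c p q hp hq
    cases c
    · exact hq
    · exact hp
  refine hc _ _ _ (h1 _) (hc _ _ _ (h1 _) (hc _ _ _ (h1 _) (hc _ _ _ (h1 _) ?_)))
  by_cases h : m * m ≤ x
  · rw [decide_eq_true h]
    exact hx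
  · have h4 : ∀ z, x / m * m + z % m < k := fun z =>
      (pair_lt ((Nat.div_lt_iff_lt_mul hm).mpr (not_le.mp h)) (h2 _)).trans_le hmk
    exact hc _ _ _ hx (hc _ _ _ (h3 _ _) (hc _ _ _ (h3 _ _) (hc _ _ _ (h4 _) (hc _ _ _ (h4 _)
      (hc _ _ _ (h3 _ _) (hc _ _ _ (h3 _ _) (hc _ _ _ (h4 _) (h4 _))))))))

theorem expStep_inv {k i x : ℕ} (hi : i < 12) (hx : x < k) :
    expStep k ((i + 6) % 12) (expStep k i x) = x := by
  have hmk := Nat.sqrt_le k
  unfold expStep
  generalize k.sqrt = m at hmk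
  by_cases h4 : i = 4
  · subst h4
    show ((x + m * m) % k + (k - m * m)) % k = x
    exact mod_cancel (j := 1) hx (by omega)
  by_cases h10 : i = 10
  · subst h10
    show ((x + (k - m * m)) % k + m * m) % k = x
    exact mod_cancel (j := 1) hx (by omega)
  by_cases h5 : i = 5
  · subst h5
    show ((x + 2 * (m * m)) % k + 2 * (k - m * m)) % k = x
    exact mod_cancel (j := 2) hx (by omega)
  by_cases h11 : i = 11
  · subst h11
    show ((x + 2 * (k - m * m)) % k + 2 * (m * m)) % k = x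
    exact mod_cancel (j := 2) hx (by omega)
  by_cases h : m * m ≤ x
  · rw [expAux_out h h4 h5 h10 h11, expAux_out h] <;> omega
  obtain ⟨a, ha, b, hb, rfl⟩ := exists_pair (not_le.mp h)
  have h2 : ∀ y, y % m < m := fun y => Nat.mod_lt _ (by omega)
  interval_cases i
  · rw [core0 ha hb, core6 (h2 _) hb, mod_cancel (j := 1) ha (by omega)]
  · rw [core1 ha hb, core7 ha (h2 _), mod_cancel (j := 1) hb (by omega)]
  · rw [core2 ha hb, core8 (h2 _) hb, mod_cancel (j := 2) ha (by omega)]
  · rw [core3 ha hb, core9 ha (h2 _), mod_cancel (j := 2) hb (by omega)]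
  · omega
  · omega
  · rw [core6 ha hb, core0 (h2 _) hb, mod_cancel (j := 1) ha (by omega)]
  · rw [core7 ha hb, core1 ha (h2 _), mod_cancel (j := 1) hb (by omega)]
  · rw [core8 ha hb, core2 (h2 _) hb, mod_cancel (j := 2) ha (by omega)]
  · rw [core9 ha hb, core3 ha (h2 _), mod_cancel (j := 2) hb (by omega)]
  · omega
  · omega

lemma sum_core {m : ℕ} [NeZero m] (F : ℕ → ℝ) :
    ∑ z : ZMod m × ZMod m, F (z.1.val * m + z.2.val) = ∑ x ∈ range (m * m), F x := by
  have hm := NeZero.pos m
  refine Finset.sum_nbij' (fun z => z.1.val * m + z.2.val)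
    (fun x => (((x / m : ℕ) : ZMod m), ((x % m : ℕ) : ZMod m))) ?_ ?_ ?_ ?_ ?_
  · intro z _
    exact mem_range.mpr (pair_lt (ZMod.val_lt _) (ZMod.val_lt _))
  · intro x _
    exact mem_univ _
  · intro z _
    simp only [pair_div (ZMod.val_lt z.2), pair_mod (ZMod.val_lt z.2), ZMod.natCast_zmod_val]
  · intro x hx
    obtain ⟨a, ha, b, hb, rfl⟩ := exists_pair (mem_range.mp hx)
    simp only [pair_div hb, pair_mod hb, ZMod.val_natCast, Nat.mod_eq_of_lt ha,
      Nat.mod_eq_of_lt hb]
  · intro z _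
    rfl

lemma core_poincare (k m : ℕ) (hm : 0 < m) (f : ℕ → ℝ) :
    ∃ a : ℝ, ∑ x ∈ range (m * m), (f x - a) ^ 2 ≤ 10 * ∑ x ∈ range (m * m),
      ((f x - f (expAux k m 0 x)) ^ 2 + (f x - f (expAux k m 1 x)) ^ 2 +
        (f x - f (expAux k m 2 x)) ^ 2 + (f x - f (expAux k m 3 x)) ^ 2) := by
  have : NeZero m := ⟨hm.ne'⟩
  have hm' : (m : ℝ) ≠ 0 := Nat.cast_ne_zero.mpr hm.ne'
  set a : ℝ := (∑ z : ZMod m × ZMod m, f (z.1.val * m + z.2.val)) / (m * m) with ha
  refine ⟨a, ?_⟩
  have h := margulis m (fun z => f (z.1.val * m + z.2.val) - a) (by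
    rw [Finset.sum_sub_distrib, ha]
    simp only [sum_const, card_univ, Fintype.card_prod, ZMod.card, nsmul_eq_mul, Nat.cast_mul]
    field_simp
    ring)
  rw [← sum_core, ← sum_core]
  refine h.trans (le_of_eq ?_)
  congr 1
  refine sum_congr rfl fun z _ => ?_
  have h1 : ∀ x : ZMod m, (x + 1).val = (x.val + 1) % m := fun x => by
    rw [← ZMod.val_natCast]; simp
  have h2 : ∀ x y : ZMod m, (x + 2 * y).val = (x.val + 2 * y.val) % m := fun x y => by
    rw [← ZMod.val_natCast]; simp
  have ha := ZMod.val_lt z.1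
  have hb := ZMod.val_lt z.2
  rw [core0 ha hb, core1 ha hb, core2 ha hb, core3 ha hb]
  simp only [h1, h2, sub_sub_sub_cancel_right]

theorem expStep_poincare (k : ℕ) (f : ℕ → ℝ) : ∃ a : ℝ, ∑ x ∈ range k, (f x - a) ^ 2 ≤
    50 * ∑ i ∈ range 12, ∑ x ∈ range k, (f x - f (expStep k i x)) ^ 2 := by
  rcases Nat.eq_zero_or_pos k with rfl | hk
  · exact ⟨0, by simp⟩
  have hm : 0 < k.sqrt := Nat.sqrt_pos.mpr hk
  have hmk := Nat.sqrt_le k
  have hk3 : k ≤ k.sqrt * k.sqrt + k.sqrt * k.sqrt + k.sqrt * k.sqrt := by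
    have h1 := Nat.sqrt_le_add k
    have h2 := Nat.le_mul_self k.sqrt
    omega
  unfold expStep
  generalize k.sqrt = m at hm hmk hk3
  obtain ⟨a, ha⟩ := core_poincare k m hm f
  refine ⟨a, ?_⟩
  set M := m * m with hM
  set F : ℕ → ℝ := fun e => if e < k then (f e - a) ^ 2 else 0 with hF
  have h1 : ∑ x ∈ range k, (f x - a) ^ 2 ≤ ∑ x ∈ range (M + M + M), F x := by
    have : ∑ x ∈ range k, (f x - a) ^ 2 = ∑ x ∈ range k, F x :=
      sum_congr rfl fun x hx => by simp only [hF, if_pos (mem_range.mp hx)]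
    rw [this]
    refine sum_le_sum_of_subset_of_nonneg (range_subset_range.mpr hk3) fun x _ _ => ?_
    simp only [hF]; split_ifs <;> positivity
  rw [Finset.sum_range_add, Finset.sum_range_add] at h1
  have h2 : ∑ x ∈ range M, F x ≤ ∑ x ∈ range M, (f x - a) ^ 2 := by
    refine sum_le_sum fun x _ => ?_
    simp only [hF]; split_ifs
    · exact le_rfl
    · positivity
  have h3 : ∑ x ∈ range M, F (M + x) ≤
      ∑ x ∈ range M, (2 * (f x - f (expAux k m 4 x)) ^ 2 + 2 * (f x - a) ^ 2) := by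
    refine sum_le_sum fun x _ => ?_
    simp only [hF]; split_ifs with h
    · have : expAux k m 4 x = M + x := by
        show (x + m * m) % k = _
        rw [← hM, add_comm, Nat.mod_eq_of_lt h]
      rw [this]
      nlinarith [sq_nonneg (2 * f x - f (M + x) - a)]
    · positivity
  have h4 : ∑ x ∈ range M, F (M + M + x) ≤
      ∑ x ∈ range M, (2 * (f x - f (expAux k m 5 x)) ^ 2 + 2 * (f x - a) ^ 2) := by
    refine sum_le_sum fun x _ => ?_
    simp only [hF]; split_ifs with h
    · have : expAux k m 5 x = M + M + x := by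
        show (x + 2 * (m * m)) % k = _
        rw [← hM, add_comm, two_mul, Nat.mod_eq_of_lt h]
      rw [this]
      nlinarith [sq_nonneg (2 * f x - f (M + M + x) - a)]
    · positivity
  have h5 : ∀ i, ∑ x ∈ range M, (f x - f (expAux k m i x)) ^ 2 ≤
      ∑ x ∈ range k, (f x - f (expAux k m i x)) ^ 2 := fun i =>
    sum_le_sum_of_subset_of_nonneg (range_subset_range.mpr hmk) fun x _ _ => sq_nonneg _
  have h6 : ∀ i, 0 ≤ ∑ x ∈ range k, (f x - f (expAux k m i x)) ^ 2 := fun i =>
    sum_nonneg fun x _ => sq_nonneg _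
  simp only [Finset.sum_add_distrib, ← Finset.mul_sum] at ha h3 h4
  simp only [Finset.sum_range_succ (n := 11), Finset.sum_range_succ (n := 10),
    Finset.sum_range_succ (n := 9), Finset.sum_range_succ (n := 8), Finset.sum_range_succ (n := 7),
    Finset.sum_range_succ (n := 6), Finset.sum_range_succ (n := 5), Finset.sum_range_succ (n := 4),
    Finset.sum_range_succ (n := 3), Finset.sum_range_succ (n := 2), Finset.sum_range_succ (n := 1),
    Finset.sum_range_one]
  linarith [h5 0, h5 1, h5 2, h5 3, h5 4, h5 5, h6 4, h6 5, h6 6, h6 7, h6 8, h6 9, h6 10, h6 11]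

theorem ct_expStep {α : Type} [Enc α] {e : ℕ} {k i x : α → ℕ} (hk : CT e k) (hB : Bd 0 k)
    (hi : CT e i) (hx : CT e x) : CT e fun a => expStep (k a) (i a) (x a) := by
  have hm := hk.sqrt hB
  unfold expStep expAux
  fun_prop

end Vale.Agent.Lib.PCP
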