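import Vale.Agent.Lib.PCP.Gadget

/-! Alphabet reduction on instances, and the first reduction from 3-CNF formulas. -/

namespace Vale.Agent.Lib.PCP

open Vale.Agent.Lib.TM

namespace GadCode

/-- The relation with bit mask `r`. -/
def rel (s r : ℕ) : Fin s × Fin s → Bool := fun p => r.testBit (p.1 * s + p.2)

lemma rel_mod (s r : ℕ) : rel s (r % 2 ^ (s * s)) = rel s r := by
  funext p
  have h1 := p.1.2
  have h2 := p.2.2
  have h : (p.1 : ℕ) * s + p.2 < s * s := by nlinarith
  simp [rel, Nat.testBit_mod_two_pow, h]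

/-- The number of a variable from the code of a position. -/
def var (X Y u v e : ℕ) (q : ℕ × ℕ) : ℕ :=
  bif q.1 == 0 then 2 * (u * X + q.2) else
    bif q.1 == 1 then 2 * (v * X + q.2) else 2 * (e * Y + q.2) + 1

/-- The code of a position. -/
def code {S : Type} {X Y : ℕ} (eX : (S → Bool) ≃ Fin X) (eY : (S × S → Bool) ≃ Fin Y) :
    Pos S → ℕ × ℕ :=
  Sum.elim (fun f => (0, (eX f : ℕ))) (Sum.elim (fun f => (1, (eX f : ℕ))) fun g => (2, (eY g : ℕ)))

/-- The reduction from a table. -/
def gad (X Y M : ℕ) (tab : List (List (List (ℕ × ℕ)))) (G : BG) : CSP :=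
  (List.range G.length).flatMap fun e =>
    (tab.getD ((G.getD e (0, 0, 0)).2.2 % M) []).map fun qs =>
      qs.map fun q => var X Y (G.getD e (0, 0, 0)).1 (G.getD e (0, 0, 0)).2.1 e q

lemma ct_gad (X Y M : ℕ) (tab : List (List (List (ℕ × ℕ)))) : CT 0 (gad X Y M tab) := by
  unfold gad var
  fun_prop

/-- The table. -/
def tab {s X Y : ℕ} (eX : (Fin s → Bool) ≃ Fin X) (eY : (Fin s × Fin s → Bool) ≃ Fin Y)
    (T : List (Test (Fin s))) : List (List (List (ℕ × ℕ))) :=
  (List.range (2 ^ (s * s))).map fun r => T.map fun z =>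
    (List.range 10).map fun j => code eX eY (query (rel s r) z j)

/-- The constraint for the edge number `e` and the randomness `z`. -/
def con {s X Y : ℕ} (eX : (Fin s → Bool) ≃ Fin X) (eY : (Fin s × Fin s → Bool) ≃ Fin Y)
    (G : BG) (e : ℕ) (z : Test (Fin s)) : List ℕ :=
  (List.range 10).map fun j => var X Y (G.getD e (0, 0, 0)).1 (G.getD e (0, 0, 0)).2.1 e
    (code eX eY (query (rel s (G.getD e (0, 0, 0)).2.2) z j))

lemma gad_eq {s X Y : ℕ} (eX : (Fin s → Bool) ≃ Fin X) (eY : (Fin s × Fin s → Bool) ≃ Fin Y)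
    (T : List (Test (Fin s))) (G : BG) :
    gad X Y (2 ^ (s * s)) (tab eX eY T) G =
      (List.range G.length).flatMap fun e => T.map (con eX eY G e) := by
  unfold gad
  congr 1
  funext e
  have h : (G.getD e (0, 0, 0)).2.2 % 2 ^ (s * s) < 2 ^ (s * s) := Nat.mod_lt _ (by positivity)
  have h2 : (tab eX eY T).getD ((G.getD e (0, 0, 0)).2.2 % 2 ^ (s * s)) [] = T.map fun z =>
      (List.range 10).map fun j => code eX eY (query (rel s (G.getD e (0, 0, 0)).2.2) z j) := by
    unfold tab
    rw [List.getD_eq_getElem _ _ (by simpa using h), List.getElem_map, List.getElem_range, rel_mod]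
  rw [h2, List.map_map]
  refine List.map_congr_left fun z _ => ?_
  simp only [con, Function.comp, List.map_map]
  rfl

lemma conSat_range (σ : ℕ → Bool) (f : ℕ → ℕ) :
    conSat σ ((List.range 10).map f) = Phi fun j => σ (f j) := by
  refine Phi_congr fun j hj => ?_
  rw [List.getD_eq_getElem _ _ (by simpa using hj), List.getElem_map, List.getElem_range]

lemma var_lt {S : Type} {X Y : ℕ} (eX : (S → Bool) ≃ Fin X) (eY : (S × S → Bool) ≃ Fin Y)
    {u v e B n : ℕ} (hu : u < B) (hv : v < B) (he : e < n) (p : Pos S) :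
    var X Y u v e (code eX eY p) < 2 * (X + Y) * (B + n) := by
  have h1 : (u + 1) * X ≤ B * X := Nat.mul_le_mul_right _ hu
  have h2 : (v + 1) * X ≤ B * X := Nat.mul_le_mul_right _ hv
  have h3 : (e + 1) * Y ≤ n * Y := Nat.mul_le_mul_right _ he
  have h4 : 2 * (X + Y) * (B + n) = 2 * (B * X) + 2 * (n * Y) + 2 * (n * X + B * Y) := by ring
  rw [add_mul] at h1 h2 h3
  rcases p with f | f | g
  · have := (eX f).2
    simp only [var, code, Sum.elim_inl, beq_self_eq_true, cond_true]
    omega
  · have := (eX f).2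
    simp only [var, code, Sum.elim_inl, Sum.elim_inr, beq_self_eq_true, cond_true,
      show ((1 : ℕ) == 0) = false from rfl, cond_false]
    omega
  · have := (eY g).2
    simp only [var, code, Sum.elim_inr, show ((2 : ℕ) == 0) = false from rfl,
      show ((2 : ℕ) == 1) = false from rfl, cond_false]
    omega

/-- The honest assignment. -/
def hon {S : Type} {X Y : ℕ} (eX : (S → Bool) ≃ Fin X) (eY : (S × S → Bool) ≃ Fin Y)
    (hX : 0 < X) (hY : 0 < Y) (G : BG) (A : ℕ → S) (x : ℕ) : Bool :=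
  if x % 2 = 0 then eX.symm ⟨x / 2 % X, Nat.mod_lt _ hX⟩ (A (x / 2 / X))
  else eY.symm ⟨x / 2 % Y, Nat.mod_lt _ hY⟩
    (A (G.getD (x / 2 / Y) (0, 0, 0)).1, A (G.getD (x / 2 / Y) (0, 0, 0)).2.1)

lemma hon_even {S : Type} {X Y : ℕ} (eX : (S → Bool) ≃ Fin X) (eY : (S × S → Bool) ≃ Fin Y)
    (hX : 0 < X) (hY : 0 < Y) (G : BG) (A : ℕ → S) (u : ℕ) (f : S → Bool) :
    hon eX eY hX hY G A (2 * (u * X + eX f)) = f (A u) := by
  have h0 := (eX f).2
  have h1 : 2 * (u * X + eX f) / 2 = u * X + eX f := by omega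
  have h2 : (u * X + eX f) / X = u := by
    rw [add_comm, Nat.add_mul_div_right _ _ hX, Nat.div_eq_of_lt h0, zero_add]
  have h3 : (u * X + eX f) % X = eX f := by
    rw [add_comm, Nat.add_mul_mod_self_right, Nat.mod_eq_of_lt h0]
  unfold hon
  rw [if_pos (by omega)]
  simp only [h1, h2, h3, Fin.eta, Equiv.symm_apply_apply]

lemma hon_odd {S : Type} {X Y : ℕ} (eX : (S → Bool) ≃ Fin X) (eY : (S × S → Bool) ≃ Fin Y)
    (hX : 0 < X) (hY : 0 < Y) (G : BG) (A : ℕ → S) (e : ℕ) (g : S × S → Bool) :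
    hon eX eY hX hY G A (2 * (e * Y + eY g) + 1) =
      g (A (G.getD e (0, 0, 0)).1, A (G.getD e (0, 0, 0)).2.1) := by
  have h0 := (eY g).2
  have h1 : (2 * (e * Y + eY g) + 1) / 2 = e * Y + eY g := by omega
  have h2 : (e * Y + eY g) / Y = e := by
    rw [add_comm, Nat.add_mul_div_right _ _ hY, Nat.div_eq_of_lt h0, zero_add]
  have h3 : (e * Y + eY g) % Y = eY g := by
    rw [add_comm, Nat.add_mul_mod_self_right, Nat.mod_eq_of_lt h0]
  unfold hon
  rw [if_neg (by omega)]
  simp only [h1, h2, h3, Fin.eta, Equiv.symm_apply_apply]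

lemma hon_var {S : Type} {X Y : ℕ} (eX : (S → Bool) ≃ Fin X) (eY : (S × S → Bool) ≃ Fin Y)
    (hX : 0 < X) (hY : 0 < Y) (G : BG) (A : ℕ → S) (e : ℕ) (p : Pos S) :
    hon eX eY hX hY G A (var X Y (G.getD e (0, 0, 0)).1 (G.getD e (0, 0, 0)).2.1 e (code eX eY p)) =
      honest (A (G.getD e (0, 0, 0)).1) (A (G.getD e (0, 0, 0)).2.1) p := by
  rcases p with f | f | g
  · exact hon_even eX eY hX hY G A _ f
  · exact hon_even eX eY hX hY G A _ f
  · exact hon_odd eX eY hX hY G A e g

lemma getD_mem {α : Type} (G : List α) (d : α) {e : ℕ} (he : e < G.length) : G.getD e d ∈ G := by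
  rw [List.getD_eq_getElem _ _ he]
  exact List.getElem_mem he

lemma map_getD_range {α : Type} (G : List α) (d : α) :
    (List.range G.length).map (fun e => G.getD e d) = G := by
  refine List.ext_getElem (by simp) fun i h1 h2 => ?_
  rw [List.getElem_map, List.getElem_range, List.getD_eq_getElem _ _ h2]

lemma countP_range {α : Type} (G : List α) (d : α) (p : α → Bool) :
    (List.range G.length).countP (fun e => p (G.getD e d)) = G.countP p := by
  conv_rhs => rw [← map_getD_range G d, List.countP_map]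
  rfl

lemma count_flatMap {α β : Type} (L : List α) (F : α → List β) (bad : α → Bool) (p : β → Bool)
    (k : ℝ) (h : ∀ a ∈ L, bad a = true → k ≤ (F a).countP p) :
    k * L.countP bad ≤ (L.flatMap F).countP p := by
  induction L with
  | nil => simp
  | cons a L ih =>
    have h1 := ih fun b hb => h b (by simp [hb])
    rw [List.flatMap_cons, List.countP_append, List.countP_cons]
    by_cases hb : bad a = true
    · have h2 := h a (by simp) hb
      rw [if_pos hb]
      push_cast
      linarith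
    · rw [if_neg hb]
      push_cast
      have : (0 : ℝ) ≤ (F a).countP p := Nat.cast_nonneg _
      linarith

lemma length_flatMap_const {α β : Type} (L : List α) (F : α → List β) (N : ℕ)
    (h : ∀ a ∈ L, (F a).length = N) : (L.flatMap F).length = N * L.length := by
  induction L with
  | nil => simp
  | cons a L ih =>
    rw [List.flatMap_cons, List.length_append, ih fun b hb => h b (by simp [hb]), h a (by simp),
      List.length_cons]
    ring

lemma countP_toList {α : Type} [Fintype α] (p : α → Bool) :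
    (Finset.univ : Finset α).toList.countP (fun z => !p z) =
      (Finset.univ.filter fun z => p z = false).card := by
  classical
  rw [List.countP_eq_length_filter, ← List.toFinset_card_of_nodup
    ((Finset.nodup_toList _).filter _)]
  congr 1
  ext z
  simp

/-- The bit mask for a clause with signs `b` and the literal number `j`. -/
def mask (b : Bool × Bool × Bool) (j : ℕ) : ℕ :=
  ofBits ((List.range 64).map fun p =>
    (((p / 8).testBit 0 == b.1) || ((p / 8).testBit 1 == b.2.1) || ((p / 8).testBit 2 == b.2.2)) &&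
      ((p % 8).testBit 0 == (p / 8).testBit j))

lemma testBit_mask (b : Bool × Bool × Bool) (j : ℕ) (x y : Fin 8) :
    (mask b j).testBit (x * 8 + y) =
      ((((x : ℕ).testBit 0 == b.1) || ((x : ℕ).testBit 1 == b.2.1) ||
        ((x : ℕ).testBit 2 == b.2.2)) && ((y : ℕ).testBit 0 == (x : ℕ).testBit j)) := by
  have hx := x.2
  have hy := y.2
  have h1 : ((x : ℕ) * 8 + y) / 8 = x := by omega
  have h2 : ((x : ℕ) * 8 + y) % 8 = y := by omega
  unfold mask
  rw [testBit_ofBits, List.getD_eq_getElem _ _ (by simp; omega), List.getElem_map,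
    List.getElem_range, h1, h2]

/-- The three edges of a clause. -/
def cl (i : ℕ) (c : Clause) : BG :=
  [(2 * i, 2 * c.1.1 + 1, mask (c.1.2, c.2.1.2, c.2.2.2) 0),
    (2 * i, 2 * c.2.1.1 + 1, mask (c.1.2, c.2.1.2, c.2.2.2) 1),
    (2 * i, 2 * c.2.2.1 + 1, mask (c.1.2, c.2.1.2, c.2.2.2) 2)]

/-- The default clause. -/
def dc : Clause := ((0, true), (0, true), (0, true))

/-- The first reduction. -/
def ini (K : ℕ) (φ : CNF3) : BG :=
  (0, 0, K) :: (List.range φ.length).flatMap fun i => cl i (φ.getD i dc)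

@[fun_prop]
lemma ct_mask {α : Type} [Enc α] {b : α → Bool × Bool × Bool} (hb : CT 0 b) (j : ℕ) :
    CT 0 fun a => mask (b a) j := by
  unfold mask
  generalize List.range 64 = l
  fun_prop

lemma ct_ini (K : ℕ) : CT 0 (ini K) := by
  unfold ini cl
  fun_prop

/-- The label of a clause vertex. -/
def tri (a b c : Bool) : Fin 8 := ⟨ofBits [a, b, c], ofBits_lt _⟩

/-- The label of a variable vertex. -/
def one (a : Bool) : Fin 8 := tri a false false

lemma tri0 (a b c : Bool) : (tri a b c : ℕ).testBit 0 = a := testBit_ofBits _ _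
lemma tri1 (a b c : Bool) : (tri a b c : ℕ).testBit 1 = b := testBit_ofBits _ _
lemma tri2 (a b c : Bool) : (tri a b c : ℕ).testBit 2 = c := testBit_ofBits _ _

end GadCode

open GadCode in
theorem exists_gadget (s : ℕ) (hs : 0 < s) : ∃ (gad : BG → CSP) (N C : ℕ), 0 < N ∧ CT 0 gad ∧
    ∀ G : BG, (gad G).length = N * G.length ∧
      (∀ B, G.Bdd B → (gad G).Bdd (C * (B + G.length))) ∧
      (G.Sat s → (gad G).Sat) ∧ ∀ ε, G.Gap s ε → (gad G).Gap (ε / 100) := by
  have : Nonempty (Fin s) := ⟨⟨0, hs⟩⟩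
  obtain ⟨X, eX, hX⟩ : ∃ (X : ℕ) (_ : (Fin s → Bool) ≃ Fin X), 0 < X :=
    ⟨_, Fintype.equivFin _, Fintype.card_pos⟩
  obtain ⟨Y, eY, hY⟩ : ∃ (Y : ℕ) (_ : (Fin s × Fin s → Bool) ≃ Fin Y), 0 < Y :=
    ⟨_, Fintype.equivFin _, Fintype.card_pos⟩
  obtain ⟨dec, hdec⟩ := gadget_sound (S := Fin s)
  set T : List (Test (Fin s)) := (Finset.univ : Finset (Test (Fin s))).toList with hT
  have hlen : ∀ G : BG, (gad X Y (2 ^ (s * s)) (tab eX eY T) G).length =
      Fintype.card (Test (Fin s)) * G.length := by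
    intro G
    rw [gad_eq, length_flatMap_const _ _ (Fintype.card (Test (Fin s))), List.length_range]
    intro e _
    rw [List.length_map, hT, Finset.length_toList, Finset.card_univ]
  refine ⟨gad X Y (2 ^ (s * s)) (tab eX eY T), Fintype.card (Test (Fin s)), 2 * (X + Y),
    Fintype.card_pos, ct_gad _ _ _ _, fun G => ⟨hlen G, fun B hB c hc => ?_, ?_, ?_⟩⟩
  · rw [gad_eq] at hc
    obtain ⟨e, he, hc⟩ := List.mem_flatMap.mp hc
    obtain ⟨z, -, rfl⟩ := List.mem_map.mp hc
    have he' := List.mem_range.mp he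
    have hm := hB _ (getD_mem G (0, 0, 0) he')
    refine ⟨by simp [con], fun x hx => ?_⟩
    obtain ⟨j, -, rfl⟩ := List.mem_map.mp hx
    exact var_lt eX eY hm.1 hm.2 he' _
  · rintro ⟨A, hA⟩
    refine ⟨hon eX eY hX hY G A, fun c hc => ?_⟩
    rw [gad_eq] at hc
    obtain ⟨e, he, hc⟩ := List.mem_flatMap.mp hc
    obtain ⟨z, -, rfl⟩ := List.mem_map.mp hc
    have hm := hA _ (getD_mem G (0, 0, 0) (List.mem_range.mp he))
    unfold con
    rw [conSat_range]
    simp only [hon_var]
    exact gadget_complete _ hm z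
  · intro ε hε σ
    have h1 := hε fun v => dec fun f => σ (2 * (v * X + eX f))
    rw [← countP_range G (0, 0, 0)] at h1
    have h2 := count_flatMap (List.range G.length) (fun e => T.map (con eX eY G e))
      (fun e => !edgeSat s (fun v => dec fun f => σ (2 * (v * X + eX f))) (G.getD e (0, 0, 0)))
      (fun c => !conSat σ c) ((1 / 100 : ℝ) * Fintype.card (Test (Fin s))) (by
        intro e _ hb
        have h3 := hdec (rel s (G.getD e (0, 0, 0)).2.2)
          (fun p => σ (var X Y (G.getD e (0, 0, 0)).1 (G.getD e (0, 0, 0)).2.1 e (code eX eY p)))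
          (Bool.not_eq_true' _ ▸ hb)
        refine h3.trans (le_of_eq ?_)
        rw [← countP_toList, List.countP_map]
        refine congrArg _ (List.countP_congr fun z _ => ?_)
        simp only [Function.comp, con, conSat_range])
    rw [hlen, gad_eq]
    refine le_trans ?_ h2
    have h4 : (0 : ℝ) ≤ Fintype.card (Test (Fin s)) := Nat.cast_nonneg _
    push_cast
    nlinarith

open GadCode in
theorem exists_init : ∃ ini : CNF3 → BG, CT 0 ini ∧
    ∀ φ, ini φ ≠ [] ∧ (Sat φ ↔ (ini φ).Sat 8) := by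
  refine ⟨ini (2 ^ 64 - 1), ct_ini _, fun φ => ⟨List.cons_ne_nil _ _, ?_, ?_⟩⟩
  · rintro ⟨σ, hσ⟩
    refine ⟨fun x => if x % 2 = 0 then tri (σ (φ.getD (x / 2) dc).1.1) (σ (φ.getD (x / 2) dc).2.1.1)
      (σ (φ.getD (x / 2) dc).2.2.1) else one (σ (x / 2)), fun e he => ?_⟩
    rcases List.mem_cons.mp he with rfl | he
    · unfold edgeSat
      rw [Nat.testBit_two_pow_sub_one, decide_eq_true_iff]
      omega
    · obtain ⟨i, hi, he⟩ := List.mem_flatMap.mp he
      have hc := hσ _ (getD_mem φ dc (List.mem_range.mp hi))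
      have e1 : 2 * i % 2 = 0 := by omega
      have e2 : 2 * i / 2 = i := by omega
      have e3 : ∀ x, ¬ (2 * x + 1) % 2 = 0 := by omega
      have e4 : ∀ x, (2 * x + 1) / 2 = x := by omega
      generalize hcc : φ.getD i dc = c at hc he
      simp only [clauseVal, litVal] at hc
      simp only [cl, List.mem_cons, List.not_mem_nil, or_false] at he
      rcases he with rfl | rfl | rfl <;>
        simp only [edgeSat, testBit_mask, e1, e2, e3, e4, if_true, if_false, hcc, one, tri0, tri1,
          tri2, hc, beq_self_eq_true, Bool.and_self]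
  · rintro ⟨A, hA⟩
    refine ⟨fun x => (A (2 * x + 1) : ℕ).testBit 0, fun c hc => ?_⟩
    obtain ⟨i, hi, rfl⟩ := List.getElem_of_mem hc
    have key : ∀ e ∈ cl i φ[i], edgeSat 8 A e = true := fun e he =>
      hA e (List.mem_cons_of_mem _ (List.mem_flatMap.mpr ⟨i, List.mem_range.mpr hi, by
        rwa [List.getD_eq_getElem _ _ hi]⟩))
    have h0 := key _ (List.mem_cons_self)
    have h1 := key _ (List.mem_cons_of_mem _ List.mem_cons_self)
    have h2 := key _ (List.mem_cons_of_mem _ (List.mem_cons_of_mem _ List.mem_cons_self))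
    simp only [edgeSat, testBit_mask, Bool.and_eq_true, beq_iff_eq] at h0 h1 h2
    simp only [clauseVal, litVal, h0.2, h1.2, h2.2]
    exact h0.1

end Vale.Agent.Lib.PCP
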