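import Vale.Agent.Lib.PCP.Base

/-! The folded long code test (alphabet reduction). -/

namespace Vale.Agent.Lib.PCP

open Finset

variable {S : Type}

/-- The randomness `(g, h, k, f)` of the test. -/
abbrev Test (S : Type) := (S × S → Bool) × (S × S → Bool) × (S × S → Bool) × (S → Bool)

/-- Positions: in the left code word, in the right code word, or in the proof. -/
abbrev Pos (S : Type) := (S → Bool) ⊕ (S → Bool) ⊕ (S × S → Bool)

/-- The proof position read for `g`, folded over the relation `R`. -/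
def foldPos (R g : S × S → Bool) : Pos S := .inr (.inr fun p => g p && R p)

/-- The ten queries. -/
def query (R : S × S → Bool) (z : Test S) : ℕ → Pos S
  | 0 => foldPos R z.1
  | 1 => foldPos R z.2.1
  | 2 => foldPos R fun p => z.1 p ^^ z.2.1 p
  | 3 => foldPos R z.2.2.1
  | 4 => foldPos R fun p => (z.1 p && z.2.1 p) ^^ z.2.2.1 p
  | 5 => foldPos R fun p => !z.1 p
  | 6 => .inl z.2.2.2
  | 7 => foldPos R fun p => z.2.2.2 p.1 ^^ z.2.2.1 p
  | 8 => .inr (.inl z.2.2.2)
  | _ => foldPos R fun p => z.2.2.2 p.2 ^^ z.2.2.1 p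

/-- The honest tables for the labels `α`, `β`. -/
def honest (α β : S) : Pos S → Bool :=
  Sum.elim (fun f => f α) (Sum.elim (fun f => f β) fun g => g (α, β))

theorem gadget_complete (R : S × S → Bool) {α β : S} (h : R (α, β) = true) (z : Test S) :
    Phi (fun j => honest α β (query R z j)) = true := by
  simp only [Phi, query, foldPos, honest, Sum.elim_inr, Sum.elim_inl, h]
  cases z.1 (α, β) <;> cases z.2.1 (α, β) <;> cases z.2.2.1 (α, β) <;> cases z.2.2.2 α <;>
    cases z.2.2.2 β <;> rfl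

namespace Gad

variable {Ω Ω' : Type} [Fintype Ω] [Fintype Ω']

open Classical in
/-- The uniform probability of an event. -/
noncomputable def pr (p : Ω → Prop) : ℝ := (∑ x, if p x then (1 : ℝ) else 0) / Fintype.card Ω

lemma pr_eq_card (p : Ω → Prop) [DecidablePred p] :
    pr p = (univ.filter p).card / Fintype.card Ω := by
  rw [pr, Finset.card_filter]
  push_cast
  congr 1
  exact sum_congr rfl fun x _ => by by_cases h : p x <;> simp [h]

lemma pr_nonneg (p : Ω → Prop) : 0 ≤ pr p :=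
  div_nonneg (sum_nonneg fun x _ => by split_ifs <;> norm_num) (Nat.cast_nonneg _)

lemma pr_le_add {p q r : Ω → Prop} (h : ∀ x, p x → q x ∨ r x) : pr p ≤ pr q + pr r := by
  unfold pr
  rw [← add_div, ← Finset.sum_add_distrib]
  refine div_le_div_of_nonneg_right (sum_le_sum fun x _ => ?_) (Nat.cast_nonneg _)
  by_cases hp : p x
  · rcases h x hp with hq | hq <;> simp only [hp, hq, if_true] <;> split_ifs <;> norm_num
  · simp only [hp, if_false]
    split_ifs <;> norm_num

lemma pr_mono {p q : Ω → Prop} (h : ∀ x, p x → q x) : pr p ≤ pr q := by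
  unfold pr
  refine div_le_div_of_nonneg_right (sum_le_sum fun x _ => ?_) (Nat.cast_nonneg _)
  by_cases hp : p x
  · simp only [hp, h x hp, if_true, le_rfl]
  · simp only [hp, if_false]
    split_ifs <;> norm_num

lemma pr_or (p q : Ω → Prop) : pr (fun x => p x ∨ q x) ≤ pr p + pr q :=
  pr_le_add fun _ h => h

lemma pr_true [Nonempty Ω] : pr (fun _ : Ω => True) = 1 := by
  have : (Fintype.card Ω : ℝ) ≠ 0 := Nat.cast_ne_zero.mpr Fintype.card_ne_zero
  simp [pr, this]

lemma exists_not [Nonempty Ω] {p : Ω → Prop} (h : pr p < 1) : ∃ x, ¬ p x := by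
  by_contra hc
  push Not at hc
  have := pr_mono (p := fun _ => True) fun x _ => hc x
  rw [pr_true] at this
  linarith

lemma pr_add_not [Nonempty Ω] (p : Ω → Prop) : pr p + pr (fun x => ¬ p x) = 1 := by
  have : (Fintype.card Ω : ℝ) ≠ 0 := Nat.cast_ne_zero.mpr Fintype.card_ne_zero
  unfold pr
  rw [← add_div, ← Finset.sum_add_distrib, div_eq_one_iff_eq this]
  have h : ∀ x ∈ (univ : Finset Ω), ((@ite ℝ (p x) (Classical.propDecidable _) 1 0) +
      (@ite ℝ (¬ p x) (Classical.propDecidable _) 1 0)) = 1 := fun x _ => by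
    by_cases h : p x <;> simp [h]
  rw [sum_congr rfl h]
  simp

lemma pr_equiv (e : Ω ≃ Ω') (p : Ω' → Prop) : pr (fun x => p (e x)) = pr p := by
  unfold pr
  rw [Fintype.card_congr e]
  congr 1
  exact e.sum_comp fun y => @ite ℝ (p y) (Classical.propDecidable _) 1 0

lemma pr_prod (p : Ω × Ω' → Prop) :
    pr p = (∑ x, pr fun y => p (x, y)) / Fintype.card Ω := by
  unfold pr
  rw [Fintype.sum_prod_type, Fintype.card_prod, ← Finset.sum_div, div_div, Nat.cast_mul,
    mul_comm]

lemma pr_prod_le [Nonempty Ω] {p : Ω × Ω' → Prop} {c : ℝ} (h : ∀ x, pr (fun y => p (x, y)) ≤ c) :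
    pr p ≤ c := by
  have h0 : (0 : ℝ) < Fintype.card Ω := Nat.cast_pos.mpr Fintype.card_pos
  rw [pr_prod, div_le_iff₀ h0]
  refine (sum_le_sum fun x _ => h x).trans (le_of_eq ?_)
  simp [mul_comm]

lemma le_pr_prod [Nonempty Ω] {p : Ω × Ω' → Prop} {c : ℝ} (h : ∀ x, c ≤ pr fun y => p (x, y)) :
    c ≤ pr p := by
  have h0 : (0 : ℝ) < Fintype.card Ω := Nat.cast_pos.mpr Fintype.card_pos
  rw [pr_prod, le_div_iff₀ h0]
  refine le_trans (le_of_eq ?_) (sum_le_sum fun x _ => h x)
  simp [mul_comm]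

lemma pr_prod_le' [Nonempty Ω'] {p : Ω × Ω' → Prop} {c : ℝ}
    (h : ∀ y, pr (fun x => p (x, y)) ≤ c) : pr p ≤ c := by
  rw [← pr_equiv (Equiv.prodComm Ω' Ω) p]
  exact pr_prod_le h

lemma pr_snd [Nonempty Ω] (p : Ω' → Prop) : pr (fun z : Ω × Ω' => p z.2) = pr p :=
  le_antisymm (pr_prod_le fun _ => le_rfl) (le_pr_prod fun _ => le_rfl)

lemma pr_fst [Nonempty Ω'] (p : Ω → Prop) : pr (fun z : Ω × Ω' => p z.1) = pr p := by
  rw [← pr_equiv (Equiv.prodComm Ω' Ω)]
  exact pr_snd p

lemma pr_shift {G : Type} [Fintype G] [AddCommGroup G] (p : G → Prop) (a : G) :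
    pr (fun x => p (a + x)) = pr p :=
  pr_equiv (Equiv.addLeft a) p

lemma exists_major [Nonempty Ω] (q : Ω → Bool) : ∃ b, pr (fun x => q x ≠ b) ≤ 1 / 2 := by
  have h := pr_add_not fun x => q x ≠ true
  by_cases h1 : pr (fun x => q x ≠ true) ≤ 1 / 2
  · exact ⟨true, h1⟩
  · refine ⟨false, le_trans (pr_mono (q := fun x => ¬ q x ≠ true) fun x hx => ?_) (by linarith)⟩
    revert hx; cases q x <;> simp

/-- The linearity test of Blum, Luby and Rubinfeld. -/
theorem blr {G : Type} [Fintype G] [AddCommGroup G] (P : G → Bool)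
    {ε : ℝ} (hε : ε < 1 / 6) (h : pr (fun z : G × G => P (z.1 + z.2) ≠ P z.1 + P z.2) ≤ ε) :
    ∃ χ : G → Bool, (∀ g g', χ (g + g') = χ g + χ g') ∧ pr (fun g => χ g ≠ P g) ≤ 3 * ε := by
  choose χ hχ using fun g => exists_major fun x => P (g + x) + P x
  have h1 : ∀ g, pr (fun x => P (g + x) + P x ≠ χ g) ≤ 2 * ε := by
    intro g
    have h3 : pr (fun x => P (g + x) + P x ≠ χ g) ≤
        pr fun z : G × G => P (g + z.1) + P z.1 ≠ P (g + z.2) + P z.2 := by
      refine le_pr_prod fun x => ?_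
      by_cases hx : P (g + x) + P x = χ g
      · exact pr_mono fun y hy => by rw [hx]; exact hy.symm
      · have h4 := pr_add_not fun y => P (g + y) + P y ≠ χ g
        have h5 := hχ g
        refine le_trans (by linarith) (pr_mono (p := fun y => ¬ P (g + y) + P y ≠ χ g)
          fun y hy => ?_)
        rw [not_not.mp hy]; exact hx
    have h4 : pr (fun z : G × G => P (g + z.1 + z.2) ≠ P (g + z.1) + P z.2) ≤ ε :=
      (pr_equiv ((Equiv.addLeft g).prodCongr (Equiv.refl G))
        fun z : G × G => P (z.1 + z.2) ≠ P z.1 + P z.2).trans_le h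
    have h5 : pr (fun z : G × G => P (z.1 + (g + z.2)) ≠ P z.1 + P (g + z.2)) ≤ ε :=
      (pr_equiv ((Equiv.refl G).prodCongr (Equiv.addLeft g))
        fun z : G × G => P (z.1 + z.2) ≠ P z.1 + P z.2).trans_le h
    refine h3.trans ((pr_le_add fun z hz => ?_).trans ((add_le_add h4 h5).trans (by linarith)))
    rw [show z.1 + (g + z.2) = g + z.1 + z.2 by abel]
    revert hz
    cases P (g + z.1 + z.2) <;> cases P (g + z.1) <;> cases P z.2 <;> cases P z.1 <;>
      cases P (g + z.2) <;> decide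
  refine ⟨χ, fun g g' => ?_, ?_⟩
  · have h3 := pr_shift (fun x => P (g' + x) + P x ≠ χ g') g
    have h4 : pr (fun x => P (g + g' + x) + P x ≠ χ (g + g') ∨ (P (g + x) + P x ≠ χ g ∨
        P (g' + (g + x)) + P (g + x) ≠ χ g')) < 1 := by
      refine (pr_or _ _).trans_lt ?_
      have h5 := pr_or (fun x => P (g + x) + P x ≠ χ g)
        fun x => P (g' + (g + x)) + P (g + x) ≠ χ g'
      linarith [h1 g, h1 g', h1 (g + g')]
    obtain ⟨x, hx⟩ := exists_not h4
    push Not at hx
    obtain ⟨e1, e2, e3⟩ := hx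
    rw [← e1, ← e2, ← e3, show g' + (g + x) = g + g' + x by abel]
    cases P (g + g' + x) <;> cases P x <;> cases P (g + x) <;> rfl
  · rw [← pr_fst (Ω' := G)]
    have h3 : pr (fun z : G × G => P (z.1 + z.2) + P z.2 ≠ χ z.1) ≤ 2 * ε := pr_prod_le h1
    refine (pr_le_add fun z hz => ?_).trans ((add_le_add h3 h).trans (by linarith))
    revert hz
    cases P (z.1 + z.2) <;> cases P z.2 <;> cases P z.1 <;> cases χ z.1 <;> decide

/-- A ring homomorphism from the functions to `Bool` is an evaluation. -/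
lemma eval_of_hom {ι : Type} [Fintype ι] [DecidableEq ι] (χ : (ι → Bool) → Bool)
    (hadd : ∀ g g', χ (g + g') = χ g + χ g') (hmul : ∀ g g', χ (g * g') = χ g * χ g')
    (hone : χ 1 = true) : ∃ p, ∀ g, χ g = g p := by
  have h0 : χ 0 = 0 := by
    have := hadd 0 0
    rw [add_zero] at this
    rw [this]
    cases χ 0 <;> rfl
  let χ' : (ι → Bool) →+ Bool := ⟨⟨χ, h0⟩, hadd⟩
  have h1 : ∃ p, χ (Pi.single p true) = true := by
    by_contra hc
    push Not at hc
    have h2 : χ' (∑ p, Pi.single p ((1 : ι → Bool) p)) = ∑ p, χ' (Pi.single p true) :=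
      map_sum χ' _ _
    rw [Finset.univ_sum_single] at h2
    have h3 : ∑ p, χ' (Pi.single p true) = 0 :=
      sum_eq_zero fun p _ => Bool.eq_false_iff.mpr (hc p)
    rw [h3] at h2
    exact absurd (hone.symm.trans h2) (by decide)
  obtain ⟨p, hp⟩ := h1
  refine ⟨p, fun g => ?_⟩
  have h2 := hmul g (Pi.single p true)
  rw [hp] at h2
  have h3 : χ g * true = χ g := mul_one _
  rw [h3] at h2
  rw [← h2]
  cases hg : g p
  · have : g * Pi.single p true = 0 := by
      funext q
      by_cases hq : q = p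
      · subst hq; simp [hg]; rfl
      · simp [hq]
    rw [this, h0]; rfl
  · have : g * Pi.single p true = Pi.single p true := by
      funext q
      by_cases hq : q = p
      · subst hq; simp [hg]; rfl
      · simp [hq]
    rw [this, hp]

open Classical in
/-- The decoding of a table. -/
noncomputable def dec [Fintype S] [DecidableEq S] [Nonempty S] (A : (S → Bool) → Bool) : S :=
  if h : ∃ s, pr (fun f : S → Bool => A f ≠ f s) < 1 / 4 then h.choose else Classical.arbitrary S

lemma dec_eq [Fintype S] [DecidableEq S] [Nonempty S] {A : (S → Bool) → Bool} {s : S}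
    (h : pr (fun f : S → Bool => A f ≠ f s) < 1 / 4) : dec A = s := by
  have h1 : ∃ s, pr (fun f : S → Bool => A f ≠ f s) < 1 / 4 := ⟨s, h⟩
  have h2 := h1.choose_spec
  rw [dec, dif_pos h1]
  generalize h1.choose = t at h2
  by_contra hne
  set d : S → Bool := Pi.single s true with hd
  have h3 := pr_shift (fun f : S → Bool => A f ≠ f s) d
  have h4 := pr_shift (fun f : S → Bool => A f ≠ f t) d
  have h5 := pr_or (fun f : S → Bool => A f ≠ f s) fun f : S → Bool => A f ≠ f t
  have h6 := pr_or (fun f : S → Bool => A (d + f) ≠ (d + f) s)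
    fun f : S → Bool => A (d + f) ≠ (d + f) t
  obtain ⟨f, hf⟩ := exists_not ((pr_or _ _).trans_lt ((add_le_add h5 h6).trans_lt (by linarith)))
  push Not at hf
  obtain ⟨⟨e1, e2⟩, e3, e4⟩ := hf
  have e5 := e3.symm.trans e4
  rw [Pi.add_apply, Pi.add_apply, hd, Pi.single_eq_same, Pi.single_eq_of_ne hne, ← e1, ← e2] at e5
  revert e5
  cases A f <;> decide

end Gad

open Gad in
theorem gadget_sound [Fintype S] [DecidableEq S] [Nonempty S] :
    ∃ dec : ((S → Bool) → Bool) → S, ∀ (R : S × S → Bool) (T : Pos S → Bool),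
      R (dec fun f => T (.inl f), dec fun f => T (.inr (.inl f))) = false →
      (1 / 100 : ℝ) * Fintype.card (Test S) ≤
        (univ.filter fun z : Test S => Phi (fun j => T (query R z j)) = false).card := by
  refine ⟨Gad.dec, fun R T hR => ?_⟩
  have hc : (0 : ℝ) < Fintype.card (Test S) := Nat.cast_pos.mpr Fintype.card_pos
  rw [← le_div_iff₀ hc, ← pr_eq_card]
  by_contra hlt
  set bad : Test S → Prop := fun z => Phi (fun j => T (query R z j)) = false with hbad
  set ε := pr bad with hε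
  have hε1 : ε < 1 / 100 := not_le.mp hlt
  have hε0 : 0 ≤ ε := pr_nonneg _
  set P : (S × S → Bool) → Bool := fun g => T (foldPos R g) with hP
  have hgood : ∀ z : Test S, ¬ bad z → P (z.1 + z.2.1) = P z.1 + P z.2.1 ∧
      P z.1 * P z.2.1 = P (z.1 * z.2.1 + z.2.2.1) + P z.2.2.1 ∧ P (1 + z.1) = 1 + P z.1 ∧
      T (.inl z.2.2.2) = P ((fun p => z.2.2.2 p.1) + z.2.2.1) + P z.2.2.1 ∧
      T (.inr (.inl z.2.2.2)) = P ((fun p => z.2.2.2 p.2) + z.2.2.1) + P z.2.2.1 := by
    intro z hz
    have h1 : Phi (fun j => T (query R z j)) = true := Bool.eq_true_of_not_eq_false hz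
    simp only [Phi, Bool.and_eq_true, beq_iff_eq] at h1
    obtain ⟨⟨⟨⟨e1, e2⟩, e3⟩, e4⟩, e5⟩ := h1
    refine ⟨e1, e2, ?_, e4, e5⟩
    have e6 : (1 + z.1 : S × S → Bool) = fun p => !z.1 p := by
      funext p
      show (true ^^ z.1 p) = _
      cases z.1 p <;> rfl
    have e7 : ∀ b : Bool, 1 + b = !b := by decide
    rw [e6, e7]
    exact e3
  obtain ⟨χ, hadd, hχ⟩ := blr (G := S × S → Bool) P (ε := ε) (by linarith) (by
      rw [← pr_fst (Ω' := (S × S → Bool) × (S → Bool)), ← pr_equiv (Equiv.prodAssoc _ _ _).symm]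
      refine pr_mono fun z hz => ?_
      by_contra hb
      exact hz (hgood z hb).1)
  set D : (S × S → Bool) → Prop := fun g => χ g ≠ P g with hD
  have d1 : pr (fun z : Test S => D z.1) ≤ 3 * ε := (pr_fst D).trans_le hχ
  have d2 : pr (fun z : Test S => D z.2.1) ≤ 3 * ε :=
    pr_prod_le fun _ => (pr_fst D).trans_le hχ
  have d3 : ∀ u : (S × S → Bool) → (S × S → Bool) → (S → Bool) → S × S → Bool,
      pr (fun z : Test S => D (u z.1 z.2.1 z.2.2.2 + z.2.2.1)) ≤ 3 * ε := fun u =>
    pr_prod_le fun g => pr_prod_le fun h => pr_prod_le' fun f =>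
      (pr_shift D (u g h f)).trans_le hχ
  have d4 : pr (fun z : Test S => D z.2.2.1) ≤ 3 * ε :=
    pr_prod_le fun _ => pr_prod_le fun _ => (pr_fst D).trans_le hχ
  have d5 : pr (fun z : Test S => D (1 + z.1)) ≤ 3 * ε :=
    ((pr_fst fun g => D (1 + g)).trans (pr_shift D 1)).trans_le hχ
  have hone : χ 1 = true := by
    have h1 := pr_or (fun z : Test S => D z.1) fun z : Test S => D (1 + z.1)
    obtain ⟨z, hz⟩ := exists_not ((pr_or bad _).trans_lt
      ((add_le_add le_rfl h1).trans_lt (by linarith)))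
    simp only [hD, not_or, not_not] at hz
    have h2 := (hgood z hz.1).2.2.1
    rw [← hz.2.1, ← hz.2.2, hadd] at h2
    exact add_right_cancel h2
  have hmul : ∀ g g', χ (g * g') = χ g * χ g' := by
    have h1 : pr (fun z : Test S => χ (z.1 * z.2.1) ≠ χ z.1 * χ z.2.1) ≤ 13 * ε := by
      have h2 := pr_or (fun z : Test S => D z.1) fun z : Test S => D z.2.1
      have h3 := pr_or (fun z : Test S => D (z.1 * z.2.1 + z.2.2.1)) fun z : Test S => D z.2.2.1
      have h4 := d3 fun g h _ => g * h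
      refine (pr_le_add fun z hz => ?_).trans
        ((add_le_add le_rfl ((pr_or _ _).trans (add_le_add h2 h3))).trans
          (show pr bad + _ ≤ _ by linarith))
      by_contra hb
      simp only [hD, not_or, not_not] at hb
      obtain ⟨b0, ⟨b1, b2⟩, b3, b4⟩ := hb
      have h5 := (hgood z b0).2.1
      rw [← b1, ← b2, ← b3, ← b4, hadd] at h5
      apply hz
      rw [h5]
      cases χ (z.1 * z.2.1) <;> cases χ z.2.2.1 <;> rfl
    have h2 : ∀ a b : S × S → Bool, pr (fun z : Test S =>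
        χ ((a + z.1) * (b + z.2.1)) ≠ χ (a + z.1) * χ (b + z.2.1)) ≤ 13 * ε := fun a b =>
      (pr_equiv ((Equiv.addLeft a).prodCongr ((Equiv.addLeft b).prodCongr (Equiv.refl _)))
        fun z : Test S => χ (z.1 * z.2.1) ≠ χ z.1 * χ z.2.1).trans_le h1
    intro g g'
    obtain ⟨z, hz⟩ := exists_not ((pr_or _ _).trans_lt ((add_le_add
      ((pr_or _ _).trans (add_le_add (h2 g g') (h2 g 0)))
      ((pr_or _ _).trans (add_le_add (h2 0 g') h1))).trans_lt (by linarith)))
    simp only [not_or, not_not, zero_add, add_mul, mul_add, hadd] at hz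
    obtain ⟨⟨b1, b2⟩, b3, b4⟩ := hz
    revert b1 b2 b3 b4
    cases χ (g * g') <;> cases χ (z.1 * g') <;> cases χ (g * z.2.1) <;>
      cases χ (z.1 * z.2.1) <;> cases χ g * χ g' <;> cases χ z.1 * χ g' <;>
      cases χ g * χ z.2.1 <;> cases χ z.1 * χ z.2.1 <;> decide
  obtain ⟨⟨a, b⟩, hp⟩ := eval_of_hom χ hadd hmul hone
  have hdec : ∀ (A : (S → Bool) → Bool) (π : S × S → S), (∀ z : Test S, ¬ bad z →
      A z.2.2.2 = P ((fun p => z.2.2.2 (π p)) + z.2.2.1) + P z.2.2.1) →
      Gad.dec A = π (a, b) := by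
    intro A π hA
    refine dec_eq ?_
    rw [← pr_snd (Ω := S × S → Bool), ← pr_snd (Ω := S × S → Bool), ← pr_snd (Ω := S × S → Bool)]
    have h3 := pr_or (fun z : Test S => D ((fun p => z.2.2.2 (π p)) + z.2.2.1))
      fun z : Test S => D z.2.2.1
    have h4 := d3 fun _ _ f p => f (π p)
    refine ((pr_le_add fun z hz => ?_).trans (add_le_add le_rfl h3)).trans_lt
      (show pr bad + _ < _ by linarith)
    by_contra hb
    simp only [hD, not_or, not_not] at hb
    obtain ⟨b0, b1, b2⟩ := hb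
    apply hz
    rw [hA z b0, ← b1, ← b2, hadd, hp, hp]
    cases z.2.2.2 (π (a, b)) <;> cases z.2.2.1 (a, b) <;> rfl
  rw [hdec _ Prod.fst fun z hz => (hgood z hz).2.2.2.1,
    hdec _ Prod.snd fun z hz => (hgood z hz).2.2.2.2] at hR
  have h1 := pr_shift D (Pi.single (a, b) true)
  obtain ⟨g, hg⟩ := exists_not ((pr_or D fun g => D (Pi.single (a, b) true + g)).trans_lt
    (by linarith))
  simp only [hD, not_or, not_not] at hg
  have h2 : P (Pi.single (a, b) true + g) = P g := by
    simp only [hP, foldPos]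
    congr 3
    funext q
    by_cases hq : q = (a, b)
    · rw [hq, show R (a, b) = false from hR]; simp
    · rw [Pi.add_apply, Pi.single_eq_of_ne hq, zero_add]
  rw [← hg.1, ← hg.2, hp, hp, Pi.add_apply, Pi.single_eq_same] at h2
  revert h2
  cases g (a, b) <;> decide

end Vale.Agent.Lib.PCP
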