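import Vale.Agent.Lib.PCP.PowerA

/-! Gap amplification by powering, for graphs given by permutations. -/

namespace Vale.Agent.Lib.PCP

open Finset

variable {V D S : Type}

/-- The test along the walk `u` from `a`: the end points give opinions on the labels of all
vertices within fewer than `L` steps. -/
def Accept (step : D → V → V) (inv : D → D) (c : V → D → S → S → Bool) (L : ℕ)
    (a : V) (u : List D) (α β : List D → S) : Prop :=
  ∀ i, ∀ hi : i < u.length, i < L → u.length - 1 - i < L →
    c (walk step a (u.take i)) u[i] (α (u.take i)) (β (rev inv (u.drop (i + 1)))) = true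

/-- The walk selected by the randomness. -/
def pick {n : ℕ} (p : Fin n × (Fin n → D)) : List D := (List.ofFn p.2).take (p.1 + 1)

lemma walk_split (step : D → V → V) (a : V) (u : List D) {i : ℕ} (hi : i < u.length) :
    walk step a u = walk step (step u[i] (walk step a (u.take i))) (u.drop (i + 1)) := by
  conv_lhs => rw [← List.take_append_drop i u, walk_append, List.drop_eq_getElem_cons hi]
  rfl

theorem power_complete {step : D → V → V} {inv : D → D}
    (hstep : ∀ s v, step (inv s) (step s v) = v) {c : V → D → S → S → Bool} {σ : V → S}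
    (hσ : ∀ v s, c v s (σ v) (σ (step s v)) = true) (L : ℕ) (a : V) (u : List D) :
    Accept step inv c L a u (fun l => σ (walk step a l))
      (fun l => σ (walk step (walk step a u) l)) := by
  intro i hi _ _
  simp only
  rw [walk_split step a u hi, walk_rev hstep]
  exact hσ _ _

lemma marks_eq (step : D → V → V) (f : V → D → ℝ) (d : D) (u : List D) (v : V) :
    marks step f v u = ∑ i ∈ range u.length, f (walk step v (u.take i)) (u.getD i d) := by
  induction u generalizing v with
  | nil => rfl
  | cons s u ih => rw [List.length_cons, sum_range_succ', marks, ih, add_comm]; rfl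

lemma rev_rev {inv : D → D} (hinv : ∀ s, inv (inv s) = s) (l : List D) :
    rev inv (rev inv l) = l := by
  simp [rev, List.map_reverse, Function.comp_def, hinv]

lemma sum_pick [Fintype D] [Nonempty D] [Fintype V] (n : ℕ) (G : V → List D → ℝ) :
    ∑ q : V × (Fin n × (Fin n → D)), G q.1 (pick q.2) =
      (Fintype.card D : ℝ) ^ n * ∑ k ∈ range n, ∑ a, avgL (k + 1) (G a) := by
  rw [Fintype.sum_prod_type, sum_comm (s := range n), mul_sum]
  refine sum_congr rfl fun a _ => ?_
  rw [Fintype.sum_prod_type, sum_range, mul_sum]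
  refine sum_congr rfl fun k _ => ?_
  rw [← avgL_take (show k.val + 1 ≤ n from k.2), ← sum_ofFn]
  rfl

lemma sum_square_le (L : ℕ) (Y : ℕ → ℕ → ℝ) :
    ∑ r ∈ range L, ∑ r' ∈ range L, Y r r' = ∑ k ∈ range (2 * L), ∑ i ∈ range (k + 1),
      if i < L ∧ k + 1 - 1 - i < L then Y i (k - i) else 0 := by
  rw [← sum_product', sum_sigma', ← sum_filter]
  refine sum_nbij' (fun p => ⟨p.1 + p.2, p.1⟩) (fun q => (q.2, q.1 - q.2)) ?_ ?_ ?_ ?_ ?_
  · rintro ⟨r, r'⟩ h
    simp only [mem_product, mem_range, mem_filter, mem_sigma] at h ⊢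
    omega
  · rintro ⟨k, i⟩ h
    simp only [mem_product, mem_range, mem_filter, mem_sigma] at h ⊢
    omega
  · rintro ⟨r, r'⟩ _
    simp
  · rintro ⟨k, i⟩ h
    simp only [mem_range, mem_filter, mem_sigma] at h
    simp only [Sigma.mk.injEq, heq_eq_eq, and_true]
    omega
  · rintro ⟨r, r'⟩ _
    simp

lemma final_ineq {Z R x x' μ s : ℝ} (hZ : 0 ≤ Z) (hR : 0 ≤ R) (hx : x' ≤ x) (hx0 : 0 ≤ x)
    (hμ : 0 < μ) (hμ1 : μ ≤ 1) (hs : 0 < s)
    (h : (Z * x / (2 * s ^ 2)) ^ 2 ≤ R * (Z * (2 * x * (1 + 2 / μ) + (2 * x) ^ 2))) :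
    μ / (40 * s ^ 4) * min x' 1 * Z ≤ R := by
  have h1 : μ / (40 * s ^ 4) * min x' 1 * Z ≤ μ / (40 * s ^ 4) * min x 1 * Z := by
    gcongr
  refine h1.trans ?_
  rcases hZ.eq_or_lt with rfl | hZ
  · simpa using hR
  rcases hx0.eq_or_lt with rfl | hx0
  · simpa using hR
  have h2 : Z * x * μ ≤ R * (4 * s ^ 4 * (2 * μ + 4 + 4 * x * μ)) := by
    have h3 := mul_le_mul_of_nonneg_right h (show 0 ≤ 4 * s ^ 4 * μ / (Z * x) by positivity)
    refine le_of_eq_of_le ?_ (le_of_le_of_eq h3 ?_) <;> field_simp <;> ring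
  rw [div_mul_eq_mul_div, div_mul_eq_mul_div, div_le_iff₀ (by positivity)]
  have h4 : 0 ≤ R * s ^ 4 := by positivity
  rcases le_total x 1 with k | k
  · rw [min_eq_left k]
    have : 2 * μ + 4 + 4 * x * μ ≤ 10 := by nlinarith
    nlinarith
  · rw [min_eq_right k]
    have : 2 * μ + 4 + 4 * x * μ ≤ 10 * x := by nlinarith
    have h5 : Z * x * μ ≤ R * (40 * s ^ 4) * x := by nlinarith
    have h6 : μ * 1 * Z * x ≤ R * (40 * s ^ 4) * x := by linarith
    exact le_of_mul_le_mul_right h6 hx0

open Classical in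
theorem power_sound [Fintype V] [Fintype D] [Fintype S] [Nonempty D] [Nonempty S]
    {step : D → V → V} {inv : D → D} (hinv : ∀ s, inv (inv s) = s)
    (hstep : ∀ s v, step (inv s) (step s v) = v) {lam : ℝ} (h0 : 0 ≤ lam) (h1 : lam < 1)
    (hspec : ∀ f : V → ℝ, ∑ v, f v = 0 →
      ∑ v, ((∑ s, f (step s v)) / Fintype.card D) ^ 2 ≤ lam ^ 2 * ∑ v, f v ^ 2)
    {c : V → D → S → S → Bool} {δ : ℝ}
    (hgap : ∀ σ : V → S, δ * (Fintype.card V * Fintype.card D) ≤
      (univ.filter fun p : V × D => c p.1 p.2 (σ p.1) (σ (step p.2 p.1)) = false).card)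
    {L : ℕ} (hL : 0 < L) (A : V → List D → S) :
    (1 - lam) / (40 * Fintype.card S ^ 4) * min (L * δ) 1 *
        (Fintype.card V * Fintype.card (Fin (2 * L) × (Fin (2 * L) → D))) ≤
      (univ.filter fun q : V × (Fin (2 * L) × (Fin (2 * L) → D)) =>
        ¬ Accept step inv c L q.1 (pick q.2) (A q.1) (A (walk step q.1 (pick q.2)))).card := by
  rcases isEmpty_or_nonempty V with hV | hV
  · simp
  have hd : (0 : ℝ) < Fintype.card D := by exact_mod_cast Fintype.card_pos
  have hn : (0 : ℝ) < Fintype.card V := by exact_mod_cast Fintype.card_pos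
  have hs : (0 : ℝ) < Fintype.card S := by exact_mod_cast Fintype.card_pos
  have hL' : (0 : ℝ) < L := by exact_mod_cast hL
  obtain ⟨d0⟩ := ‹Nonempty D›
  -- plurality labelling
  let p : ℕ → V → S → ℝ := fun r x a =>
    avgL r fun y => if A (walk step x y) (rev inv y) = a then 1 else 0
  have hp0 : ∀ r x a, 0 ≤ p r x a := fun r x a => avgL_nonneg fun _ => by split_ifs <;> norm_num
  have hσ : ∀ x, ∃ a, (L : ℝ) / Fintype.card S ≤ ∑ r ∈ range L, p r x a := by
    intro x
    have e : ∑ a : S, (L : ℝ) / Fintype.card S ≤ ∑ a, ∑ r ∈ range L, p r x a := by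
      rw [sum_comm]
      simp only [p, ← avgL_sum, sum_ite_eq, mem_univ, if_true, avgL_const, sum_const, card_univ,
        nsmul_eq_mul, card_range]
      field_simp
      rfl
    obtain ⟨a, -, ha⟩ := exists_le_of_sum_le univ_nonempty e
    exact ⟨a, ha⟩
  choose σ hσ using hσ
  let f : V → D → ℝ := fun v s => if c v s (σ v) (σ (step s v)) = false then 1 else 0
  have hf : ∀ v s, f v s = 0 ∨ f v s = 1 := fun v s => by
    simp only [f]; split_ifs <;> simp
  have hf0 : ∀ v s, 0 ≤ f v s := fun v s => by rcases hf v s with h | h <;> simp [h]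
  set δ' := (∑ v, ∑ s, f v s) / (Fintype.card V * Fintype.card D) with hδ'
  have hδ1 : ∑ v, ∑ s, f v s = δ' * (Fintype.card V * Fintype.card D) := by
    rw [hδ']; field_simp
  have hδ0 : 0 ≤ δ' := div_nonneg (sum_nonneg fun v _ => sum_nonneg fun s _ => hf0 v s)
    (by positivity)
  have hδ2 : δ ≤ δ' := by
    rw [hδ', le_div_iff₀ (by positivity)]
    refine (hgap σ).trans (le_of_eq ?_)
    rw [card_filter, ← Fintype.sum_prod_type']
    push_cast
    rfl
  let hit : V → List D → D → List D → ℝ := fun a l t l' =>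
    (if A a l = σ (walk step a l) then 1 else 0) * f (walk step a l) t *
      if A (walk step (step t (walk step a l)) l') (rev inv l') = σ (step t (walk step a l))
        then 1 else 0
  have hit0 : ∀ a l t l', 0 ≤ hit a l t l' := fun a l t l' =>
    mul_nonneg (mul_nonneg (by split_ifs <;> norm_num) (hf0 _ _)) (by split_ifs <;> norm_num)
  have hit1 : ∀ a l t l', hit a l t l' ≤ f (walk step a l) t := fun a l t l' => by
    have := hf0 (walk step a l) t
    simp only [hit]; split_ifs <;> simp [this]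
  let N : V → List D → ℝ := fun a u => ∑ i ∈ range u.length,
    if i < L ∧ u.length - 1 - i < L then hit a (u.take i) (u.getD i d0) (u.drop (i + 1)) else 0
  have hN0 : ∀ a u, 0 ≤ N a u := fun a u => sum_nonneg fun i _ => by
    split_ifs
    · exact hit0 _ _ _ _
    · exact le_rfl
  have hN1 : ∀ a u, N a u ≤ marks step f a u := fun a u => by
    rw [marks_eq step f d0]
    refine sum_le_sum fun i _ => ?_
    split_ifs
    · exact hit1 _ _ _ _
    · exact hf0 _ _
  have hN2 : ∀ a u, Accept step inv c L a u (A a) (A (walk step a u)) → N a u = 0 := by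
    intro a u h
    refine sum_eq_zero fun i hi => ?_
    rw [mem_range] at hi
    split_ifs with h2
    · have h3 := h i hi h2.1 h2.2
      simp only [hit, f, List.getD_eq_getElem _ _ hi, ← walk_split step a u hi]
      split_ifs with k1 k2 k3
      · rw [k1, k3, k2] at h3
        exact absurd h3 (by simp)
      all_goals simp
    · rfl
  -- first moment
  let Y : ℕ → ℕ → ℝ := fun r r' =>
    ∑ x, (∑ t, p r x (σ x) * f x t * p r' (step t x) (σ (step t x))) / Fintype.card D
  have hY : ∀ r r', ∑ a, avgL (r + (r' + 1))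
      (fun u => hit a (u.take r) (u.getD r d0) (u.drop (r + 1))) = Y r r' := by
    intro r r'
    have e : ∀ a, avgL (r + (r' + 1)) (fun u => hit a (u.take r) (u.getD r d0) (u.drop (r + 1))) =
        avgL r fun l => (if A a l = σ (walk step a l) then 1 else 0) *
          ((∑ t, f (walk step a l) t *
            p r' (step t (walk step a l)) (σ (step t (walk step a l)))) / Fintype.card D) := by
      intro a
      rw [avgL_append]
      refine avgL_congr fun l hl => ?_
      rw [avgL_succ, ← mul_div_assoc, mul_sum]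
      congr 1
      refine sum_congr rfl fun t _ => ?_
      simp only [p]
      rw [← mul_assoc, ← avgL_mul]
      refine avgL_congr fun l' _ => ?_
      subst hl
      simp [hit]
    simp only [e]
    rw [sum_avgL_rev hinv hstep]
    refine sum_congr rfl fun x _ => ?_
    simp only [walk_rev hstep, avgL_mul', mul_assoc, ← mul_sum, mul_div_assoc]
    rfl
  have hm1 : δ' * Fintype.card V * (L / Fintype.card S) ^ 2 ≤
      ∑ k ∈ range (2 * L), ∑ a, avgL (k + 1) (N a) := by
    have e : ∀ k, ∑ a, avgL (k + 1) (N a) = ∑ i ∈ range (k + 1),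
        if i < L ∧ k + 1 - 1 - i < L then Y i (k - i) else 0 := by
      intro k
      have e1 : ∀ a, avgL (k + 1) (N a) = ∑ i ∈ range (k + 1), avgL (k + 1) fun u =>
          if i < L ∧ k + 1 - 1 - i < L then hit a (u.take i) (u.getD i d0) (u.drop (i + 1))
          else 0 := by
        intro a
        rw [← avgL_sum]
        exact avgL_congr fun l hl => by simp only [N, hl]
      simp only [e1]
      rw [sum_comm]
      refine sum_congr rfl fun i hi => ?_
      rw [mem_range] at hi
      split_ifs
      · rw [← hY, show i + (k - i + 1) = k + 1 by omega]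
      · simp [avgL_zero]
    simp only [e]
    rw [← sum_square_le]
    have e2 : ∑ r ∈ range L, ∑ r' ∈ range L, Y r r' = ∑ x, (∑ t, (∑ r ∈ range L, p r x (σ x)) *
        f x t * ∑ r' ∈ range L, p r' (step t x) (σ (step t x))) / Fintype.card D := by
      simp only [Y, ← sum_div]
      congr 1
      simp only [sum_mul, mul_sum]
      rw [sum_comm]
      simp only [sum_comm (s := range L) (t := (univ : Finset V)),
        sum_comm (s := range L) (t := (univ : Finset D))]
    rw [e2, ← sum_div, le_div_iff₀ hd]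
    calc _ = (L / Fintype.card S : ℝ) ^ 2 * ∑ v, ∑ s, f v s := by rw [hδ1]; ring
      _ = ∑ x, ∑ t, (L / Fintype.card S : ℝ) * f x t * (L / Fintype.card S) := by
        simp only [mul_sum]
        exact sum_congr rfl fun x _ => sum_congr rfl fun t _ => by ring
      _ ≤ _ := sum_le_sum fun x _ => sum_le_sum fun t _ =>
        mul_le_mul (mul_le_mul_of_nonneg_right (hσ x) (hf0 x t)) (hσ _) (by positivity)
          (mul_nonneg (sum_nonneg fun r _ => hp0 _ _ _) (hf0 x t))
  -- second moment
  have hμ : 0 < 1 - lam := by linarith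
  have hm2 : ∑ k ∈ range (2 * L), ∑ a, avgL (k + 1) (fun u => N a u ^ 2) ≤
      2 * L * ((2 * (L * δ') * (1 + 2 / (1 - lam)) + (2 * (L * δ')) ^ 2) * Fintype.card V) := by
    have e : ∀ k ∈ range (2 * L), ∑ a, avgL (k + 1) (fun u => N a u ^ 2) ≤
        (2 * (L * δ') * (1 + 2 / (1 - lam)) + (2 * (L * δ')) ^ 2) * Fintype.card V := by
      intro k hk
      have hk' : ((k + 1 : ℕ) : ℝ) ≤ 2 * L := by exact_mod_cast mem_range.mp hk
      refine (sum_le_sum fun a _ => avgL_mono fun u _ =>
        pow_le_pow_left₀ (hN0 a u) (hN1 a u) 2).trans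
        ((marks_sq hinv hstep h0 h1 hspec hf hδ1 hδ0 (k + 1)).trans ?_)
      rw [← mul_assoc 2]
      gcongr
    simpa using sum_le_card_nsmul _ _ _ e
  -- Cauchy-Schwarz
  set R := univ.filter fun q : V × (Fin (2 * L) × (Fin (2 * L) → D)) =>
    ¬ Accept step inv c L q.1 (pick q.2) (A q.1) (A (walk step q.1 (pick q.2)))
  have hcs := sum_mul_sq_le_sq_mul_sq R (fun _ => (1 : ℝ)) fun q => N q.1 (pick q.2)
  have e1 : ∑ q ∈ R, 1 * N q.1 (pick q.2) = ∑ q : V × (Fin (2 * L) × (Fin (2 * L) → D)),
      N q.1 (pick q.2) := by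
    simp only [one_mul]
    refine sum_subset (subset_univ _) fun q _ hq => hN2 _ _ ?_
    simpa [R] using hq
  have e2 : ∑ q ∈ R, N q.1 (pick q.2) ^ 2 ≤ ∑ q : V × (Fin (2 * L) × (Fin (2 * L) → D)),
      N q.1 (pick q.2) ^ 2 := sum_le_sum_of_subset_of_nonneg (subset_univ _) fun _ _ _ =>
        sq_nonneg _
  rw [sum_pick (2 * L) fun a u => N a u ^ 2] at e2
  rw [e1, sum_pick] at hcs
  simp only [one_pow, sum_const, nsmul_eq_mul, mul_one] at hcs
  refine final_ineq (x := L * δ') (by positivity) (Nat.cast_nonneg _) (by gcongr) (by positivity)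
    hμ (by linarith) hs (le_trans ?_ (hcs.trans ?_))
  · refine pow_le_pow_left₀ (by positivity) (le_trans (le_of_eq ?_)
      (mul_le_mul_of_nonneg_left hm1 (by positivity))) 2
    simp only [Fintype.card_prod, Fintype.card_fin, Fintype.card_fun]
    push_cast
    field_simp
  · refine mul_le_mul_of_nonneg_left (e2.trans ((mul_le_mul_of_nonneg_left hm2
      (by positivity)).trans (le_of_eq ?_))) (Nat.cast_nonneg _)
    simp only [Fintype.card_prod, Fintype.card_fin, Fintype.card_fun]
    push_cast
    ring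

end Vale.Agent.Lib.PCP
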