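import Vale.Agent.Lib.PCP.Reg
import Vale.Agent.Lib.PCP.Power

/-! Degree reduction followed by powering, on instances. -/

namespace Vale.Agent.Lib.PCP

open Vale.Agent.Lib.TM Finset

/-- Maps over a constant list. -/
theorem ct_mapConst {α β τ : Type} [Enc α] [Enc β] {e : ℕ} {f : α → τ → β} (l : List τ)
    (h : ∀ t, CT e fun a => f a t) : CT e fun a => l.map (f a) := by
  induction l with
  | nil => exact CT.const []
  | cons t l ih => exact (h t).cons ih

/-- Conjunctions over a constant list. -/
theorem ct_allConst {α τ : Type} [Enc α] {e : ℕ} {f : α → τ → Bool} (l : List τ)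
    (h : ∀ t, CT e fun a => f a t) : CT e fun a => l.all (f a) := by
  induction l with
  | nil => exact CT.const true
  | cons t l ih => exact ((h t).and ih).of_eq fun a => by simp

/-- The end point of a walk in the regular graph. -/
def walkN (φ : CSP) (a : ℕ) (l : List (Fin 52)) : ℕ := l.foldl (fun v s => regStep φ s v) a

theorem ct_walkN {α : Type} [Enc α] {e : ℕ} {φ : α → CSP} (hφ : CT e φ) (l : List (Fin 52)) :
    ∀ {v : α → ℕ}, CT e v → CT e fun a => walkN (φ a) (v a) l := by
  induction l with
  | nil => exact fun hv => hv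
  | cons s l ih => exact fun hv => ih (ct_regStep hφ (CT.const (s : ℕ)) hv)

theorem walkN_eq (φ : CSP) (l : List (Fin 52)) (a : Fin (10 * φ.length)) :
    walkN φ a l = (walk (stepF φ) a l : Fin (10 * φ.length)) := by
  induction l generalizing a with
  | nil => rfl
  | cons s l ih => exact ih (stepF φ s a)

/-- The test along a walk. -/
def powChk (L : ℕ) (φ : CSP) (a : ℕ) (u : List (Fin 52)) (α β : List (Fin 52) → Fin 1024) : Bool :=
  (List.range u.length).all fun i =>
    bif decide (i < L) && decide (u.length - 1 - i < L) then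
      regOk φ (u.getD i 0) (walkN φ a (u.take i)) (α (u.take i))
        (β (rev regInv (u.drop (i + 1))))
    else true

theorem ct_powChk {γ : Type} [Enc γ] {e : ℕ} {φ : γ → CSP} (hφ : CT e φ) {v : γ → ℕ}
    (hv : CT e v) (L : ℕ) (u : List (Fin 52)) (α β : List (Fin 52) → Fin 1024) :
    CT e fun a => powChk L (φ a) (v a) u α β :=
  ct_allConst _ fun _ => (CT.const _).cond
    (ct_regOk hφ (CT.const _) (ct_walkN hφ _ hv) (CT.const _) (CT.const _)) (CT.const true)

theorem powChk_iff (L : ℕ) (φ : CSP) (a : Fin (10 * φ.length)) (u : List (Fin 52))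
    (α β : List (Fin 52) → Fin 1024) :
    powChk L φ a u α β = true ↔
      Accept (stepF φ) regInv (fun v s (x y : Fin 1024) => regOk φ s v x y) L a u α β := by
  unfold powChk Accept
  rw [List.all_eq_true]
  constructor
  · intro h i hi h1 h2
    have h3 := h i (List.mem_range.2 hi)
    rw [decide_eq_true h1, decide_eq_true h2, walkN_eq, List.getD_eq_getElem _ _ hi] at h3
    exact h3
  · intro h i hi
    have hi' := List.mem_range.1 hi
    by_cases h1 : i < L
    · by_cases h2 : u.length - 1 - i < L
      · rw [decide_eq_true h1, decide_eq_true h2, walkN_eq, List.getD_eq_getElem _ _ hi']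
        exact h i hi' h1 h2
      · simp [h2]
    · simp [h1]

theorem accept_congr {V D S : Type} {step : D → V → V} {inv : D → D} {c : V → D → S → S → Bool}
    {L : ℕ} {a : V} {u : List D} {α β α' β' : List D → S} (h : Accept step inv c L a u α β)
    (hα : ∀ l, l.length < L → α' l = α l) (hβ : ∀ l, l.length < L → β' l = β l) :
    Accept step inv c L a u α' β' := by
  intro i hi h1 h2
  rw [hα _ (by rw [List.length_take]; omega),
    hβ _ (by rw [rev, List.length_reverse, List.length_map, List.length_drop]; omega)]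
  exact h i hi h1 h2

theorem exists_opin (L : ℕ) : ∃ (s : ℕ) (opin : ℕ → List (Fin 52) → Fin 1024), 0 < s ∧
    ∀ f : List (Fin 52) → Fin 1024, ∃ x : Fin s, ∀ l, l.length < L → opin x l = f l := by
  classical
  have h1 : Finite {l : List (Fin 52) // l.length < L} := List.finite_length_lt (Fin 52) L
  have h2 := Fintype.ofFinite {l : List (Fin 52) // l.length < L}
  obtain ⟨s, ⟨e⟩⟩ : ∃ s, Nonempty (({l : List (Fin 52) // l.length < L} → Fin 1024) ≃ Fin s) :=
    ⟨_, ⟨Fintype.equivFin _⟩⟩
  refine ⟨s, fun n l => if h : n < s then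
    (if hl : l.length < L then e.symm ⟨n, h⟩ ⟨l, hl⟩ else 0) else 0, (e fun _ => 0).pos, ?_⟩
  intro f
  refine ⟨e fun l => f l.1, fun l hl => ?_⟩
  simp [hl]

/-- One constraint of the powered graph. -/
def powEdge (L s : ℕ) (opin : ℕ → List (Fin 52) → Fin 1024) (φ : CSP) (a : ℕ)
    (u : List (Fin 52)) : ℕ × ℕ × ℕ :=
  (a, walkN φ a u,
    ofBits ((List.range (s * s)).map fun i => powChk L φ a u (opin (i / s)) (opin (i % s))))

theorem edgeSat_powEdge (L s : ℕ) (opin : ℕ → List (Fin 52) → Fin 1024) (φ : CSP) (a : ℕ)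
    (u : List (Fin 52)) (A : ℕ → Fin s) :
    edgeSat s A (powEdge L s opin φ a u) =
      powChk L φ a u (opin (A a)) (opin (A (walkN φ a u))) := by
  unfold edgeSat powEdge
  dsimp only
  generalize A a = x
  generalize A (walkN φ a u) = y
  have hs : 0 < s := x.pos
  have h1 : (x : ℕ) * s + y < s * s := by
    have h2 : ((x : ℕ) + 1) * s ≤ s * s := Nat.mul_le_mul_right _ x.2
    have h3 := y.2
    nlinarith
  have h2 : ((x : ℕ) * s + y) / s = x := by
    rw [add_comm, Nat.add_mul_div_right _ _ hs, Nat.div_eq_of_lt y.2, zero_add]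
  have h3 : ((x : ℕ) * s + y) % s = y := by
    rw [add_comm, Nat.add_mul_mod_self_right, Nat.mod_eq_of_lt y.2]
  rw [testBit_ofBits, List.getD_eq_getElem _ _ (by simpa using h1), List.getElem_map,
    List.getElem_range, h2, h3]

/-- The powered graph. -/
def powG {τ : Type} (L s : ℕ) (opin : ℕ → List (Fin 52) → Fin 1024) (tab : List τ)
    (pk : τ → List (Fin 52)) (φ : CSP) : BG :=
  (List.range (10 * φ.length)).flatMap fun a => tab.map fun p => powEdge L s opin φ a (pk p)

theorem ct_powG {τ : Type} (L s : ℕ) (opin : ℕ → List (Fin 52) → Fin 1024) (tab : List τ)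
    (pk : τ → List (Fin 52)) : CT 0 (powG L s opin tab pk) := by
  have h1 : CT 0 fun q : CSP × ℕ => q.1 := CT.id.fst
  have h2 : CT 0 fun q : CSP × ℕ => q.2 := CT.id.snd
  refine CT.flatMap (f := fun φ a => tab.map fun p => powEdge L s opin φ a (pk p)) ?_
    (CT.range_mul_length 10 CT.id)
  refine ct_mapConst (f := fun (q : CSP × ℕ) p => powEdge L s opin q.1 q.2 (pk p)) _ fun p => ?_
  refine h2.mk ((ct_walkN h1 _ h2).mk (ct_ofBits ?_))
  exact ct_mapConst
    (f := fun (q : CSP × ℕ) i => powChk L q.1 q.2 (pk p) (opin (i / s)) (opin (i % s))) _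
    fun i => ct_powChk h1 h2 _ _ _ _

theorem countP_range_flatMap {β τ : Type} (n : ℕ) (tab : List τ) (g : ℕ → τ → β) (p : β → Bool) :
    ((List.range n).flatMap fun a => tab.map (g a)).countP p =
      ∑ a ∈ range n, tab.countP fun t => p (g a t) := by
  induction n with
  | zero => simp
  | succ n ih =>
    rw [List.range_succ, List.flatMap_append, List.countP_append, ih, Finset.sum_range_succ]
    simp [List.countP_map, Function.comp_def]

theorem countP_toList {τ : Type} [Fintype τ] (p : τ → Bool) :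
    (univ : Finset τ).toList.countP p = ∑ t, if p t = true then 1 else 0 := by
  rw [← Finset.sum_map_toList]
  generalize (univ : Finset τ).toList = l
  induction l with
  | nil => simp
  | cons t l ih =>
    rw [List.countP_cons, ih, List.map_cons, List.sum_cons, add_comm]

theorem exists_power : ∃ κ : ℝ, 0 < κ ∧ κ ≤ 1 ∧ ∀ L : ℕ, 0 < L →
    ∃ (s W : ℕ) (pw : CSP → BG), 0 < s ∧ 0 < W ∧ CT 0 pw ∧
      ∀ φ : CSP, (pw φ).length = W * φ.length ∧ (pw φ).Bdd (10 * φ.length) ∧
        (φ.Sat → (pw φ).Sat s) ∧ ∀ ε, 0 ≤ ε → φ.Gap ε → (pw φ).Gap s (κ * min (L * ε) 1) := by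
  classical
  refine ⟨(1 - (1 - 1 / 10400)) / (40 * (Fintype.card (Fin 1024) : ℝ) ^ 4) / 52000, ?_, ?_, ?_⟩
  · rw [Fintype.card_fin]; norm_num
  · rw [Fintype.card_fin]; norm_num
  intro L hL
  obtain ⟨s, opin, hs, hop⟩ := exists_opin L
  have hne : Nonempty (Fin (2 * L) × (Fin (2 * L) → Fin 52)) := ⟨(⟨0, by omega⟩, fun _ => 0)⟩
  have hlen : ∀ φ : CSP, (powG L s opin
      (univ : Finset (Fin (2 * L) × (Fin (2 * L) → Fin 52))).toList pick φ).length =
        10 * Fintype.card (Fin (2 * L) × (Fin (2 * L) → Fin 52)) * φ.length := by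
    intro φ
    rw [← List.countP_true, powG, countP_range_flatMap]
    simp only [List.countP_true, Finset.length_toList, Finset.card_univ, Finset.sum_const,
      Finset.card_range, smul_eq_mul]
    ring
  refine ⟨s, 10 * Fintype.card (Fin (2 * L) × (Fin (2 * L) → Fin 52)),
    powG L s opin (univ : Finset (Fin (2 * L) × (Fin (2 * L) → Fin 52))).toList pick, hs,
    Nat.mul_pos (by norm_num) Fintype.card_pos, ct_powG _ _ _ _ _, fun φ => ⟨hlen φ, ?_, ?_, ?_⟩⟩
  · intro e he
    simp only [powG, List.mem_flatMap, List.mem_range, List.mem_map] at he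
    obtain ⟨a, ha, p, -, rfl⟩ := he
    refine ⟨ha, ?_⟩
    have h1 := walkN_eq φ (pick p) ⟨a, ha⟩
    exact lt_of_eq_of_lt h1 (Fin.is_lt _)
  · intro h
    obtain ⟨lab, hlab⟩ := reg_complete h
    choose A hA using fun a : ℕ => hop fun l => lab (walkN φ a l)
    refine ⟨A, fun e he => ?_⟩
    simp only [powG, List.mem_flatMap, List.mem_range, List.mem_map] at he
    obtain ⟨a, ha, p, -, rfl⟩ := he
    rw [edgeSat_powEdge]
    refine (powChk_iff L φ ⟨a, ha⟩ _ _ _).2 ?_
    refine accept_congr (power_complete (stepF_inv φ) (σ := fun v => lab v)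
      (fun v s => hlab s v v.2) L ⟨a, ha⟩ (pick p)) (fun l hl => ?_) fun l hl => ?_
    · rw [hA a l hl, ← walkN_eq]
    · rw [hA _ l hl, ← walkN_eq, ← walkN_eq]
  · intro ε hε hgap A
    have key := power_sound (V := Fin (10 * φ.length)) (D := Fin 52) (S := Fin 1024)
      regInv_regInv (stepF_inv φ) (lam := 1 - 1 / 10400) (by norm_num) (by norm_num)
      (reg_spectral φ) (c := fun v s x y => regOk φ s v x y) (δ := ε / 52000)
      (fun σ => reg_sound hgap σ) hL fun v => opin (A v)
    have e1 : (powG L s opin (univ : Finset (Fin (2 * L) × (Fin (2 * L) → Fin 52))).toList pick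
        φ).countP (fun e => !edgeSat s A e) =
        (univ.filter fun q : Fin (10 * φ.length) × (Fin (2 * L) × (Fin (2 * L) → Fin 52)) =>
          ¬ Accept (stepF φ) regInv (fun v s (x y : Fin 1024) => regOk φ s v x y) L q.1 (pick q.2)
            (opin (A q.1)) (opin (A (walk (stepF φ) q.1 (pick q.2) : Fin _)))).card := by
      rw [powG, countP_range_flatMap, Finset.card_filter, Fintype.sum_prod_type,
        Finset.sum_range]
      refine Finset.sum_congr rfl fun a _ => ?_
      rw [countP_toList]
      refine Finset.sum_congr rfl fun p _ => if_congr ?_ rfl rfl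
      rw [edgeSat_powEdge, ← powChk_iff, walkN_eq]
      simp
    rw [e1, hlen]
    refine le_trans ?_ key
    have h1 : min (L * ε) 1 / 52000 ≤ min (L * (ε / 52000)) 1 := by
      refine le_min ?_ ?_
      · have := min_le_left (L * ε) 1
        linarith
      · have := min_le_right (L * ε) 1
        linarith
    rw [Fintype.card_fin (10 * φ.length)]
    generalize Fintype.card (Fin (2 * L) × (Fin (2 * L) → Fin 52)) = N
    generalize Fintype.card (Fin 1024) = c
    have h2 : (0 : ℝ) ≤ (1 - (1 - 1 / 10400)) / (40 * (c : ℝ) ^ 4) := by positivity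
    generalize (1 - (1 - 1 / 10400)) / (40 * (c : ℝ) ^ 4) = κ at h2 ⊢
    calc _ = κ * (min (L * ε) 1 / 52000) * ((10 * φ.length : ℕ) * N) := by push_cast; ring
      _ ≤ _ := by gcongr

end Vale.Agent.Lib.PCP
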