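import Vale.Agent.Lib.PCP.GadCode
import Vale.Agent.Lib.PCP.PowCode

/-! The PCP theorem: constant gap hardness for the constraint problem with predicate `Phi`. -/

namespace Vale.Agent.Lib.PCP

open Vale.Agent.Lib.TM

lemma CSP.Gap.mono {φ : CSP} {ε ε' : ℝ} (h : φ.Gap ε) (h' : ε' ≤ ε) : φ.Gap ε' := fun σ =>
  (mul_le_mul_of_nonneg_right h' (Nat.cast_nonneg _)).trans (h σ)

lemma CSP.Bdd.mono {φ : CSP} {B B' : ℕ} (h : φ.Bdd B) (h' : B ≤ B') : φ.Bdd B' := fun c hc =>
  ⟨(h c hc).1, fun x hx => ((h c hc).2 x hx).trans_le h'⟩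

lemma CSP.Bdd.sz_le {φ : CSP} {B : ℕ} (h : φ.Bdd B) : sz φ ≤ φ.length * (60 * B + 22) + 1 := by
  refine sz_list_le (B := 60 * B + 21) fun c hc => ?_
  have h1 := sz_list_le (l := c) (B := 6 * B + 1) fun x hx =>
    (sz_le_self x).trans (by have := (h c hc).2 x hx; omega)
  rw [(h c hc).1] at h1
  omega

lemma BG.gap_of_not_sat {s : ℕ} {G : BG} (h : ¬ G.Sat s) : G.Gap s (1 / G.length) := by
  intro A
  have h1 : 0 < G.countP fun e => !edgeSat s A e := by
    rw [List.countP_pos_iff]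
    by_contra h2
    refine h ⟨A, fun e he => ?_⟩
    by_contra h3
    exact h2 ⟨e, he, by simpa using h3⟩
  have h2 : (1 : ℝ) ≤ G.countP fun e => !edgeSat s A e := by exact_mod_cast h1
  refine le_trans ?_ h2
  rcases Nat.eq_zero_or_pos G.length with h3 | h3
  · simp [h3]
  · rw [one_div, inv_mul_cancel₀ (by positivity)]

lemma BG.exists_bdd (G : BG) : ∃ B, G.Bdd B := by
  induction G with
  | nil => exact ⟨0, fun e he => by simp at he⟩
  | cons e G ih =>
    obtain ⟨B, hB⟩ := ih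
    refine ⟨B + e.1 + e.2.1 + 1, fun e' he' => ?_⟩
    rcases List.mem_cons.mp he' with rfl | h
    · omega
    · have := hB e' h; omega

/-- One round of gap amplification. -/
theorem exists_round : ∃ ε₁ : ℝ, 0 < ε₁ ∧ ε₁ ≤ 1 ∧ ∃ (K C : ℕ) (rd : CSP → CSP), 0 < K ∧
    CT 0 rd ∧ ∀ φ : CSP, (rd φ).length = K * φ.length ∧ (rd φ).Bdd (C * φ.length) ∧
      (φ.Sat → (rd φ).Sat) ∧ ∀ ε, 0 ≤ ε → φ.Gap ε → (rd φ).Gap (min (2 * ε) ε₁) := by
  obtain ⟨κ, h0, h1, h⟩ := exists_power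
  obtain ⟨L, hL⟩ := exists_nat_gt (200 / κ)
  have hL0 : 0 < L := by
    have : (0 : ℝ) < L := lt_trans (by positivity) hL
    exact_mod_cast this
  obtain ⟨s, W, pw, hs, hW, hpw, h2⟩ := h L hL0
  obtain ⟨gad, N, C, hN, hg, h3⟩ := exists_gadget s hs
  refine ⟨κ / 100, by positivity, by linarith, N * W, C * (10 + W), fun φ => gad (pw φ),
    by positivity, hg.comp hpw, fun φ => ?_⟩
  obtain ⟨a1, a2, a3, a4⟩ := h2 φ
  obtain ⟨b1, b2, b3, b4⟩ := h3 (pw φ)
  refine ⟨by rw [b1, a1, mul_assoc], (b2 _ a2).mono (by rw [a1]; nlinarith), fun hs => b3 (a3 hs),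
    fun ε hε hG => (b4 _ (a4 ε hε hG)).mono ?_⟩
  rw [div_lt_iff₀ h0] at hL
  rcases le_total (L * ε) 1 with h4 | h4
  · rw [min_eq_left h4]
    refine (min_le_left _ _).trans ?_
    nlinarith
  · rw [min_eq_right h4]
    refine (min_le_right _ _).trans (by linarith)

theorem gapCSP_hard : ∃ ε : ℝ, 0 < ε ∧ ε ≤ 1 ∧ ∃ red : CNF3 → CSP, CT 0 red ∧
    ∀ φ, red φ ≠ [] ∧ (∀ c ∈ red φ, c.length = 10) ∧ (Sat φ → (red φ).Sat) ∧
      (¬ Sat φ → (red φ).Gap ε) := by
  obtain ⟨ε₁, h0, h1, K, C, rd, hK, hrd, h⟩ := exists_round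
  obtain ⟨ini, hi, hi'⟩ := exists_init
  obtain ⟨gad, N, C', hN, hg, h3⟩ := exists_gadget 8 (by norm_num)
  let φ0 : CNF3 → CSP := fun a => gad (ini a)
  let l : CNF3 → List Bool := fun a => (100 * (ini a).length).bits
  have hφ0 : CT 0 φ0 := hg.comp hi
  have hl : CT 0 l := ((CT.const 100).mul hi.length).bits
  have hlen : ∀ a, (l a).length = (100 * (ini a).length).size := fun a => Nat.size_eq_bits_len _
  have hpow : Bd 0 fun a => K ^ (l a).length := by
    obtain ⟨c, hc⟩ := (Bd.const (e := 0) (α := CNF3) 100).mul hi.bd_length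
    refine Bd.const_pow_lg K (C := c + 2) fun a => ?_
    have := lg_le_of_le_bd (hc a)
    rw [hlen]
    exact (Nat.le_succ _).trans this
  let M : CNF3 → ℕ := fun a => (φ0 a).length * K ^ (l a).length
  have hM : Bd 0 M := hφ0.bd_length.mul hpow
  refine ⟨ε₁, h0, h1, fun a => (l a).foldl (fun ψ _ => rd ψ) (φ0 a), ?_, fun a => ?_⟩
  · refine CT.foldl_inv (g := fun _ ψ _ => rd ψ) (hrd.comp (by fun_prop)) hφ0 hl
      (B := fun a => sz (φ0 a) + (M a * (60 * (C * M a) + 22) + 1))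
      (hφ0.size.add ((hM.mul (((Bd.const 60).mul ((Bd.const C).mul hM)).add (Bd.const 22))).add
        (Bd.const 1)))
      (fun a s r => s.length * K ^ r.length = M a ∧ (s = φ0 a ∨ s.Bdd (C * M a)))
      (fun a => ⟨rfl, Or.inl rfl⟩) (fun a s x r ⟨k1, _⟩ => ?_) (fun a s r ⟨k1, k2⟩ => ?_)
    · obtain ⟨a1, a2, -, -⟩ := h s
      have k3 : s.length ≤ M a := k1 ▸ Nat.le_mul_of_pos_right _ (by positivity)
      refine ⟨?_, Or.inr (a2.mono (Nat.mul_le_mul_left _ k3))⟩
      rw [a1, ← k1, List.length_cons, pow_succ]; ring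
    · rcases k2 with rfl | k2
      · omega
      · have k3 : s.length ≤ M a := k1 ▸ Nat.le_mul_of_pos_right _ (by positivity)
        have k4 := k2.sz_le
        have k5 := Nat.mul_le_mul_right (60 * (C * M a) + 22) k3
        omega
  · obtain ⟨b1, b2, b3, b4⟩ := h3 (ini a)
    have hpos : 0 < (ini a).length := List.length_pos_iff.mpr (hi' a).1
    have key : ∀ (r : List Bool) (ψ : CSP), 0 < ψ.length → (∀ c ∈ ψ, c.length = 10) →
        0 < (r.foldl (fun ψ _ => rd ψ) ψ).length ∧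
        (∀ c ∈ r.foldl (fun ψ _ => rd ψ) ψ, c.length = 10) ∧
        (ψ.Sat → (r.foldl (fun ψ _ => rd ψ) ψ).Sat) ∧
        ∀ ε, 0 ≤ ε → ψ.Gap (min ε ε₁) →
          (r.foldl (fun ψ _ => rd ψ) ψ).Gap (min (2 ^ r.length * ε) ε₁) := by
      intro r
      induction r with
      | nil => exact fun ψ k1 k2 => ⟨k1, k2, id, fun ε _ hG => by simpa using hG⟩
      | cons x r ih =>
        intro ψ k1 k2
        obtain ⟨a1, a2, a3, a4⟩ := h ψ
        obtain ⟨c1, c2, c3, c4⟩ := ih (rd ψ) (by rw [a1]; positivity) fun c hc => (a2 c hc).1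
        refine ⟨c1, c2, fun hs => c3 (a3 hs), fun ε hε hG => ?_⟩
        have k3 := c4 (2 * ε) (by positivity) ((a4 _ (le_min hε h0.le) hG).mono ?_)
        · rw [List.foldl_cons, List.length_cons, pow_succ, mul_assoc]
          exact k3
        · rcases le_total ε ε₁ with k | k
          · rw [min_eq_left k]
          · rw [min_eq_right k]
            exact le_min ((min_le_right _ _).trans (by linarith)) (min_le_right _ _)
    obtain ⟨B, hB⟩ := (ini a).exists_bdd
    obtain ⟨c1, c2, c3, c4⟩ := key (l a) (φ0 a) (by rw [b1]; positivity)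
      fun c hc => (b2 B hB c hc).1
    refine ⟨List.length_pos_iff.mp c1, c2, fun hs => c3 (b3 ((hi' a).2.mp hs)), fun hs => ?_⟩
    have d1 := b4 _ (BG.gap_of_not_sat fun h' => hs ((hi' a).2.mpr h'))
    refine (c4 _ (by positivity) (d1.mono (min_le_left _ _))).mono (le_min (h1.trans ?_) le_rfl)
    have d2 : 100 * (ini a).length < 2 ^ (l a).length := by rw [hlen]; exact Nat.lt_size_self _
    have d3 : (100 * (ini a).length : ℝ) ≤ 2 ^ (l a).length := by exact_mod_cast d2.le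
    have d4 : (0 : ℝ) < (ini a).length := by exact_mod_cast hpos
    rw [div_div, mul_one_div, le_div_iff₀ (by positivity)]
    linarith

end Vale.Agent.Lib.PCP
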