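import Mathlib

/-! Parallel repetition of projection games (Dinur and Steurer). -/

namespace Vale.Agent.Lib.PCP

open Finset

/-- A projection game with constraint set `E` (uniform distribution), left vertices `U`, right
vertices `V`, left labels `L` and right labels `R`. -/
structure Game (E U V L R : Type) where
  /-- left end point -/
  u : E → U
  /-- right end point -/
  v : E → V
  /-- projection -/
  π : E → L → R

variable {E U V L R E' U' V' L' R' : Type}

/-- The product game. -/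
def Game.prod (G : Game E U V L R) (H : Game E' U' V' L' R') :
    Game (E × E') (U × U') (V × V') (L × L') (R × R') :=
  ⟨fun e => (G.u e.1, H.u e.2), fun e => (G.v e.1, H.v e.2),
    fun e a => (G.π e.1 a.1, H.π e.2 a.2)⟩

open Classical in
/-- The value is at most `δ`. -/
def Game.ValLe [Fintype E] (G : Game E U V L R) (δ : ℝ) : Prop :=
  ∀ (A : U → L) (B : V → R),
    ((univ.filter fun e => G.π e (A (G.u e)) = B (G.v e)).card : ℝ) ≤ δ * Fintype.card E

open Classical in
/-- The collision value of a left labelling, times the number of constraints. -/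
noncomputable def Game.col [Fintype E] (G : Game E U V L R) (A : U → L) : ℝ :=
  ∑ e, ((univ.filter fun e' => G.v e' = G.v e ∧ G.π e' (A (G.u e')) = G.π e (A (G.u e))).card : ℝ) /
    (univ.filter fun e' => G.v e' = G.v e).card

/-- The collision value is at most `γ`. -/
def Game.ColLe [Fintype E] (G : Game E U V L R) (γ : ℝ) : Prop :=
  ∀ A : U → L, G.col A ≤ γ * Fintype.card E

open Classical in
/-- The law of a pair of constraints at the same right vertex (times the number of constraints). -/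
noncomputable def Game.c [Fintype E] (G : Game E U V L R) (e e' : E) : ℝ :=
  if G.v e' = G.v e then ((univ.filter fun e'' => G.v e'' = G.v e).card : ℝ)⁻¹ else 0

section basic

variable [Fintype E] (G : Game E U V L R)

lemma Game.c_nonneg (e e' : E) : 0 ≤ G.c e e' := by
  unfold Game.c; split_ifs <;> positivity

lemma Game.c_symm (e e' : E) : G.c e e' = G.c e' e := by
  unfold Game.c
  by_cases h : G.v e' = G.v e
  · rw [if_pos h, if_pos h.symm, h]
  · rw [if_neg h, if_neg fun h' => h h'.symm]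

open Classical in
lemma Game.deg_pos (e : E) : (0 : ℝ) < (univ.filter fun e'' => G.v e'' = G.v e).card := by
  have : (univ.filter fun e'' => G.v e'' = G.v e).Nonempty := ⟨e, by simp⟩
  exact_mod_cast this.card_pos

lemma Game.sum_c (e : E) : ∑ e', G.c e e' = 1 := by
  classical
  unfold Game.c
  rw [← sum_filter, sum_const, nsmul_eq_mul]
  exact mul_inv_cancel₀ (G.deg_pos e).ne'

lemma Game.sum_c' (e : E) : ∑ e', G.c e' e = 1 := by
  simp only [fun e' => G.c_symm e' e, G.sum_c]

open Classical in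
lemma Game.col_eq (A : U → L) : G.col A =
    ∑ e, ∑ e', G.c e e' * if G.π e' (A (G.u e')) = G.π e (A (G.u e)) then 1 else 0 := by
  unfold Game.col
  refine sum_congr rfl fun e _ => ?_
  rw [card_filter, Nat.cast_sum, sum_div]
  refine sum_congr rfl fun e' _ => ?_
  unfold Game.c
  by_cases h1 : G.v e' = G.v e <;> by_cases h2 : G.π e' (A (G.u e')) = G.π e (A (G.u e)) <;>
    simp [h1, h2]

lemma Game.sum_sum_c (f : E → ℝ) : ∑ e, ∑ e', G.c e e' * f e' = ∑ e, f e := by
  rw [sum_comm]
  simp only [← sum_mul, G.sum_c', one_mul]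

lemma Game.sum_sum_c' (f : E → ℝ) : ∑ e, ∑ e', G.c e e' * f e = ∑ e, f e := by
  simp only [← sum_mul, G.sum_c, one_mul]

end basic

theorem Game.colLe_one [Fintype E] (G : Game E U V L R) : G.ColLe 1 := by
  intro A
  rw [G.col_eq]
  calc _ ≤ ∑ e, ∑ e', G.c e e' * 1 := by
        refine sum_le_sum fun e _ => sum_le_sum fun e' _ => ?_
        refine mul_le_mul_of_nonneg_left ?_ (G.c_nonneg _ _)
        split_ifs <;> norm_num
    _ = _ := by rw [G.sum_sum_c' fun _ => 1]; simp

theorem Game.colLe_of_valLe [Fintype E] [Nonempty R] {G : Game E U V L R} {δ : ℝ}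
    (h : G.ValLe δ) : G.ColLe δ := by
  classical
  intro A
  set N : V → R → ℝ := fun y b => ∑ e', if G.v e' = y ∧ G.π e' (A (G.u e')) = b then 1 else 0
    with hN
  have hB : ∀ y : V, ∃ b : R, ∀ e, G.v e = y → N y (G.π e (A (G.u e))) ≤ N y b := by
    intro y
    by_cases hy : (univ.filter fun e => G.v e = y).Nonempty
    · obtain ⟨e0, -, h0⟩ := exists_max_image _ (fun e => N y (G.π e (A (G.u e)))) hy
      exact ⟨_, fun e he => h0 e (by simp [he])⟩
    · exact ⟨Classical.arbitrary R, fun e he => absurd ⟨e, by simp [he]⟩ hy⟩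
  choose B hB using hB
  have key : ∀ e b, ∑ e', G.c e e' * (if G.π e' (A (G.u e')) = b then 1 else 0) =
      ((univ.filter fun e'' => G.v e'' = G.v e).card : ℝ)⁻¹ * N (G.v e) b := by
    intro e b
    simp only [hN, mul_sum]
    refine sum_congr rfl fun e' _ => ?_
    unfold Game.c
    by_cases h1 : G.v e' = G.v e <;> by_cases h2 : G.π e' (A (G.u e')) = b <;> simp [h1, h2]
  refine le_trans ?_ (h A B)
  rw [G.col_eq, card_filter, Nat.cast_sum]
  simp only [key, Nat.cast_ite, Nat.cast_one, Nat.cast_zero]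
  rw [← G.sum_sum_c fun e => if G.π e (A (G.u e)) = B (G.v e) then 1 else 0]
  refine sum_le_sum fun e _ => ?_
  refine (mul_le_mul_of_nonneg_left (hB _ e rfl) (by positivity)).trans (le_of_eq ?_)
  rw [← key]
  refine sum_congr rfl fun e' _ => ?_
  by_cases h1 : G.v e' = G.v e
  · rw [h1]
  · simp [Game.c, h1]

theorem Game.valLe_of_colLe [Fintype E] {G : Game E U V L R} {γ : ℝ} (h0 : 0 ≤ γ)
    (h : G.ColLe γ) : G.ValLe (Real.sqrt γ) := by
  classical
  intro A B
  set f : E → ℝ := fun e => if G.π e (A (G.u e)) = B (G.v e) then 1 else 0 with hf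
  set g : E → ℝ := fun e => ∑ e', G.c e e' * f e' with hg
  have h1 : ((univ.filter fun e => G.π e (A (G.u e)) = B (G.v e)).card : ℝ) = ∑ e, g e := by
    rw [card_filter, Nat.cast_sum, hg, G.sum_sum_c]
    simp [hf]
  have hgg : ∀ e e', G.c e e' * g e' = G.c e e' * g e := by
    intro e e'
    by_cases h1 : G.v e' = G.v e
    · simp only [hg, Game.c, h1]
    · simp [Game.c, h1]
  have h2 : ∑ e, g e ^ 2 ≤ G.col A := by
    have e1 : ∑ e, g e ^ 2 = ∑ e, ∑ e', G.c e e' * (f e' * g e') := by
      refine sum_congr rfl fun e _ => ?_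
      rw [sq]
      conv_lhs => enter [1]; rw [hg]
      rw [sum_mul]
      refine sum_congr rfl fun e' _ => ?_
      linear_combination f e' * (hgg e e').symm
    rw [e1, G.sum_sum_c, G.col_eq]
    refine sum_le_sum fun e _ => ?_
    simp only [hg, mul_sum]
    refine sum_le_sum fun e' _ => ?_
    have hc := G.c_nonneg e e'
    by_cases h1 : G.v e' = G.v e
    · simp only [hf]
      by_cases h2 : G.π e (A (G.u e)) = B (G.v e) <;>
        by_cases h3 : G.π e' (A (G.u e')) = B (G.v e')
      · rw [if_pos h2, if_pos h3, if_pos (by rw [h2, h3, h1])]; simp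
      all_goals simp only [h2, h3, if_true, if_false, zero_mul, mul_zero]
      all_goals split_ifs <;> simp [hc]
    · simp [Game.c, h1]
  rw [h1]
  have h3 := sq_sum_le_card_mul_sum_sq (s := univ) (f := g)
  rw [card_univ] at h3
  have h4 : (∑ e, g e) ^ 2 ≤ (Real.sqrt γ * Fintype.card E) ^ 2 := by
    rw [mul_pow, Real.sq_sqrt h0]
    have := mul_le_mul_of_nonneg_left (h2.trans (h A)) (Nat.cast_nonneg (Fintype.card E))
    nlinarith
  exact le_of_sq_le_sq h4 (by positivity)

/-- Correlated sampling. -/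
lemma corr_sampling {P I : Type} [DecidableEq P] [Nonempty P] [Fintype I] (w : P → ℝ)
    (f g : I → U) (T : Finset P) : (∀ p ∈ T, 0 < w p) → ∀ (c : I → ℝ) (S : U → Finset P)
    (Gd : I → Finset P), (∀ i, 0 ≤ c i) → (∀ u, S u ⊆ T) → (∀ i, Gd i ⊆ S (f i) ∩ S (g i)) →
    ∃ σ : U → P, ∑ i, c i * ((∑ p ∈ Gd i, w p) / ∑ p ∈ S (f i) ∪ S (g i), w p) ≤
      ∑ i, c i * if σ (f i) = σ (g i) ∧ σ (f i) ∈ Gd i then 1 else 0 := by
  induction T using Finset.strongInduction with
  | H T ih =>
  intro hw c S Gd hc hS hG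
  rcases T.eq_empty_or_nonempty with rfl | hT
  · refine ⟨fun _ => Classical.arbitrary P, sum_le_sum fun i _ => ?_⟩
    have : Gd i = ∅ := subset_empty.1 ((hG i).trans (inter_subset_left.trans (hS _)))
    simp [this]
  set r : I → ℝ := fun i => (∑ p ∈ Gd i, w p) / ∑ p ∈ S (f i) ∪ S (g i), w p with hr
  have step : ∀ p ∈ T, ∃ σ : U → P,
      ∑ i, c i * ((if p ∈ Gd i then 1 else 0) + if p ∈ S (f i) ∪ S (g i) then 0 else r i) ≤
      ∑ i, c i * if σ (f i) = σ (g i) ∧ σ (f i) ∈ Gd i then 1 else 0 := by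
    intro p hp
    obtain ⟨σ, hσ⟩ := ih (T.erase p) (erase_ssubset hp) (fun q hq => hw q (mem_of_mem_erase hq))
      (fun i => if p ∈ S (f i) ∪ S (g i) then 0 else c i) (fun u => (S u).erase p)
      (fun i => (Gd i).erase p) (fun i => by split_ifs; exacts [le_rfl, hc i])
      (fun u => erase_subset_erase _ (hS u)) (fun i q hq => by
        have h1 := hG i (mem_of_mem_erase hq)
        have h2 := ne_of_mem_erase hq
        simp only [mem_inter, mem_erase] at h1 ⊢
        tauto)
    refine ⟨fun u => if p ∈ S u then p else σ u, ?_⟩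
    simp only [mul_add, sum_add_distrib]
    have e1 : ∑ i, c i * (if p ∈ S (f i) ∪ S (g i) then 0 else r i) =
        ∑ i, (if p ∈ S (f i) ∪ S (g i) then 0 else c i) *
          ((∑ q ∈ (Gd i).erase p, w q) / ∑ q ∈ (S (f i)).erase p ∪ (S (g i)).erase p, w q) := by
      refine sum_congr rfl fun i _ => ?_
      by_cases h : p ∈ S (f i) ∪ S (g i)
      · simp [h]
      · have h1 : p ∉ S (f i) := fun h' => h (mem_union_left _ h')
        have h2 : p ∉ S (g i) := fun h' => h (mem_union_right _ h')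
        have h3 : p ∉ Gd i := fun h' => h1 (mem_inter.1 (hG i h')).1
        rw [if_neg h, if_neg h, erase_eq_of_notMem h1, erase_eq_of_notMem h2, erase_eq_of_notMem h3]
    rw [e1]
    refine (add_le_add_right hσ _).trans ?_
    rw [← sum_add_distrib]
    refine sum_le_sum fun i _ => ?_
    have hci := hc i
    by_cases h : p ∈ S (f i) ∪ S (g i)
    · by_cases h3 : p ∈ Gd i
      · have h4 := mem_inter.1 (hG i h3)
        simp [h3, h4.1, h4.2]
      · simp only [h, h3, if_true, if_false, mul_zero, zero_mul, add_zero]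
        positivity
    · have h1 : p ∉ S (f i) := fun h' => h (mem_union_left _ h')
      have h2 : p ∉ S (g i) := fun h' => h (mem_union_right _ h')
      have h3 : p ∉ Gd i := fun h' => h1 (mem_inter.1 (hG i h')).1
      simp only [h, h1, h2, h3, if_false, mul_zero, zero_add, erase_eq_of_notMem h3, le_refl]
  by_contra hcon
  have hlt : ∀ p ∈ T, w p * ∑ i, c i * ((if p ∈ Gd i then 1 else 0) +
      if p ∈ S (f i) ∪ S (g i) then 0 else r i) < w p * ∑ i, c i * r i := by
    intro p hp
    obtain ⟨σ, hσ⟩ := step p hp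
    refine mul_lt_mul_of_pos_left (hσ.trans_lt ?_) (hw p hp)
    exact not_le.1 fun h => hcon ⟨σ, h⟩
  refine absurd (sum_lt_sum_of_nonempty hT hlt) (not_lt.2 ?_)
  simp only [mul_sum]
  rw [sum_comm, sum_comm (s := T)]
  refine sum_le_sum fun i _ => ?_
  have hU : S (f i) ∪ S (g i) ⊆ T := union_subset (hS _) (hS _)
  have hGT : Gd i ⊆ T := (hG i).trans (inter_subset_left.trans (hS _))
  have e2 : ∀ p, w p * (c i * ((if p ∈ Gd i then 1 else 0) +
      if p ∈ S (f i) ∪ S (g i) then 0 else r i)) = w p * (c i * r i) +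
      c i * ((if p ∈ Gd i then w p else 0) - r i * if p ∈ S (f i) ∪ S (g i) then w p else 0) := by
    intro p
    split_ifs <;> ring
  simp only [e2, sum_add_distrib, le_add_iff_nonneg_right, ← mul_sum, sum_sub_distrib]
  refine mul_nonneg (hc i) ?_
  rw [sum_ite_mem, sum_ite_mem, inter_eq_right.2 hU, inter_eq_right.2 hGT, sub_nonneg, hr]
  have h0 : 0 ≤ ∑ p ∈ Gd i, w p := sum_nonneg fun p hp => (hw p (hGT hp)).le
  rcases eq_or_ne (∑ p ∈ S (f i) ∪ S (g i), w p) 0 with h | h
  · simp only [h, mul_zero]; exact h0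
  · simp only [div_mul_cancel₀ _ h, le_refl]

/-- A convex function is maximised at a vertex of a product of simplices. -/
lemma exists_vertex {I : Type} [Fintype I] [DecidableEq I] [Nonempty I] [DecidableEq U]
    {F : (U → I → ℝ) → ℝ} (hF : ConvexOn ℝ Set.univ F) (s : Finset U) :
    ∀ x : U → I → ℝ, (∀ u i, 0 ≤ x u i) → ∃ σ : U → I,
      F x ≤ F fun u => if u ∈ s then Pi.single (σ u) (∑ i, x u i) else x u := by
  induction s using Finset.induction_on with
  | empty => intro x _; exact ⟨fun _ => Classical.arbitrary I, by simp⟩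
  | insert u0 s hu0 ih =>
    intro x hx
    set t := ∑ i, x u0 i with ht
    have ht0 : 0 ≤ t := sum_nonneg fun i _ => hx u0 i
    obtain ⟨l, hl⟩ : ∃ l, F x ≤ F (Function.update x u0 (Pi.single l t)) := by
      rcases ht0.eq_or_lt with h0 | h0
      · refine ⟨Classical.arbitrary I, le_of_eq ?_⟩
        congr 1
        have : x u0 = Pi.single (Classical.arbitrary I) t := by
          ext i
          rw [← h0, Pi.single_zero]
          exact (sum_eq_zero_iff_of_nonneg fun i _ => hx u0 i).1 h0.symm i (mem_univ _)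
        rw [← this, Function.update_eq_self]
      · have hsum : ∑ l, x u0 l / t = 1 := by rw [← sum_div, ← ht, div_self h0.ne']
        have hx' : x = ∑ l, (x u0 l / t) • Function.update x u0 (Pi.single l t) := by
          ext u i
          simp only [Finset.sum_apply, Pi.smul_apply, smul_eq_mul]
          rcases eq_or_ne u u0 with rfl | hu
          · simp only [Function.update_self, Pi.single_apply, mul_ite, mul_zero, sum_ite_eq,
              mem_univ, if_true]
            field_simp
          · simp only [Function.update_of_ne hu, ← sum_mul, hsum, one_mul]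
        obtain ⟨l, -, hl⟩ := exists_max_image univ
          (fun l => F (Function.update x u0 (Pi.single l t))) univ_nonempty
        refine ⟨l, ?_⟩
        calc F x ≤ ∑ l, (x u0 l / t) • F (Function.update x u0 (Pi.single l t)) := by
              conv_lhs => rw [hx']
              exact hF.map_sum_le (fun l _ => div_nonneg (hx _ _) ht0) hsum
                fun _ _ => Set.mem_univ _
          _ ≤ ∑ l', (x u0 l' / t) * F (Function.update x u0 (Pi.single l t)) :=
              sum_le_sum fun l' _ =>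
                mul_le_mul_of_nonneg_left (hl l' (mem_univ _)) (div_nonneg (hx _ _) ht0)
          _ = _ := by rw [← sum_mul, hsum, one_mul]
    obtain ⟨σ, hσ⟩ := ih (Function.update x u0 (Pi.single l t)) (fun u i => by
      rcases eq_or_ne u u0 with rfl | hu
      · simp only [Function.update_self, Pi.single_apply]; split_ifs; exacts [ht0, le_rfl]
      · simp only [Function.update_of_ne hu, hx])
    refine ⟨Function.update σ u0 l, hl.trans (hσ.trans (le_of_eq ?_))⟩
    congr 1
    ext1 u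
    rcases eq_or_ne u u0 with rfl | hu
    · simp [hu0, ht]
    · simp [hu]

/-- Sums over pairs with equal keys, as sums over the keys. -/
lemma sum_key {I J Y : Type} [Fintype I] [Fintype J] [DecidableEq Y] (s : Finset Y) (k : I → Y)
    (k' : J → Y) (hk : ∀ i, k i ∈ s) (g : Y → ℝ) (z : I → J → ℝ) :
    ∑ i, ∑ j, (if k' j = k i then g (k i) else 0) * z i j =
      ∑ y ∈ s, g y * ∑ i, ∑ j, (if k i = y then 1 else 0) * (if k' j = y then 1 else 0) *
        z i j := by
  simp only [mul_sum]
  rw [sum_comm (s := s)]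
  refine sum_congr rfl fun i _ => ?_
  rw [sum_comm (s := s)]
  refine sum_congr rfl fun j _ => ?_
  rw [sum_eq_single_of_mem (k i) (hk i) fun y _ hy => by simp [hy.symm]]
  split_ifs <;> simp_all

lemma min_sq_ge {t t' l : ℝ} (ht : 0 ≤ t) (ht' : 0 ≤ t') (hl : 0 ≤ l) :
    (l + 1 / 2) * (t * t') - (1 / 4 + l ^ 2 / 2) * (t ^ 2 + t' ^ 2) ≤ l * min (t ^ 2) (t' ^ 2) := by
  wlog h : t ≤ t' generalizing t t'
  · have := this ht' ht (le_of_not_ge h)
    rw [min_comm]; linarith
  rw [min_eq_left (by gcongr)]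
  nlinarith [sq_nonneg (t' - t - l * (t + t')), sq_nonneg (l * (t' - t)), sq_nonneg (t' - t),
    mul_nonneg hl (sq_nonneg (t' - t))]

lemma ratio_ge {X Y Γ : ℝ} (hX : 0 ≤ X) (hXY : X ≤ Y) (hY : Y ≤ 2 * Γ - X) :
    2 * X - Γ ≤ Γ * (X / Y) := by
  rcases (hX.trans hXY).eq_or_lt with h | h
  · have : X = 0 := by linarith
    subst this
    simp; linarith
  · rw [← mul_div_assoc, le_div_iff₀ h]
    rcases le_total (2 * X - Γ) 0 with h1 | h1
    · nlinarith [mul_nonneg hX (show 0 ≤ Γ by linarith)]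
    · nlinarith [mul_le_mul_of_nonneg_left hY h1, sq_nonneg (X - Γ)]

open Classical in
/-- Rounding of a family of weighted labellings. -/
lemma Game.round [Fintype E] [Nonempty R] {G : Game E U V L R} {ε Γ : ℝ} (hε : 0 ≤ ε)
    (hε1 : ε ≤ 1) (hΓ : 0 ≤ Γ) (hG : G.ValLe (1 - ε)) {Ω : Type} [Nonempty Ω] (s : Finset Ω)
    (w : Ω → ℝ) (hw : ∀ ω ∈ s, 0 < w ω) (t : U → Ω → ℕ) (N : ℕ) (htN : ∀ u ω, t u ω ≤ N)
    (a : U → Ω → L) (ht : ∀ u, ∑ ω ∈ s, w ω * (t u ω : ℝ) ^ 2 ≤ Γ) :
    ∑ ω ∈ s, w ω * ∑ e, ∑ e', G.c e e' * ((t (G.u e) ω : ℝ) * t (G.u e') ω *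
      if G.π e' (a (G.u e') ω) = G.π e (a (G.u e) ω) then 1 else 0) ≤
      (1 - ε ^ 2 / 25) * Γ * Fintype.card E := by
  set T : Finset (Ω × ℕ) := s ×ˢ range (N ^ 2) with hT
  set ag : E × E → Ω → Prop := fun i ω => G.π i.2 (a (G.u i.2) ω) = G.π i.1 (a (G.u i.1) ω)
    with hag
  have hsum : ∀ (m : Ω → ℕ) (q : Ω → Prop) [DecidablePred q], (∀ ω, m ω ≤ N ^ 2) →
      ∑ p ∈ T.filter (fun p => p.2 < m p.1 ∧ q p.1), w p.1 =
        ∑ ω ∈ s, w ω * if q ω then (m ω : ℝ) else 0 := by
    intro m q _ hm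
    rw [sum_filter, hT, sum_product]
    refine sum_congr rfl fun ω _ => ?_
    by_cases hq : q ω
    · simp only [hq, and_true, if_true]
      rw [← sum_filter, sum_const, nsmul_eq_mul, mul_comm]
      congr 2
      have : (range (N ^ 2)).filter (fun x => x < m ω) = range (m ω) := by
        ext x; have := hm ω; simp only [mem_filter, mem_range]; omega
      rw [this, card_range]
    · simp [hq]
  have hN2 : ∀ u ω, t u ω ^ 2 ≤ N ^ 2 := fun u ω => Nat.pow_le_pow_left (htN u ω) 2
  obtain ⟨σ, hσ⟩ := corr_sampling (P := Ω × ℕ) (I := E × E) (fun p => w p.1)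
    (fun i => G.u i.1) (fun i => G.u i.2) T (fun p hp => hw _ (mem_product.1 hp).1)
    (fun i => G.c i.1 i.2) (fun u => T.filter fun p => p.2 < t u p.1 ^ 2)
    (fun i => T.filter fun p => p.2 < min (t (G.u i.1) p.1 ^ 2) (t (G.u i.2) p.1 ^ 2) ∧ ag i p.1)
    (fun i => G.c_nonneg _ _) (fun u => filter_subset _ _) (fun i p hp => by
      simp only [mem_filter, mem_inter, lt_min_iff] at hp ⊢
      tauto)
  have hcol := (Game.colLe_of_valLe hG) fun u => a u (σ u).1
  rw [G.col_eq, ← sum_product', univ_product_univ] at hcol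
  have h1 : ∑ i : E × E, G.c i.1 i.2 * (if σ (G.u i.1) = σ (G.u i.2) ∧ σ (G.u i.1) ∈
      T.filter (fun p => p.2 < min (t (G.u i.1) p.1 ^ 2) (t (G.u i.2) p.1 ^ 2) ∧ ag i p.1)
      then 1 else 0) ≤ (1 - ε) * Fintype.card E := by
    refine le_trans (sum_le_sum fun i _ => mul_le_mul_of_nonneg_left ?_ (G.c_nonneg _ _)) hcol
    split_ifs with h1 h2
    · exact le_rfl
    · refine absurd ?_ h2
      have := (mem_filter.1 h1.2).2.2
      simp only [hag] at this
      rw [← h1.1]; exact this
    all_goals norm_num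
  set X : E × E → ℝ := fun i => ∑ ω ∈ s, w ω *
    if ag i ω then ((min (t (G.u i.1) ω ^ 2) (t (G.u i.2) ω ^ 2) : ℕ) : ℝ) else 0 with hX
  have h2 : ∀ i : E × E, 2 * X i - Γ ≤ Γ * ((∑ p ∈ T.filter (fun p =>
      p.2 < min (t (G.u i.1) p.1 ^ 2) (t (G.u i.2) p.1 ^ 2) ∧ ag i p.1), w p.1) /
      ∑ p ∈ T.filter (fun p => p.2 < t (G.u i.1) p.1 ^ 2) ∪
        T.filter (fun p => p.2 < t (G.u i.2) p.1 ^ 2), w p.1) := by
    intro i
    have e1 : T.filter (fun p => p.2 < t (G.u i.1) p.1 ^ 2) ∪
        T.filter (fun p => p.2 < t (G.u i.2) p.1 ^ 2) =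
        T.filter (fun p => p.2 < max (t (G.u i.1) p.1 ^ 2) (t (G.u i.2) p.1 ^ 2) ∧ True) := by
      ext p; simp only [mem_union, mem_filter, lt_max_iff]; tauto
    rw [e1, hsum (fun ω => min (t (G.u i.1) ω ^ 2) (t (G.u i.2) ω ^ 2)) (ag i)
      (fun ω => (min_le_left _ _).trans (hN2 _ _)),
      hsum (fun ω => max (t (G.u i.1) ω ^ 2) (t (G.u i.2) ω ^ 2)) (fun _ => True)
      (fun ω => max_le (hN2 _ _) (hN2 _ _))]
    refine ratio_ge (sum_nonneg fun ω hω => mul_nonneg (hw ω hω).le (by positivity))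
      (sum_le_sum fun ω hω => mul_le_mul_of_nonneg_left ?_ (hw ω hω).le) ?_
    · split_ifs
      · exact_mod_cast min_le_max
      · positivity
    · have k1 := ht (G.u i.1)
      have k2 := ht (G.u i.2)
      rw [le_sub_iff_add_le, ← sum_add_distrib]
      refine le_trans (sum_le_sum fun ω hω => ?_)
        (show ∑ ω ∈ s, (w ω * (t (G.u i.1) ω : ℝ) ^ 2 + w ω * (t (G.u i.2) ω : ℝ) ^ 2) ≤ _ by
          rw [sum_add_distrib]; linarith)
      rw [← mul_add, ← mul_add]
      refine mul_le_mul_of_nonneg_left ?_ (hw ω hω).le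
      have := max_add_min (t (G.u i.1) ω ^ 2) (t (G.u i.2) ω ^ 2)
      have k3 : ((max (t (G.u i.1) ω ^ 2) (t (G.u i.2) ω ^ 2) : ℕ) : ℝ) +
          ((min (t (G.u i.1) ω ^ 2) (t (G.u i.2) ω ^ 2) : ℕ) : ℝ) =
          (t (G.u i.1) ω : ℝ) ^ 2 + (t (G.u i.2) ω : ℝ) ^ 2 := by exact_mod_cast this
      rw [if_pos trivial]
      split_ifs
      · exact k3.le
      · rw [← k3]; gcongr; positivity
  have hc1 : ∑ i : E × E, G.c i.1 i.2 = Fintype.card E := by
    rw [← univ_product_univ, sum_product]; simp [G.sum_c]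
  have h3 : 2 * ∑ i : E × E, G.c i.1 i.2 * X i ≤ Γ * ((2 - ε) * Fintype.card E) := by
    have k1 := mul_le_mul_of_nonneg_left (hσ.trans h1) hΓ
    rw [mul_sum] at k1
    have k2 := sum_le_sum (s := univ) fun i _ =>
      mul_le_mul_of_nonneg_left (h2 i) (G.c_nonneg i.1 i.2)
    simp only [mul_sub, sum_sub_distrib, ← sum_mul, hc1, mul_left_comm _ (2 : ℝ), ← mul_sum,
      mul_left_comm _ Γ] at k1 k2
    nlinarith
  set Q : E × E → ℝ := fun i => ∑ ω ∈ s, w ω * ((t (G.u i.1) ω : ℝ) * t (G.u i.2) ω *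
    if ag i ω then 1 else 0) with hQ
  have h4 : ∀ i, (ε / 4 + 1 / 2) * Q i - (1 / 4 + (ε / 4) ^ 2 / 2) * (2 * Γ) ≤ ε / 4 * X i := by
    intro i
    have k1 := ht (G.u i.1)
    have k2 := ht (G.u i.2)
    have k3 : (ε / 4 + 1 / 2) * Q i - (1 / 4 + (ε / 4) ^ 2 / 2) *
        (∑ ω ∈ s, w ω * (t (G.u i.1) ω : ℝ) ^ 2 + ∑ ω ∈ s, w ω * (t (G.u i.2) ω : ℝ) ^ 2) ≤
        ε / 4 * X i := by
      simp only [hQ, hX, ← sum_add_distrib, mul_sum, ← sum_sub_distrib]
      refine sum_le_sum fun ω hω => ?_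
      have k4 := mul_le_mul_of_nonneg_left (min_sq_ge (l := ε / 4)
        (Nat.cast_nonneg (t (G.u i.1) ω)) (Nat.cast_nonneg (t (G.u i.2) ω)) (by positivity))
        (hw ω hω).le
      have k5 := (hw ω hω).le
      split_ifs
      · push_cast
        linarith
      · have : 0 ≤ (1 / 4 + (ε / 4) ^ 2 / 2) *
          (w ω * (t (G.u i.1) ω : ℝ) ^ 2 + w ω * (t (G.u i.2) ω : ℝ) ^ 2) := by positivity
        linarith
    have : (0 : ℝ) ≤ 1 / 4 + (ε / 4) ^ 2 / 2 := by positivity
    nlinarith
  have h5 := sum_le_sum (s := univ) fun i _ =>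
    mul_le_mul_of_nonneg_left (h4 i) (G.c_nonneg i.1 i.2)
  simp only [mul_sub, sum_sub_distrib, ← sum_mul, hc1, mul_left_comm _ (ε / 4),
    mul_left_comm _ (ε / 4 + 1 / 2), ← mul_sum] at h5
  have h6 : ∑ ω ∈ s, w ω * ∑ e, ∑ e', G.c e e' * ((t (G.u e) ω : ℝ) * t (G.u e') ω *
      if G.π e' (a (G.u e') ω) = G.π e (a (G.u e) ω) then 1 else 0) =
      ∑ i : E × E, G.c i.1 i.2 * Q i := by
    rw [Fintype.sum_prod_type]
    simp only [hQ, hag, mul_sum]
    rw [sum_comm]
    refine sum_congr rfl fun e _ => ?_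
    rw [sum_comm]
    refine sum_congr rfl fun e' _ => sum_congr rfl fun ω _ => by ring
  rw [h6]
  have hn : (0 : ℝ) ≤ Γ * Fintype.card E := by positivity
  have hpos : 0 < ε / 4 + 1 / 2 := by positivity
  refine le_of_mul_le_mul_left ?_ hpos
  have k6 : 0 ≤ ε ^ 2 * (Γ * Fintype.card E) := by positivity
  nlinarith [mul_nonneg k6 (sub_nonneg.2 hε1)]

lemma Game.c_prod [Fintype E] [Fintype E'] (G : Game E U V L R) (H : Game E' U' V' L' R')
    (e e' : E × E') : (G.prod H).c e e' = G.c e.1 e'.1 * H.c e.2 e'.2 := by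
  classical
  unfold Game.c
  have h : ∀ inst : DecidablePred fun e'' => (G.prod H).v e'' = (G.prod H).v e,
      @Finset.filter _ _ inst univ = (univ.filter fun e'' => G.v e'' = G.v e.1) ×ˢ (univ.filter fun e'' => H.v e'' = H.v e.2) := by
    intro inst; ext p; simp [Game.prod]
  rw [h, card_product]
  by_cases h1 : G.v e'.1 = G.v e.1 <;> by_cases h2 : H.v e'.2 = H.v e.2 <;>
    simp [Game.prod, h1, h2, mul_comm]

open Classical in
/-- A sum over pairs weighted by `c` with an agreement condition, as a sum over the keys. -/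
lemma Game.sum_c_key [Fintype E] (G : Game E U V L R) {J Y : Type} [Fintype J]
    (s : Finset (V × Y)) (k k' : E → J → Y) (hk : ∀ e j, (G.v e, k e j) ∈ s)
    (z : E × J → E × J → ℝ) :
    ∑ p : E × J, ∑ q : E × J, G.c p.1 q.1 * (if k' q.1 q.2 = k p.1 p.2 then 1 else 0) * z p q =
      ∑ y ∈ s, ((univ.filter fun e => G.v e = y.1).card : ℝ)⁻¹ * ∑ p : E × J, ∑ q : E × J,
        (if (G.v p.1, k p.1 p.2) = y then 1 else 0) *
          (if (G.v q.1, k' q.1 q.2) = y then 1 else 0) * z p q := by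
  rw [← sum_key s (fun p : E × J => (G.v p.1, k p.1 p.2)) (fun q : E × J => (G.v q.1, k' q.1 q.2))
    (fun p => hk p.1 p.2) (fun y => ((univ.filter fun e => G.v e = y.1).card : ℝ)⁻¹) z]
  refine sum_congr rfl fun p _ => sum_congr rfl fun q _ => ?_
  unfold Game.c
  by_cases h1 : G.v q.1 = G.v p.1 <;> by_cases h2 : k' q.1 q.2 = k p.1 p.2 <;> simp [h1, h2]

theorem Game.colLe_prod [Fintype E] [Fintype E'] [Fintype L] [Nonempty L]
    [Nonempty R] {G : Game E U V L R} {H : Game E' U' V' L' R'} {ε γ : ℝ} (hε : 0 ≤ ε)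
    (hε1 : ε ≤ 1) (hγ : 0 ≤ γ) (hG : G.ValLe (1 - ε)) (hH : H.ColLe γ) :
    (G.prod H).ColLe ((1 - ε ^ 2 / 25) * γ) := by
  classical
  intro A
  rcases isEmpty_or_nonempty E with hE | hE
  · simp [Game.col]
  rcases isEmpty_or_nonempty E' with hE' | hE'
  · simp [Game.col]
  have : Nonempty (V' × R') := ⟨(H.v (Classical.arbitrary E'), H.π (Classical.arbitrary E')
    (A (G.u (Classical.arbitrary E), H.u (Classical.arbitrary E'))).2)⟩
  -- keys on the second coordinate
  set k2 : U → E' → R' := fun u f => H.π f (A (u, H.u f)).2 with hk2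
  set k1 : E → E' → R := fun e f => G.π e (A (G.u e, H.u f)).1 with hk1
  set s : Finset (V' × R') := univ.image fun p : E × E' => (H.v p.2, k2 (G.u p.1) p.2) with hs
  set w : V' × R' → ℝ := fun y => ((univ.filter fun f => H.v f = y.1).card : ℝ)⁻¹ with hw
  have hwpos : ∀ y ∈ s, 0 < w y := by
    intro y hy
    obtain ⟨p, -, rfl⟩ := mem_image.1 hy
    exact inv_pos.2 (H.deg_pos p.2)
  set x : V' × R' → U → E' → ℝ := fun y u f => if (H.v f, k2 u f) = y then 1 else 0 with hx
  set F : (U → E' → ℝ) → ℝ := fun z => ∑ p : E × E', ∑ q : E × E',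
    G.c p.1 q.1 * (if k1 q.1 q.2 = k1 p.1 p.2 then 1 else 0) *
      (z (G.u p.1) p.2 * z (G.u q.1) q.2) with hF
  have hconv : ConvexOn ℝ Set.univ F := by
    set s1 : Finset (V × R) := univ.image fun p : E × E' => (G.v p.1, k1 p.1 p.2) with hs1
    have e1 : F = fun z => ∑ y ∈ s1, ((univ.filter fun e => G.v e = y.1).card : ℝ)⁻¹ *
        (∑ p : E × E', (if (G.v p.1, k1 p.1 p.2) = y then 1 else 0) * z (G.u p.1) p.2) ^ 2 := by
      ext z
      simp only [hF]
      rw [G.sum_c_key s1 k1 k1 (fun e j => mem_image.2 ⟨(e, j), mem_univ _, rfl⟩)]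
      refine sum_congr rfl fun y _ => ?_
      rw [sq, sum_mul_sum]
      congr 1
      exact sum_congr rfl fun p _ => sum_congr rfl fun q _ => by ring
    rw [e1]
    refine ⟨convex_univ, fun z _ z' _ a b ha hb hab => ?_⟩
    simp only [smul_eq_mul, mul_sum, ← sum_add_distrib, Pi.add_apply, Pi.smul_apply]
    refine sum_le_sum fun y _ => ?_
    rw [mul_left_comm a, mul_left_comm b, ← mul_add]
    refine mul_le_mul_of_nonneg_left ?_ (by positivity)
    simp only [mul_add, sum_add_distrib, mul_left_comm _ a, mul_left_comm _ b, ← mul_sum]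
    generalize (∑ p : E × E', (if (G.v p.1, k1 p.1 p.2) = y then 1 else 0) * z (G.u p.1) p.2) = P
    generalize (∑ p : E × E', (if (G.v p.1, k1 p.1 p.2) = y then 1 else 0) * z' (G.u p.1) p.2) = Q
    obtain rfl : b = 1 - a := by linarith
    nlinarith [mul_nonneg (mul_nonneg ha hb) (sq_nonneg (P - Q))]
  have h1 : (G.prod H).col A = ∑ y ∈ s, w y * F (x y) := by
    rw [Game.col_eq]
    simp only [Game.c_prod, hF, Fintype.sum_prod_type, mul_sum]
    rw [sum_comm (s := s)]
    refine sum_congr rfl fun e _ => ?_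
    have key : ∀ e' : E, ∑ f, ∑ f', G.c e e' * H.c f f' *
        (@ite ℝ ((G.prod H).π (e', f') (A ((G.prod H).u (e', f'))) =
          (G.prod H).π (e, f) (A ((G.prod H).u (e, f)))) (Classical.propDecidable _) 1 0) =
        ∑ y ∈ s, ∑ f, ∑ f', w y * (G.c e e' * (if k1 e' f' = k1 e f then 1 else 0) *
          (x y (G.u e) f * x y (G.u e') f')) := by
      intro e'
      have := sum_key s (fun f => (H.v f, k2 (G.u e) f)) (fun f => (H.v f, k2 (G.u e') f))
        (fun f => mem_image.2 ⟨(e, f), mem_univ _, rfl⟩) w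
        (fun f f' => G.c e e' * (if k1 e' f' = k1 e f then 1 else 0))
      simp only [mul_sum] at this
      refine Eq.trans ?_ (this.trans ?_)
      · refine sum_congr rfl fun f _ => sum_congr rfl fun f' _ => ?_
        unfold Game.c
        by_cases a1 : H.v f' = H.v f <;> by_cases a2 : k1 e' f' = k1 e f <;>
          by_cases a3 : k2 (G.u e') f' = k2 (G.u e) f <;>
          simp only [hk1, hk2] at a2 a3 <;> simp [Game.prod, hk1, hk2, hw, a1, a2, a3, mul_comm]
      · refine sum_congr rfl fun y _ => sum_congr rfl fun f _ => sum_congr rfl fun f' _ => ?_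
        simp only [hx]; ring
    rw [sum_comm, sum_congr rfl fun e' _ => key e', sum_comm]
    refine sum_congr rfl fun y _ => sum_comm
  have hv := fun y => exists_vertex hconv (univ.image G.u) (x y) (fun u f => by
    simp only [hx]; split_ifs <;> norm_num)
  choose σ hσ using hv
  set t : U → V' × R' → ℕ := fun u y =>
    if u ∈ univ.image G.u then (univ.filter fun f => (H.v f, k2 u f) = y).card else 0 with ht
  have ht1 : ∀ e y, ∑ f, x y (G.u e) f = t (G.u e) y := by
    intro e y
    simp only [ht, hx, mem_image_of_mem G.u (mem_univ e), if_true]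
    rw [card_filter]; push_cast; rfl
  have h2 := Game.round hε hε1 (Γ := γ * Fintype.card E') (by positivity) hG s w hwpos t
    (Fintype.card E') (fun u y => by
      simp only [ht]; split_ifs
      · exact card_le_univ _
      · exact Nat.zero_le _)
    (fun u y => (A (u, H.u (σ y u))).1) (fun u => by
      by_cases hu : u ∈ univ.image G.u
      · obtain ⟨e, -, rfl⟩ := mem_image.1 hu
        refine le_trans (le_of_eq ?_) (hH fun u' => (A (G.u e, u')).2)
        have := sum_key s (fun f => (H.v f, k2 (G.u e) f)) (fun f => (H.v f, k2 (G.u e) f))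
          (fun f => mem_image.2 ⟨(e, f), mem_univ _, rfl⟩) w (fun _ _ => 1)
        rw [H.col_eq]
        refine Eq.trans ?_ (this.symm.trans ?_)
        · refine sum_congr rfl fun y _ => ?_
          rw [← ht1, sq, sum_mul_sum]
          simp only [hx, mul_one]
        · refine sum_congr rfl fun f _ => sum_congr rfl fun f' _ => ?_
          unfold Game.c
          by_cases a1 : H.v f' = H.v f <;> by_cases a3 : k2 (G.u e) f' = k2 (G.u e) f <;>
            simp only [hk2] at a3 <;> simp [hk2, hw, a1, a3]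
      · simp only [ht, hu, if_false]
        simp; positivity)
  rw [h1]
  refine le_trans (sum_le_sum fun y hy => mul_le_mul_of_nonneg_left ((hσ y).trans (le_of_eq ?_))
    (hwpos y hy).le) (h2.trans (le_of_eq ?_))
  · simp only [hF, Fintype.sum_prod_type, mem_image_of_mem G.u (mem_univ _), if_true, ht1]
    refine sum_congr rfl fun e _ => ?_
    rw [sum_eq_single (σ y (G.u e)) (fun f _ hf => by simp [Pi.single_eq_of_ne hf]) (by simp)]
    refine sum_congr rfl fun e' _ => ?_
    rw [sum_eq_single (σ y (G.u e')) (fun f _ hf => by simp [Pi.single_eq_of_ne hf]) (by simp)]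
    simp only [Pi.single_eq_same, hk1]
    ring
  · simp only [Fintype.card_prod]; push_cast; ring

end Vale.Agent.Lib.PCP
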