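import Vale.Agent.Lib.PCP.Base
import Vale.Agent.Lib.PCP.ParRep

/-! Parallel repetition on instances. -/

namespace Vale.Agent.Lib.PCP

open Vale.Agent.Lib.TM

/-- The product of `G` (with `L` left labels) and `H` (with `L'` left and `R'` right labels).
Pairs `(x, y)` with `y < n` are coded as `x * n + y`. -/
def LC.prod (L L' R' : ℕ) (G H : LC) : LC :=
  (G.1 * H.1, G.2.1 * H.2.1, G.2.2.flatMap fun e => H.2.2.map fun e' =>
    (e.1 * H.1 + e'.1, e.2.1 * H.2.1 + e'.2.1,
      (List.range (L * L')).map fun a => e.2.2.getD (a / L') 0 * R' + e'.2.2.getD (a % L') 0))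

/-- The `k`-fold parallel repetition. -/
def LC.pow (L R : ℕ) (G : LC) : ℕ → LC
  | 0 => (1, 1, [(0, 0, [0])])
  | k + 1 => LC.prod L (L ^ k) (R ^ k) G (LC.pow L R G k)

namespace LCPow

lemma ct_prod {α : Type} [Enc α] (L L' R' : ℕ) {G H : α → LC} (hG : CT 0 G) (hH : CT 0 H) :
    CT 0 fun a => LC.prod L L' R' (G a) (H a) := by
  unfold LC.prod
  generalize List.range (L * L') = l
  fun_prop

/-- The product of two constraints. -/
def comb (L L' R' m n : ℕ) (e e' : ℕ × ℕ × List ℕ) : ℕ × ℕ × List ℕ :=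
  (e.1 * m + e'.1, e.2.1 * n + e'.2.1,
    (List.range (L * L')).map fun a => e.2.2.getD (a / L') 0 * R' + e'.2.2.getD (a % L') 0)

lemma prod_edges (L L' R' : ℕ) (G H : LC) : (LC.prod L L' R' G H).2.2 =
    G.2.2.flatMap fun e => H.2.2.map (comb L L' R' H.1 H.2.1 e) := rfl

lemma comb_getD {L L' : ℕ} (R' m n : ℕ) (e e' : ℕ × ℕ × List ℕ) {a : ℕ} (ha : a < L * L') :
    (comb L L' R' m n e e').2.2.getD a 0 =
      e.2.2.getD (a / L') 0 * R' + e'.2.2.getD (a % L') 0 := by
  unfold comb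
  dsimp only
  rw [List.getD_eq_getElem _ _ (by simpa using ha), List.getElem_map, List.getElem_range]

lemma pair_lt {x y m n : ℕ} (hx : x < m) (hy : y < n) : x * n + y < m * n := by
  have h : (x + 1) * n ≤ m * n := Nat.mul_le_mul_right _ hx
  rw [add_mul] at h
  omega

lemma pair_div {x y n : ℕ} (hy : y < n) : (x * n + y) / n = x := by
  rw [add_comm, Nat.add_mul_div_right _ _ (by omega), Nat.div_eq_of_lt hy, zero_add]

lemma pair_mod {x y n : ℕ} (hy : y < n) : (x * n + y) % n = y := by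
  rw [add_comm, Nat.add_mul_mod_self_right, Nat.mod_eq_of_lt hy]

lemma pair_eq {x y n u : ℕ} (hy : y < n) : x * n + y = u ↔ x = u / n ∧ y = u % n := by
  constructor
  · rintro rfl
    exact ⟨(pair_div hy).symm, (pair_mod hy).symm⟩
  · rintro ⟨rfl, h⟩
    rw [h]
    exact Nat.div_add_mod' u n

lemma pair_inj {x y x' y' n : ℕ} (hy : y < n) (hy' : y' < n) :
    x * n + y = x' * n + y' ↔ x = x' ∧ y = y' := by
  rw [pair_eq hy, pair_div hy', pair_mod hy']

lemma getD_lt {l : List ℕ} {R a : ℕ} (h : ∀ b ∈ l, b < R) (ha : a < l.length) :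
    l.getD a 0 < R := by
  rw [List.getD_eq_getElem _ _ ha]
  exact h _ (List.getElem_mem ha)

lemma prod_wf {L R L' R' : ℕ} {G H : LC} (hL : 0 < L') (hG : G.WF L R) (hH : H.WF L' R') :
    (LC.prod L L' R' G H).WF (L * L') (R * R') := by
  constructor
  · obtain ⟨e, he⟩ := List.exists_mem_of_ne_nil _ hG.1
    obtain ⟨e', he'⟩ := List.exists_mem_of_ne_nil _ hH.1
    rw [prod_edges]
    exact List.ne_nil_of_mem (List.mem_flatMap.mpr ⟨e, he, List.mem_map_of_mem he'⟩)
  · intro x hx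
    rw [prod_edges] at hx
    obtain ⟨e, he, hx⟩ := List.mem_flatMap.mp hx
    obtain ⟨e', he', rfl⟩ := List.mem_map.mp hx
    obtain ⟨h1, h2, h3, h4⟩ := hG.2 e he
    obtain ⟨k1, k2, k3, k4⟩ := hH.2 e' he'
    refine ⟨pair_lt h1 k1, pair_lt h2 k2, by simp [comb], fun b hb => ?_⟩
    obtain ⟨a, ha, rfl⟩ := List.mem_map.mp hb
    have ha' := List.mem_range.mp ha
    refine pair_lt (getD_lt h4 ?_) (getD_lt k4 ?_)
    · rw [h3]
      exact (Nat.div_lt_iff_lt_mul hL).mpr ha'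
    · rw [k3]
      exact Nat.mod_lt _ hL

lemma countP_prod {α β γ : Type} (G : List α) (H : List β) (f : α → β → γ) (p : α → Bool)
    (q : β → Bool) (r : γ → Bool) (h : ∀ a ∈ G, ∀ b ∈ H, r (f a b) = (p a && q b)) :
    (G.flatMap fun a => H.map (f a)).countP r = G.countP p * H.countP q := by
  induction G with
  | nil => simp
  | cons a G ih =>
    rw [List.flatMap_cons, List.countP_append, ih fun a' ha' => h a' (by simp [ha']),
      List.countP_cons, List.countP_map]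
    have h1 : H.countP (r ∘ f a) = H.countP fun b => p a && q b :=
      List.countP_congr fun b hb => by rw [Function.comp, h a (by simp) b hb]
    rw [h1]
    cases p a
    · simp
    · simp only [Bool.true_and, if_true]
      ring

lemma prod_bireg {L L' R' dU dV dU' dV' : ℕ} {G H : LC} (hH : H.WF L' R') (hG' : G.Bireg dU dV)
    (hH' : H.Bireg dU' dV') : (LC.prod L L' R' G H).Bireg (dU * dU') (dV * dV') := by
  constructor
  · intro u hu
    have hu' : u < G.1 * H.1 := hu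
    have h0 : 0 < H.1 := Nat.pos_of_mul_pos_left (Nat.zero_lt_of_lt hu')
    rw [prod_edges, countP_prod _ _ _ (fun e => e.1 == u / H.1) (fun e => e.1 == u % H.1),
      hG'.1 _ ((Nat.div_lt_iff_lt_mul h0).mpr hu'), hH'.1 _ (Nat.mod_lt _ h0)]
    intro e _ e' he'
    rw [Bool.eq_iff_iff]
    simp only [comb, beq_iff_eq, Bool.and_eq_true]
    exact pair_eq (hH.2 e' he').1
  · intro u hu
    have hu' : u < G.2.1 * H.2.1 := hu
    have h0 : 0 < H.2.1 := Nat.pos_of_mul_pos_left (Nat.zero_lt_of_lt hu')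
    rw [prod_edges, countP_prod _ _ _ (fun e => e.2.1 == u / H.2.1) (fun e => e.2.1 == u % H.2.1),
      hG'.2 _ ((Nat.div_lt_iff_lt_mul h0).mpr hu'), hH'.2 _ (Nat.mod_lt _ h0)]
    intro e _ e' he'
    rw [Bool.eq_iff_iff]
    simp only [comb, beq_iff_eq, Bool.and_eq_true]
    exact pair_eq (hH.2 e' he').2.1

lemma prod_perfect {L R L' R' : ℕ} {G H : LC} (hH : H.WF L' R') (hG' : G.Perfect L R)
    (hH' : H.Perfect L' R') : (LC.prod L L' R' G H).Perfect (L * L') (R * R') := by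
  obtain ⟨A, B, hA, hB, h⟩ := hG'
  obtain ⟨A', B', hA', hB', h'⟩ := hH'
  refine ⟨fun x => A (x / H.1) * L' + A' (x % H.1), fun x => B (x / H.2.1) * R' + B' (x % H.2.1),
    fun _ => pair_lt (hA _) (hA' _), fun _ => pair_lt (hB _) (hB' _), fun x hx => ?_⟩
  rw [prod_edges] at hx
  obtain ⟨e, he, hx⟩ := List.mem_flatMap.mp hx
  obtain ⟨e', he', rfl⟩ := List.mem_map.mp hx
  obtain ⟨k1, k2, -, -⟩ := hH.2 e' he'
  rw [comb_getD _ _ _ _ _ (pair_lt (hA _) (hA' _)), pair_div (hA' _), pair_mod (hA' _)]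
  simp only [comb, pair_div k1, pair_mod k1, pair_div k2, pair_mod k2]
  rw [h e he, h' e' he']

/-- The constraints of `G` are listed by `f`. -/
def Rep {E : Type} [Fintype E] (G : LC) (f : E → ℕ × ℕ × List ℕ) : Prop :=
  (G.2.2 : Multiset (ℕ × ℕ × List ℕ)) = Finset.univ.val.map f

/-- The abstract game of a family of constraints. -/
def game {E : Type} (L : ℕ) (f : E → ℕ × ℕ × List ℕ) : Game E ℕ ℕ (Fin L) ℕ :=
  ⟨fun e => (f e).1, fun e => (f e).2.1, fun e a => (f e).2.2.getD a 0⟩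

lemma rep_get (G : LC) : Rep G G.2.2.get := by
  unfold Rep
  rw [Fin.univ_val_map, List.ofFn_get]

lemma Rep.mem {E : Type} [Fintype E] {G : LC} {f : E → ℕ × ℕ × List ℕ} (h : Rep G f) (e : E) :
    f e ∈ G.2.2 := by
  rw [← Multiset.mem_coe, h]
  exact Multiset.mem_map_of_mem _ (Finset.mem_univ e)

lemma Rep.length {E : Type} [Fintype E] {G : LC} {f : E → ℕ × ℕ × List ℕ} (h : Rep G f) :
    G.2.2.length = Fintype.card E := by
  rw [← Multiset.coe_card, h, Multiset.card_map]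
  rfl

open Classical in
lemma Rep.good {E : Type} [Fintype E] {G : LC} {f : E → ℕ × ℕ × List ℕ} (h : Rep G f)
    (A B : ℕ → ℕ) : G.good A B =
      (Finset.univ.filter fun e => (f e).2.2.getD (A (f e).1) 0 = B (f e).2.1).card := by
  have h1 : G.good A B = Multiset.countP (fun e : ℕ × ℕ × List ℕ => e.2.2.getD (A e.1) 0 = B e.2.1)
      (G.2.2 : Multiset (ℕ × ℕ × List ℕ)) := by
    rw [Multiset.coe_countP]
    exact List.countP_congr fun e _ => by simp
  rw [h1, h, Multiset.countP_map]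
  rfl

lemma Rep.valLe_iff {E : Type} [Fintype E] {G : LC} {f : E → ℕ × ℕ × List ℕ} (h : Rep G f)
    (L : ℕ) (δ : ℝ) : G.ValLe L δ ↔ (game L f).ValLe δ := by
  constructor
  · intro h1 A B
    have h2 := h1 (fun u => A u) B fun u => (A u).2
    rw [h.good, h.length] at h2
    refine le_trans (le_of_eq ?_) h2
    exact congrArg _ (congrArg _ (Finset.filter_congr_decidable _ _ _))
  · intro h1 A B hA
    have h2 := h1 (fun u => ⟨A u, hA u⟩) B
    rw [h.good, h.length]
    refine le_trans (le_of_eq ?_) h2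
    exact congrArg _ (congrArg _ (Finset.filter_congr_decidable _ _ _).symm)

lemma Rep.prod {E E' : Type} [Fintype E] [Fintype E'] {G H : LC} {f : E → ℕ × ℕ × List ℕ}
    {g : E' → ℕ × ℕ × List ℕ} (hG : Rep G f) (hH : Rep H g) (L L' R' : ℕ) :
    Rep (LC.prod L L' R' G H) fun p : E × E' => comb L L' R' H.1 H.2.1 (f p.1) (g p.2) := by
  unfold Rep at *
  rw [prod_edges, ← Multiset.coe_bind, ← Finset.univ_product_univ, Finset.product_val]
  simp only [← Multiset.map_coe]
  rw [hG, hH, Multiset.bind_map]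
  change _ = Multiset.map _ (Multiset.bind _ _)
  rw [Multiset.map_bind]
  simp only [Multiset.map_map, Function.comp]

lemma col_congr {E U V L R U' V' L' R' : Type} [Fintype E] (G : Game E U V L R)
    (G' : Game E U' V' L' R') (A : U → L) (A' : U' → L')
    (hv : ∀ e e', G.v e = G.v e' ↔ G'.v e = G'.v e')
    (hp : ∀ e e', G.π e (A (G.u e)) = G.π e' (A (G.u e')) ↔
      G'.π e (A' (G'.u e)) = G'.π e' (A' (G'.u e'))) : G.col A = G'.col A' := by
  unfold Game.col
  refine Finset.sum_congr rfl fun e _ => ?_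
  refine congrArg₂ (fun a b : Finset E => (a.card : ℝ) / b.card) ?_ ?_
  · ext e'
    simp only [Finset.mem_filter, hv, hp]
  · ext e'
    simp only [Finset.mem_filter, hv]

lemma colLe_comb {E E' : Type} [Fintype E] [Fintype E'] {H : LC} {f : E → ℕ × ℕ × List ℕ}
    {g : E' → ℕ × ℕ × List ℕ} {L L' R' : ℕ} (hL : 0 < L') (hH : Rep H g) (hW : H.WF L' R') {γ : ℝ}
    (h : ((game L f).prod (game L' g)).ColLe γ) :
    (game (L * L') fun p : E × E' => comb L L' R' H.1 H.2.1 (f p.1) (g p.2)).ColLe γ := by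
  intro A
  refine le_trans (le_of_eq ?_) (h fun p =>
    (⟨A (p.1 * H.1 + p.2) / L', (Nat.div_lt_iff_lt_mul hL).mpr (A _).2⟩,
      ⟨A (p.1 * H.1 + p.2) % L', Nat.mod_lt _ hL⟩))
  have k : ∀ e a, (g e).2.2.getD (a % L') 0 < R' := fun e a =>
    getD_lt (hW.2 _ (hH.mem e)).2.2.2 (by
      rw [(hW.2 _ (hH.mem e)).2.2.1]
      exact Nat.mod_lt _ hL)
  refine col_congr _ _ _ _ (fun e e' => ?_) fun e e' => ?_
  · simp only [game, Game.prod, Prod.mk.injEq]
    exact pair_inj (hW.2 _ (hH.mem _)).2.1 (hW.2 _ (hH.mem _)).2.1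
  · simp only [game, Game.prod, Prod.mk.injEq]
    rw [comb_getD _ _ _ _ _ (A _).2, comb_getD _ _ _ _ _ (A _).2]
    exact pair_inj (k _ _) (k _ _)

end LCPow

open LCPow

theorem LC.ct_pow (L R k : ℕ) : CT 0 fun G => LC.pow L R G k := by
  induction k with
  | zero => exact CT.const _
  | succ k ih => exact ct_prod L (L ^ k) (R ^ k) CT.id ih

theorem LC.pow_wf {L R : ℕ} {G : LC} (hL : 0 < L) (h : G.WF L R) (k : ℕ) :
    (LC.pow L R G k).WF (L ^ k) (R ^ k) := by
  induction k with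
  | zero => simp [LC.pow, LC.WF]
  | succ k ih =>
    rw [pow_succ' L k, pow_succ' R k]
    exact prod_wf (pow_pos hL k) h ih

theorem LC.pow_bireg {L R dU dV : ℕ} {G : LC} (hL : 0 < L) (h : G.WF L R) (h' : G.Bireg dU dV)
    (k : ℕ) : (LC.pow L R G k).Bireg (dU ^ k) (dV ^ k) := by
  induction k with
  | zero => simp [LC.pow, LC.Bireg]
  | succ k ih =>
    rw [pow_succ' dU k, pow_succ' dV k]
    exact prod_bireg (LC.pow_wf hL h k) h' ih

theorem LC.pow_perfect {L R : ℕ} {G : LC} (h : G.WF L R) (h' : G.Perfect L R) (k : ℕ) :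
    (LC.pow L R G k).Perfect (L ^ k) (R ^ k) := by
  have hL : 0 < L := let ⟨_, _, hA, _⟩ := h'; Nat.zero_lt_of_lt (hA 0)
  induction k with
  | zero => exact ⟨fun _ => 0, fun _ => 0, by simp, by simp, by simp [LC.pow]⟩
  | succ k ih =>
    rw [pow_succ' L k, pow_succ' R k]
    exact prod_perfect (LC.pow_wf hL h k) h' ih

theorem LC.pow_valLe {L R : ℕ} {G : LC} {ε : ℝ} (hL : 0 < L) (h : G.WF L R) (h0 : 0 ≤ ε)
    (h1 : ε ≤ 1) (h' : G.ValLe L (1 - ε)) (k : ℕ) :
    (LC.pow L R G k).ValLe (L ^ k) (Real.sqrt ((1 - ε ^ 2 / 25) ^ k)) := by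
  have hc : 0 ≤ 1 - ε ^ 2 / 25 := by nlinarith
  have : Nonempty (Fin L) := ⟨⟨0, hL⟩⟩
  have hG := ((rep_get G).valLe_iff L _).mp h'
  have key : ∃ (E : Type) (_ : Fintype E) (f : E → ℕ × ℕ × List ℕ), Rep (LC.pow L R G k) f ∧
      (game (L ^ k) f).ColLe ((1 - ε ^ 2 / 25) ^ k) := by
    induction k with
    | zero => exact ⟨_, _, _, rep_get _, by rw [pow_zero (1 - ε ^ 2 / 25)]; exact Game.colLe_one _⟩
    | succ k ih =>
      obtain ⟨E, _, f, hf, hcol⟩ := ih
      refine ⟨_, _, _, (rep_get G).prod hf L (L ^ k) (R ^ k), ?_⟩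
      rw [pow_succ' L k, pow_succ' _ k]
      exact colLe_comb (pow_pos hL k) hf (LC.pow_wf hL h k)
        (Game.colLe_prod h0 h1 (pow_nonneg hc k) hG hcol)
  obtain ⟨E, _, f, hf, hcol⟩ := key
  exact (hf.valLe_iff _ _).mpr (Game.valLe_of_colLe (pow_nonneg hc k) hcol)

end Vale.Agent.Lib.PCP
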