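import Vale.Agent.Lib.PCP.Iter
import Vale.Agent.Lib.PCP.LCPow
import Vale.Agent.Lib.PCP.BaseGame

/-! Hardness of label cover. -/

namespace Vale.Agent.Lib.PCP

open Vale.Agent.Lib.TM

/-- Biregular label cover with constant gap. -/
theorem labelCover_gap : ∃ ε : ℝ, 0 < ε ∧ ε ≤ 1 ∧ ∃ (L R : ℕ) (red : CNF3 → LC), 0 < L ∧
    CT 0 red ∧ ∀ φ, (red φ).WF L R ∧ (red φ).Bireg 2 104 ∧
      (Sat φ → (red φ).Perfect L R) ∧ (¬ Sat φ → (red φ).ValLe L (1 - ε)) := by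
  obtain ⟨ε, h0, h1, red, hr, h⟩ := gapCSP_hard
  obtain ⟨L, R, base, hL, hb, h'⟩ := exists_base
  refine ⟨ε / 104000, by positivity, by linarith, L, R, fun φ => base (red φ), hL, hb.comp hr,
    fun φ => ?_⟩
  obtain ⟨k1, -, k3, k4⟩ := h φ
  obtain ⟨l1, l2, l3, l4⟩ := h' _ k1
  exact ⟨l1, l2, fun hs => l3 (k3 hs), fun hs => l4 _ (k4 hs)⟩

/-- Biregular label cover with perfect completeness and arbitrarily small soundness. -/
theorem labelCover_hard {δ : ℝ} (hδ : 0 < δ) : ∃ (L R dU dV : ℕ) (red : CNF3 → LC),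
    0 < L ∧ 0 < dU ∧ 0 < dV ∧ CT 0 red ∧ ∀ φ, (red φ).WF L R ∧ (red φ).Bireg dU dV ∧
      (Sat φ → (red φ).Perfect L R) ∧ (¬ Sat φ → (red φ).ValLe L δ) := by
  obtain ⟨ε, h0, h1, L, R, red, hL, hr, h⟩ := labelCover_gap
  obtain ⟨k, hk⟩ := exists_pow_lt_of_lt_one (x := δ ^ 2) (y := 1 - ε ^ 2 / 25) (by positivity)
    (by have : 0 < ε ^ 2 := by positivity
        linarith)
  refine ⟨L ^ k, R ^ k, 2 ^ k, 104 ^ k, fun φ => LC.pow L R (red φ) k, by positivity,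
    by positivity, by positivity, (LC.ct_pow L R k).comp hr, fun φ => ?_⟩
  obtain ⟨k1, k2, k3, k4⟩ := h φ
  refine ⟨LC.pow_wf hL k1 k, LC.pow_bireg hL k1 k2 k, fun hs => LC.pow_perfect k1 (k3 hs) k,
    fun hs A B hA => (LC.pow_valLe hL k1 h0.le h1 (k4 hs) k A B hA).trans ?_⟩
  refine mul_le_mul_of_nonneg_right ?_ (Nat.cast_nonneg _)
  exact Real.sqrt_le_iff.mpr ⟨hδ.le, hk.le⟩

end Vale.Agent.Lib.PCP
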