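import Mathlib

/-! Random walks on graphs given by permutations: averages over step lists. -/

namespace Vale.Agent.Lib.PCP

open Finset

variable {V D S : Type}

/-- The end point of a walk. -/
def walk (step : D → V → V) (v : V) (l : List D) : V := l.foldl (fun v s => step s v) v

/-- The reversed list of steps. -/
def rev (inv : D → D) (l : List D) : List D := (l.map inv).reverse

@[simp] lemma walk_nil (step : D → V → V) (v : V) : walk step v [] = v := rfl

@[simp] lemma walk_cons (step : D → V → V) (v : V) (s : D) (l : List D) :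
    walk step v (s :: l) = walk step (step s v) l := rfl

lemma walk_append (step : D → V → V) (v : V) (l l' : List D) :
    walk step v (l ++ l') = walk step (walk step v l) l' := List.foldl_append

@[simp] lemma rev_nil (inv : D → D) : rev inv [] = [] := rfl

lemma rev_cons (inv : D → D) (s : D) (l : List D) : rev inv (s :: l) = rev inv l ++ [inv s] := by
  simp [rev]

lemma walk_rev {step : D → V → V} {inv : D → D} (hstep : ∀ s v, step (inv s) (step s v) = v)
    (l : List D) (v : V) : walk step (walk step v l) (rev inv l) = v := by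
  induction l generalizing v with
  | nil => rfl
  | cons s l ih => rw [walk_cons, rev_cons, walk_append, ih]; simp [hstep]

variable [Fintype D]

/-- The average over all lists of length `n`. -/
noncomputable def avgL : ℕ → (List D → ℝ) → ℝ
  | 0, F => F []
  | n + 1, F => (∑ s, avgL n fun l => F (s :: l)) / Fintype.card D

lemma avgL_succ (n : ℕ) (F : List D → ℝ) :
    avgL (n + 1) F = (∑ s, avgL n fun l => F (s :: l)) / Fintype.card D := rfl

lemma avgL_mono {n : ℕ} {F G : List D → ℝ} (h : ∀ l, l.length = n → F l ≤ G l) :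
    avgL n F ≤ avgL n G := by
  induction n generalizing F G with
  | zero => exact h _ rfl
  | succ n ih =>
    refine div_le_div_of_nonneg_right (sum_le_sum fun s _ => ih fun l hl => h _ ?_)
      (Nat.cast_nonneg _)
    simp [hl]

lemma avgL_congr {n : ℕ} {F G : List D → ℝ} (h : ∀ l, l.length = n → F l = G l) :
    avgL n F = avgL n G :=
  le_antisymm (avgL_mono fun l hl => (h l hl).le) (avgL_mono fun l hl => (h l hl).ge)

lemma avgL_add (n : ℕ) (F G : List D → ℝ) :
    avgL n (fun l => F l + G l) = avgL n F + avgL n G := by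
  induction n generalizing F G with
  | zero => rfl
  | succ n ih => simp only [avgL_succ, ih, sum_add_distrib, add_div]

lemma avgL_mul (n : ℕ) (c : ℝ) (F : List D → ℝ) : avgL n (fun l => c * F l) = c * avgL n F := by
  induction n generalizing F with
  | zero => rfl
  | succ n ih => simp only [avgL_succ, ih, ← mul_sum, mul_div_assoc]

lemma avgL_mul' (n : ℕ) (c : ℝ) (F : List D → ℝ) : avgL n (fun l => F l * c) = avgL n F * c := by
  rw [mul_comm, ← avgL_mul]; simp only [mul_comm]

lemma avgL_div (n : ℕ) (c : ℝ) (F : List D → ℝ) : avgL n (fun l => F l / c) = avgL n F / c := by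
  simp only [div_eq_mul_inv, avgL_mul']

lemma avgL_zero (n : ℕ) : avgL n (fun _ : List D => (0 : ℝ)) = 0 := by
  simpa using avgL_mul n 0 (fun _ : List D => 0)

lemma avgL_sum {ι : Type} (n : ℕ) (t : Finset ι) (F : ι → List D → ℝ) :
    avgL n (fun l => ∑ i ∈ t, F i l) = ∑ i ∈ t, avgL n (F i) := by
  classical
  induction t using Finset.induction_on with
  | empty => simpa using avgL_zero n
  | insert i t hi ih => simp only [sum_insert hi, avgL_add, ih]

lemma avgL_nonneg {n : ℕ} {F : List D → ℝ} (h : ∀ l, 0 ≤ F l) : 0 ≤ avgL n F :=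
  (avgL_zero n).ge.trans (avgL_mono fun l _ => h l)

lemma avgL_const [Nonempty D] (n : ℕ) (c : ℝ) : avgL n (fun _ : List D => c) = c := by
  induction n with
  | zero => rfl
  | succ n ih =>
    have : (0 : ℝ) < Fintype.card D := by exact_mod_cast Fintype.card_pos
    rw [avgL_succ, ih]; simp

lemma avgL_append (m n : ℕ) (F : List D → ℝ) :
    avgL (m + n) F = avgL m fun l => avgL n fun l' => F (l ++ l') := by
  induction m generalizing F with
  | zero => simp [avgL]
  | succ m ih => rw [Nat.succ_add, avgL_succ, avgL_succ]; simp only [ih, List.cons_append]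

lemma avgL_snoc (n : ℕ) (F : List D → ℝ) :
    avgL (n + 1) F = (∑ s, avgL n fun l => F (l ++ [s])) / Fintype.card D := by
  rw [avgL_append, ← avgL_sum, ← avgL_div]; rfl

lemma sum_ofFn [Nonempty D] (n : ℕ) (F : List D → ℝ) :
    ∑ w : Fin n → D, F (List.ofFn w) = (Fintype.card D : ℝ) ^ n * avgL n F := by
  induction n generalizing F with
  | zero => simp [avgL]
  | succ n ih =>
    have : (0 : ℝ) < Fintype.card D := by exact_mod_cast Fintype.card_pos
    rw [← (Fin.consEquiv fun _ => D).sum_comp, Fintype.sum_prod_type, avgL_succ]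
    simp only [Fin.consEquiv_apply, List.ofFn_succ, Fin.cons_zero, Fin.cons_succ]
    rw [sum_congr rfl fun s _ => ih fun l => F (s :: l), ← mul_sum]
    field_simp
    ring

lemma avgL_take [Nonempty D] {k n : ℕ} (h : k ≤ n) (F : List D → ℝ) :
    avgL n (fun l => F (l.take k)) = avgL k F := by
  obtain ⟨m, rfl⟩ := Nat.exists_eq_add_of_le h
  rw [avgL_append]
  refine avgL_congr fun l hl => ?_
  simp only [← hl, List.take_left', avgL_const]

variable [Fintype V] {step : D → V → V} {inv : D → D}

omit [Fintype D] in
lemma sum_step (hinv : ∀ s, inv (inv s) = s) (hstep : ∀ s v, step (inv s) (step s v) = v) (s : D)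
    (f : V → ℝ) : ∑ v, f (step s v) = ∑ v, f v :=
  Equiv.sum_comp ⟨step s, step (inv s), hstep s, fun v => by
    have := hstep (inv s) v; rwa [hinv] at this⟩ f

lemma sum_avgL_rev (hinv : ∀ s, inv (inv s) = s) (hstep : ∀ s v, step (inv s) (step s v) = v)
    (n : ℕ) (H : V → List D → ℝ) :
    ∑ a, avgL n (H a) = ∑ x, avgL n fun y => H (walk step x y) (rev inv y) := by
  induction n generalizing H with
  | zero => rfl
  | succ n ih =>
    simp only [avgL_snoc n (H _), avgL_succ, ← sum_div, walk_cons, rev_cons]
    congr 1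
    rw [sum_comm, sum_comm (s := univ) (t := univ)
      (f := fun x s => avgL n fun y => H (walk step (step s x) y) (rev inv y ++ [inv s])),
      ← Equiv.sum_comp ⟨inv, inv, hinv, hinv⟩]
    refine sum_congr rfl fun s _ => ?_
    rw [sum_step hinv hstep s fun x => avgL n fun y => H (walk step x y) (rev inv y ++ [inv s])]
    exact ih fun a l => H a (l ++ [inv s])

/-- The number of marked darts along a walk. -/
def marks (step : D → V → V) (f : V → D → ℝ) : V → List D → ℝ
  | _, [] => 0
  | v, s :: l => f v s + marks step f (step s v) l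

lemma sum_mul_le_of_sq {ι : Type} [Fintype ι] {x y : ι → ℝ} {a b : ℝ} (ha : 0 ≤ a) (hb : 0 ≤ b)
    (hx : ∑ i, x i ^ 2 ≤ a ^ 2) (hy : ∑ i, y i ^ 2 ≤ b ^ 2) : ∑ i, x i * y i ≤ a * b := by
  refine le_of_sq_le_sq ?_ (by positivity)
  rw [mul_pow]
  exact (sum_mul_sq_le_sq_mul_sq _ _ _).trans
    (mul_le_mul hx hy (sum_nonneg fun _ _ => sq_nonneg _) (sq_nonneg _))

/-- Second moment of the number of marked darts. -/
theorem marks_sq [Nonempty D] (hinv : ∀ s, inv (inv s) = s)
    (hstep : ∀ s v, step (inv s) (step s v) = v) {lam : ℝ} (h0 : 0 ≤ lam) (h1 : lam < 1)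
    (hspec : ∀ f : V → ℝ, ∑ v, f v = 0 →
      ∑ v, ((∑ s, f (step s v)) / Fintype.card D) ^ 2 ≤ lam ^ 2 * ∑ v, f v ^ 2)
    {f : V → D → ℝ} (hf : ∀ v s, f v s = 0 ∨ f v s = 1) {δ : ℝ}
    (hδ : ∑ v, ∑ s, f v s = δ * (Fintype.card V * Fintype.card D)) (hδ0 : 0 ≤ δ) (n : ℕ) :
    ∑ v, avgL n (fun l => marks step f v l ^ 2) ≤
      (n * δ * (1 + 2 / (1 - lam)) + (n * δ) ^ 2) * Fintype.card V := by
  have hd : (0 : ℝ) < Fintype.card D := by exact_mod_cast Fintype.card_pos
  have hμ : 0 < 1 - lam := by linarith
  have hf0 : ∀ v s, 0 ≤ f v s := fun v s => by rcases hf v s with h | h <;> simp [h]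
  have hf1 : ∀ v s, f v s ≤ 1 := fun v s => by rcases hf v s with h | h <;> simp [h]
  have hf2 : ∀ v s, f v s ^ 2 = f v s := fun v s => by rcases hf v s with h | h <;> simp [h]
  set G := Real.sqrt (δ * Fintype.card V) with hG
  have hG2 : G ^ 2 = δ * Fintype.card V := Real.sq_sqrt (by positivity)
  have hG0 : 0 ≤ G := Real.sqrt_nonneg _
  have small : ∀ k : V → D → ℝ, (∀ v s, 0 ≤ k v s) → (∀ v s, k v s ≤ 1) →
      ∑ v, ∑ s, k v s = δ * (Fintype.card V * Fintype.card D) →
      ∑ v, (∑ s, k v s) / Fintype.card D = δ * Fintype.card V ∧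
      ∑ v, ((∑ s, k v s) / Fintype.card D) ^ 2 ≤ G ^ 2 := by
    intro k k0 k1 k2
    have e : ∑ v, (∑ s, k v s) / Fintype.card D = δ * Fintype.card V := by
      rw [← sum_div, k2]; field_simp
    refine ⟨e, ?_⟩
    rw [hG2, ← e]
    refine sum_le_sum fun v _ => ?_
    have a1 : 0 ≤ (∑ s, k v s) / Fintype.card D := div_nonneg (sum_nonneg fun s _ => k0 v s) hd.le
    have a2 : (∑ s, k v s) / Fintype.card D ≤ 1 := by
      rw [div_le_one hd]
      simpa using sum_le_sum (s := univ) fun s _ => k1 v s
    nlinarith
  obtain ⟨g1, g2⟩ := small f hf0 hf1 hδ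
  obtain ⟨k1, k2⟩ := small (fun v s => f (step (inv s) v) s) (fun _ _ => hf0 _ _)
    (fun _ _ => hf1 _ _) (by
      rw [← hδ, sum_comm, sum_comm (f := f)]
      exact sum_congr rfl fun s _ => sum_step hinv hstep (inv s) fun v => f v s)
  -- first moments
  have m1 : ∀ n : ℕ, ∑ v, (avgL n (marks step f v) - n * δ) = 0 ∧
      ∑ v, (avgL n (marks step f v) - n * δ) ^ 2 ≤ (G / (1 - lam)) ^ 2 := by
    intro n
    induction n with
    | zero => simp [avgL, marks]; positivity
    | succ n ih =>
      have e : ∀ v, avgL (n + 1) (marks step f v) - (n + 1 : ℕ) * δ =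
          ((∑ s, f v s) / Fintype.card D - δ) +
            (∑ s, (avgL n (marks step f (step s v)) - n * δ)) / Fintype.card D := by
        intro v
        simp only [avgL_succ, marks, avgL_add, avgL_const, sum_add_distrib, sum_sub_distrib,
          sum_const, card_univ, nsmul_eq_mul]
        push_cast
        field_simp
        ring
      simp only [e]
      constructor
      · rw [sum_add_distrib, sum_sub_distrib, g1, ← sum_div, sum_comm,
          sum_congr rfl fun s _ => sum_step hinv hstep s fun v => avgL n (marks step f v) - n * δ]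
        rw [ih.1]
        simp [mul_comm]
      · have b1 : ∑ v, ((∑ s, f v s) / Fintype.card D - δ) ^ 2 ≤ G ^ 2 := by
          refine le_trans ?_ g2
          simp only [sub_sq, sum_add_distrib, sum_sub_distrib, ← sum_mul, ← mul_sum, g1, sum_const,
            card_univ, nsmul_eq_mul]
          have : 0 ≤ δ ^ 2 * Fintype.card V := by positivity
          nlinarith
        have b2 := (hspec _ ih.1).trans (mul_le_mul_of_nonneg_left ih.2 (sq_nonneg lam))
        rw [← mul_pow] at b2
        have b3 := sum_mul_le_of_sq hG0 (by positivity) b1 b2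
        simp only [add_sq, sum_add_distrib, mul_assoc, ← mul_sum]
        have b4 : G / (1 - lam) = G + lam * (G / (1 - lam)) := by field_simp; ring
        rw [b4]
        nlinarith
  induction n with
  | zero => simp [avgL, marks]
  | succ n ih =>
    have e : ∀ v, avgL (n + 1) (fun l => marks step f v l ^ 2) =
        (∑ s, f v s) / Fintype.card D +
          2 * ((∑ s, f v s * avgL n (marks step f (step s v))) / Fintype.card D) +
          (∑ s, avgL n fun l => marks step f (step s v) l ^ 2) / Fintype.card D := by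
      intro v
      simp only [avgL_succ, marks, add_sq, avgL_add, avgL_const, avgL_mul, hf2, sum_add_distrib,
        mul_assoc, ← mul_sum, add_div, mul_div_assoc]
    have e2 : ∑ v, (∑ s, f v s * avgL n (marks step f (step s v))) / Fintype.card D =
        ∑ v, (∑ s, f (step (inv s) v) s) / Fintype.card D * avgL n (marks step f v) := by
      simp only [div_mul_eq_mul_div, sum_mul, ← sum_div]
      congr 1
      rw [sum_comm, sum_comm (f := fun v s => f (step (inv s) v) s * avgL n (marks step f v))]
      refine sum_congr rfl fun s _ => ?_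
      rw [← sum_step hinv hstep s fun v => f (step (inv s) v) s * avgL n (marks step f v)]
      simp only [hstep]
    have e3 : ∑ v, (∑ s, avgL n fun l => marks step f (step s v) l ^ 2) / Fintype.card D =
        ∑ v, avgL n fun l => marks step f v l ^ 2 := by
      rw [← sum_div, sum_comm, sum_congr rfl fun s _ => sum_step hinv hstep s
        fun v => avgL n fun l => marks step f v l ^ 2]
      simp only [sum_const, card_univ, nsmul_eq_mul]
      field_simp
    have e4 := sum_mul_le_of_sq hG0 (by positivity) k2 (m1 n).2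
    simp only [mul_sub, sum_sub_distrib, ← sum_mul, k1] at e4
    have e5 : G * (G / (1 - lam)) = δ * Fintype.card V / (1 - lam) := by
      rw [← hG2]; ring
    simp only [e, sum_add_distrib, ← mul_sum, g1, e2, e3]
    have e6 : 0 ≤ δ ^ 2 * Fintype.card V := by positivity
    have e7 : δ * Fintype.card V / (1 - lam) = δ * Fintype.card V * (1 / (1 - lam)) := by ring
    have e8 : 2 / (1 - lam) = 2 * (1 / (1 - lam)) := by ring
    rw [e8] at ih ⊢
    rw [e5, e7] at e4
    push_cast
    nlinarith

end Vale.Agent.Lib.PCP
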