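import Vale.Agent.Lib.PCP.Exp

/-!
Degree reduction and expanderization. The vertices are the occurrences `o = 10 * i + j` (slot `j` of
constraint `i`), the labels are ten-bit numbers, and there are 52 generators.
-/

namespace Vale.Agent.Lib.PCP

open Vale.Agent.Lib.TM Finset

/-- The variable read at an occurrence. -/
def varAt (φ : CSP) (o : ℕ) : ℕ := (φ.getD (o / 10) []).getD (o % 10) 0

/-- All occurrences of the same variable, in increasing order. -/
def cloud (φ : CSP) (o : ℕ) : List ℕ :=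
  (List.range (10 * φ.length)).filter fun o' => varAt φ o' == varAt φ o

/-- The position of an occurrence in its cloud. -/
def rank (φ : CSP) (o : ℕ) : ℕ := (cloud φ o).countP fun o' => decide (o' < o)

/-- The generators: `0, 1` rotate the slot, `2, …, 13` are expander steps in the cloud,
`14, …, 25` are expander steps on all vertices, the others are loops. -/
def regStep (φ : CSP) (s o : ℕ) : ℕ :=
  bif s == 0 then o / 10 * 10 + (o % 10 + 1) % 10
  else bif s == 1 then o / 10 * 10 + (o % 10 + 9) % 10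
  else bif decide (s < 14) then
    (cloud φ o).getD (expStep (cloud φ o).length (s - 2) (rank φ o)) 0
  else bif decide (s < 26) then expStep (10 * φ.length) (s - 14) o
  else o

/-- The inverse generator. -/
def regInv (s : Fin 52) : Fin 52 :=
  if s.val = 0 then 1 else if s.val = 1 then 0
  else if h : s.val < 14 then ⟨(s.val - 2 + 6) % 12 + 2, by omega⟩
  else if h : s.val < 26 then ⟨(s.val - 14 + 6) % 12 + 14, by omega⟩
  else s

/-- The constraint between the label `a` of `o` and the label `b` of `regStep φ s o`. -/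
def regOk (φ : CSP) (s o a b : ℕ) : Bool :=
  bif s == 0 then a == b && Phi fun j => a.testBit j
  else bif decide (2 ≤ s) && decide (s < 14) then
    a.testBit (o % 10) == b.testBit (regStep φ s o % 10)
  else true

lemma mem_cloud {φ : CSP} {o o' : ℕ} :
    o' ∈ cloud φ o ↔ o' < 10 * φ.length ∧ varAt φ o' = varAt φ o := by
  simp [cloud]

lemma cloud_congr {φ : CSP} {o o' : ℕ} (h : varAt φ o' = varAt φ o) :
    cloud φ o' = cloud φ o := by
  simp only [cloud, h]

lemma cloud_sorted (φ : CSP) (o : ℕ) : (cloud φ o).Pairwise (· < ·) :=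
  List.Pairwise.filter _ List.pairwise_lt_range

lemma countP_lt_getD (l : List ℕ) (hl : l.Pairwise (· < ·)) {i : ℕ} (hi : i < l.length) :
    l.countP (fun x => decide (x < l.getD i 0)) = i := by
  induction l generalizing i with
  | nil => simp at hi
  | cons a l ih =>
    rw [List.pairwise_cons] at hl
    cases i with
    | zero =>
      rw [List.getD_cons_zero, List.countP_eq_zero]
      intro x hx
      rcases List.mem_cons.mp hx with rfl | hx
      · simp
      · have := hl.1 x hx
        simp only [decide_eq_true_eq]; omega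
    | succ i =>
      have hi' : i < l.length := by simpa using hi
      have h1 : a < l.getD i 0 := hl.1 _ (by
        rw [List.getD_eq_getElem _ _ hi']; exact List.getElem_mem hi')
      rw [List.getD_cons_succ, List.countP_cons, ih hl.2 hi', if_pos (decide_eq_true h1)]

lemma getD_mem_cloud {φ : CSP} {o i : ℕ} (hi : i < (cloud φ o).length) :
    (cloud φ o).getD i 0 ∈ cloud φ o := by
  rw [List.getD_eq_getElem _ _ hi]; exact List.getElem_mem hi

lemma rank_getD {φ : CSP} {o i : ℕ} (hi : i < (cloud φ o).length) :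
    rank φ ((cloud φ o).getD i 0) = i := by
  rw [rank, cloud_congr (mem_cloud.mp (getD_mem_cloud hi)).2]
  exact countP_lt_getD _ (cloud_sorted φ o) hi

lemma rank_spec {φ : CSP} {o o' : ℕ} (h : o' ∈ cloud φ o) :
    rank φ o' < (cloud φ o).length ∧ (cloud φ o).getD (rank φ o') 0 = o' := by
  obtain ⟨i, hi, rfl⟩ := List.getElem_of_mem h
  rw [← List.getD_eq_getElem _ 0 hi, rank_getD hi]
  exact ⟨hi, rfl⟩

lemma self_mem_cloud {φ : CSP} {o : ℕ} (ho : o < 10 * φ.length) : o ∈ cloud φ o :=
  mem_cloud.mpr ⟨ho, rfl⟩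

lemma regStep_zero (φ : CSP) (o : ℕ) : regStep φ 0 o = o / 10 * 10 + (o % 10 + 1) % 10 := rfl

lemma regStep_one (φ : CSP) (o : ℕ) : regStep φ 1 o = o / 10 * 10 + (o % 10 + 9) % 10 := rfl

lemma regStep_cloud (φ : CSP) {s : ℕ} (h1 : 2 ≤ s) (h2 : s < 14) (o : ℕ) : regStep φ s o =
    (cloud φ o).getD (expStep (cloud φ o).length (s - 2) (rank φ o)) 0 := by
  have h3 : (s == 0) = false := by simp only [beq_eq_false_iff_ne]; omega
  have h4 : (s == 1) = false := by simp only [beq_eq_false_iff_ne]; omega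
  rw [regStep, h3, h4, decide_eq_true h2]
  rfl

lemma regStep_exp (φ : CSP) {s : ℕ} (h1 : 14 ≤ s) (h2 : s < 26) (o : ℕ) :
    regStep φ s o = expStep (10 * φ.length) (s - 14) o := by
  have h3 : (s == 0) = false := by simp only [beq_eq_false_iff_ne]; omega
  have h4 : (s == 1) = false := by simp only [beq_eq_false_iff_ne]; omega
  rw [regStep, h3, h4, decide_eq_false (not_lt.mpr h1), decide_eq_true h2]
  rfl

lemma regStep_loop (φ : CSP) {s : ℕ} (h1 : 26 ≤ s) (o : ℕ) : regStep φ s o = o := by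
  have h3 : (s == 0) = false := by simp only [beq_eq_false_iff_ne]; omega
  have h4 : (s == 1) = false := by simp only [beq_eq_false_iff_ne]; omega
  rw [regStep, h3, h4, decide_eq_false (show ¬ s < 14 by omega), decide_eq_false (not_lt.mpr h1)]
  rfl

lemma regStep_mem_cloud (φ : CSP) {s : ℕ} (h1 : 2 ≤ s) (h2 : s < 14) {o : ℕ}
    (ho : o < 10 * φ.length) : regStep φ s o ∈ cloud φ o := by
  rw [regStep_cloud φ h1 h2]
  exact getD_mem_cloud (expStep_lt (rank_spec (self_mem_cloud ho)).1)

lemma regOk_zero (φ : CSP) (o a b : ℕ) :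
    regOk φ 0 o a b = (a == b && Phi fun j => a.testBit j) := rfl

lemma regOk_cloud (φ : CSP) {s : ℕ} (h1 : 2 ≤ s) (h2 : s < 14) (o a b : ℕ) :
    regOk φ s o a b = (a.testBit (o % 10) == b.testBit (regStep φ s o % 10)) := by
  have h3 : (s == 0) = false := by simp only [beq_eq_false_iff_ne]; omega
  rw [regOk, h3, decide_eq_true h1, decide_eq_true h2]
  rfl

lemma regOk_other (φ : CSP) {s : ℕ} (h0 : s ≠ 0) (h1 : ¬ (2 ≤ s ∧ s < 14)) (o a b : ℕ) :
    regOk φ s o a b = true := by
  have h3 : (s == 0) = false := by simp only [beq_eq_false_iff_ne]; omega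
  have h4 : (decide (2 ≤ s) && decide (s < 14)) = false := by
    rw [← Bool.decide_and]; exact decide_eq_false h1
  rw [regOk, h3, h4]
  rfl

theorem regStep_lt (φ : CSP) (s : ℕ) {o : ℕ} (ho : o < 10 * φ.length) :
    regStep φ s o < 10 * φ.length := by
  by_cases h0 : s = 0
  · subst h0; rw [regStep_zero]; omega
  by_cases h1 : s = 1
  · subst h1; rw [regStep_one]; omega
  by_cases h2 : s < 14
  · exact (mem_cloud.mp (regStep_mem_cloud φ (by omega) h2 ho)).1
  by_cases h3 : s < 26
  · rw [regStep_exp φ (by omega) h3]; exact expStep_lt ho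
  · rw [regStep_loop φ (by omega)]; exact ho

/-- The generators as maps of `Fin`. -/
def stepF (φ : CSP) (s : Fin 52) (o : Fin (10 * φ.length)) : Fin (10 * φ.length) :=
  ⟨regStep φ s o, regStep_lt φ s o.2⟩

theorem regInv_regInv (s : Fin 52) : regInv (regInv s) = s := by
  revert s; decide

theorem stepF_inv (φ : CSP) (s : Fin 52) (o : Fin (10 * φ.length)) :
    stepF φ (regInv s) (stepF φ s o) = o := by
  obtain ⟨o, ho⟩ := o
  obtain ⟨s, hs⟩ := s
  apply Fin.ext
  show regStep φ (regInv ⟨s, hs⟩).val (regStep φ s o) = o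
  by_cases h0 : s = 0
  · subst h0
    show regStep φ 1 (regStep φ 0 o) = o
    rw [regStep_zero, regStep_one]; omega
  by_cases h1 : s = 1
  · subst h1
    show regStep φ 0 (regStep φ 1 o) = o
    rw [regStep_zero, regStep_one]; omega
  by_cases h2 : s < 14
  · have e : (regInv ⟨s, hs⟩).val = (s - 2 + 6) % 12 + 2 := by simp [regInv, h0, h1, h2]
    have hr := rank_spec (self_mem_cloud ho)
    have hc := cloud_congr (mem_cloud.mp (regStep_mem_cloud φ (by omega) h2 ho)).2
    rw [e, regStep_cloud φ (by omega) (by omega) (regStep φ s o), hc,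
      regStep_cloud φ (by omega) h2 o, rank_getD (expStep_lt hr.1), Nat.add_sub_cancel,
      expStep_inv (by omega) hr.1, hr.2]
  by_cases h3 : s < 26
  · have e : (regInv ⟨s, hs⟩).val = (s - 14 + 6) % 12 + 14 := by simp [regInv, h0, h1, h2, h3]
    rw [e, regStep_exp φ (by omega) (by omega) (regStep φ s o), regStep_exp φ (by omega) h3 o,
      Nat.add_sub_cancel, expStep_inv (by omega) ho]
  · have e : (regInv ⟨s, hs⟩).val = s := by simp [regInv, h0, h1, h2, h3]
    rw [e, regStep_loop φ (by omega), regStep_loop φ (by omega)]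

/-- The honest label of a constraint. -/
def honestLab (σ : ℕ → Bool) (c : List ℕ) : Fin 1024 :=
  ⟨ofBits ((List.range 10).map fun j => σ (c.getD j 0)), by
    have := ofBits_lt ((List.range 10).map fun j => σ (c.getD j 0))
    simpa using this⟩

lemma testBit_honestLab (σ : ℕ → Bool) (c : List ℕ) {j : ℕ} (hj : j < 10) :
    (honestLab σ c : ℕ).testBit j = σ (c.getD j 0) := by
  show (ofBits _).testBit j = _
  rw [testBit_ofBits, List.getD_eq_getElem _ _ (by simpa using hj)]
  simp

theorem reg_complete {φ : CSP} (h : φ.Sat) : ∃ lab : ℕ → Fin 1024, ∀ s o, o < 10 * φ.length →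
    regOk φ s o (lab o) (lab (regStep φ s o)) = true := by
  obtain ⟨σ, hσ⟩ := h
  refine ⟨fun o => honestLab σ (φ.getD (o / 10) []), fun s o ho => ?_⟩
  dsimp only
  by_cases h0 : s = 0
  · subst h0
    have h1 : regStep φ 0 o / 10 = o / 10 := by rw [regStep_zero]; omega
    have h2 : o / 10 < φ.length := by omega
    have h3 := hσ (φ.getD (o / 10) []) (by
      rw [List.getD_eq_getElem _ _ h2]; exact List.getElem_mem h2)
    rw [regOk_zero, h1, Bool.and_eq_true]
    refine ⟨beq_self_eq_true _, ?_⟩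
    rw [← h3, conSat]
    exact Phi_congr fun j hj => testBit_honestLab σ _ hj
  by_cases h1 : 2 ≤ s ∧ s < 14
  · have h2 := (mem_cloud.mp (regStep_mem_cloud φ h1.1 h1.2 ho)).2
    rw [regOk_cloud φ h1.1 h1.2, testBit_honestLab _ _ (Nat.mod_lt _ (by norm_num)),
      testBit_honestLab _ _ (Nat.mod_lt _ (by norm_num))]
    show (σ (varAt φ o) == σ (varAt φ (regStep φ s o))) = true
    rw [h2]
    exact beq_self_eq_true _
  · exact regOk_other φ h0 h1 _ _ _

lemma sum_cloud (φ : CSP) (o : ℕ) (F : ℕ → ℝ) :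
    ∑ x ∈ (range (10 * φ.length)).filter (fun x => varAt φ x = varAt φ o), F x =
      ∑ i ∈ range (cloud φ o).length, F ((cloud φ o).getD i 0) := by
  have hm : ∀ x, x ∈ (range (10 * φ.length)).filter (fun x => varAt φ x = varAt φ o) ↔
      x ∈ cloud φ o := fun x => by rw [mem_filter, mem_range, mem_cloud]
  refine Finset.sum_nbij' (rank φ) (fun i => (cloud φ o).getD i 0) ?_ ?_ ?_ ?_ ?_
  · intro x hx
    exact mem_range.mpr (rank_spec ((hm x).mp hx)).1
  · intro i hi
    exact (hm _).mpr (getD_mem_cloud (mem_range.mp hi))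
  · intro x hx
    exact (rank_spec ((hm x).mp hx)).2
  · intro i hi
    exact rank_getD (mem_range.mp hi)
  · intro x hx
    rw [(rank_spec ((hm x).mp hx)).2]

lemma cloud_poincare (φ : CSP) (o : ℕ) (g : ℕ → ℝ) : ∃ a : ℝ,
    ∑ x ∈ (range (10 * φ.length)).filter (fun x => varAt φ x = varAt φ o), (g x - a) ^ 2 ≤
      ∑ x ∈ (range (10 * φ.length)).filter (fun x => varAt φ x = varAt φ o),
        50 * ∑ s ∈ range 12, (g x - g (regStep φ (2 + s) x)) ^ 2 := by
  obtain ⟨a, ha⟩ := expStep_poincare (cloud φ o).length fun i => g ((cloud φ o).getD i 0)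
  refine ⟨a, ?_⟩
  rw [sum_cloud, sum_cloud, ← Finset.mul_sum, Finset.sum_comm]
  refine ha.trans (le_of_eq ?_)
  congr 1
  refine sum_congr rfl fun s hs => sum_congr rfl fun i hi => ?_
  have hs' := mem_range.mp hs
  have hi' := mem_range.mp hi
  rw [regStep_cloud φ (by omega) (by omega), cloud_congr (mem_cloud.mp (getD_mem_cloud hi')).2,
    rank_getD hi', Nat.add_sub_cancel_left]

lemma majority (O : Finset ℕ) (bit : ℕ → Bool) : ∃ b : Bool, ∀ a : ℝ,
    ∑ x ∈ O, (if bit x = b then (0 : ℝ) else 1) ≤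
      2 * ∑ x ∈ O, ((if bit x = true then (1 : ℝ) else 0) - a) ^ 2 := by
  set p : ℝ := ∑ x ∈ O, (if bit x = true then (0 : ℝ) else 1) with hp
  set q : ℝ := ∑ x ∈ O, (if bit x = false then (0 : ℝ) else 1) with hq
  have hp0 : 0 ≤ p := sum_nonneg fun x _ => by split_ifs <;> norm_num
  have hq0 : 0 ≤ q := sum_nonneg fun x _ => by split_ifs <;> norm_num
  have h : ∀ a : ℝ, ∑ x ∈ O, ((if bit x = true then (1 : ℝ) else 0) - a) ^ 2 =
      p * a ^ 2 + q * (1 - a) ^ 2 := by
    intro a
    rw [hp, hq, Finset.sum_mul, Finset.sum_mul, ← Finset.sum_add_distrib]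
    refine sum_congr rfl fun x _ => ?_
    cases bit x <;> simp
  rcases le_total p q with hpq | hpq
  · refine ⟨true, fun a => ?_⟩
    rw [h, ← hp]
    nlinarith [mul_nonneg hp0 (sq_nonneg (2 * a - 1)),
      mul_nonneg (sub_nonneg.mpr hpq) (sq_nonneg (1 - a))]
  · refine ⟨false, fun a => ?_⟩
    rw [h, ← hq]
    nlinarith [mul_nonneg hq0 (sq_nonneg (2 * a - 1)),
      mul_nonneg (sub_nonneg.mpr hpq) (sq_nonneg a)]

lemma minority_le (φ : CSP) (bit : ℕ → Bool) : ∃ σ : ℕ → Bool,
    ∑ x ∈ range (10 * φ.length), (if bit x = σ (varAt φ x) then (0 : ℝ) else 1) ≤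
      ∑ x ∈ range (10 * φ.length), 100 * ∑ s ∈ range 12,
        (if bit x = bit (regStep φ (2 + s) x) then (0 : ℝ) else 1) := by
  choose σ hσ using fun v => majority ((range (10 * φ.length)).filter fun x => varAt φ x = v) bit
  refine ⟨σ, ?_⟩
  have hmap : ∀ x ∈ range (10 * φ.length),
      varAt φ x ∈ (range (10 * φ.length)).image (varAt φ) := fun x hx => mem_image_of_mem _ hx
  rw [← Finset.sum_fiberwise_of_maps_to hmap, ← Finset.sum_fiberwise_of_maps_to hmap
    (f := fun x => 100 * ∑ s ∈ range 12,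
        (if bit x = bit (regStep φ (2 + s) x) then (0 : ℝ) else 1))]
  refine sum_le_sum fun v hv => ?_
  obtain ⟨o, _, rfl⟩ := mem_image.mp hv
  obtain ⟨a, ha⟩ := cloud_poincare φ o fun x => if bit x = true then (1 : ℝ) else 0
  have h1 := hσ (varAt φ o) a
  have h2 : ∑ x ∈ (range (10 * φ.length)).filter (fun x => varAt φ x = varAt φ o),
      (if bit x = σ (varAt φ x) then (0 : ℝ) else 1) =
      ∑ x ∈ (range (10 * φ.length)).filter (fun x => varAt φ x = varAt φ o),
      (if bit x = σ (varAt φ o) then (0 : ℝ) else 1) :=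
    sum_congr rfl fun x hx => by rw [(mem_filter.mp hx).2]
  rw [h2]
  refine h1.trans ((mul_le_mul_of_nonneg_left ha (by norm_num)).trans (le_of_eq ?_))
  rw [Finset.mul_sum]
  refine sum_congr rfl fun x _ => ?_
  rw [← mul_assoc, show (2 : ℝ) * 50 = 100 by norm_num]
  congr 1
  refine sum_congr rfl fun s _ => ?_
  cases bit x <;> cases bit (regStep φ (2 + s) x) <;> simp

lemma countP_eq_sum {α : Type} (l : List α) (d : α) (p : α → Bool) :
    (l.countP p : ℝ) = ∑ i ∈ range l.length, (if p (l.getD i d) = true then (1 : ℝ) else 0) := by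
  induction l with
  | nil => simp
  | cons a l ih =>
    rw [List.length_cons, Finset.sum_range_succ', List.countP_cons]
    push_cast
    rw [ih]
    simp

lemma sum_range_ten (n : ℕ) (F : ℕ → ℝ) :
    ∑ x ∈ range (10 * n), F x = ∑ i ∈ range n, ∑ j ∈ range 10, F (10 * i + j) := by
  induction n with
  | zero => simp
  | succ n ih => rw [mul_add, mul_one, Finset.sum_range_add, ih, Finset.sum_range_succ (n := n)]

lemma con_of_ok (φ : CSP) (L : ℕ → ℕ) (σ : ℕ → Bool) (i : ℕ)
    (h1 : ∀ j < 10, regOk φ 0 (10 * i + j) (L (10 * i + j)) (L (regStep φ 0 (10 * i + j))) = true)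
    (h2 : ∀ j < 10, (L (10 * i + j)).testBit ((10 * i + j) % 10) = σ (varAt φ (10 * i + j))) :
    conSat σ (φ.getD i []) = true := by
  have h3 : ∀ j < 10, L (10 * i + j) = L (10 * i) := by
    intro j
    induction j with
    | zero => intro _; rfl
    | succ j ih =>
      intro hj
      have h4 := h1 j (by omega)
      rw [regOk_zero, Bool.and_eq_true, beq_iff_eq, regStep_zero] at h4
      rw [← ih (by omega), h4.1]
      congr 1
      omega
  have h5 := h1 0 (by norm_num)
  rw [regOk_zero, Bool.and_eq_true] at h5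
  rw [← h5.2, conSat]
  refine Phi_congr fun j hj => ?_
  have h6 := h2 j hj
  rw [h3 j hj, varAt, show (10 * i + j) % 10 = j by omega, show (10 * i + j) / 10 = i by omega]
    at h6
  exact h6.symm

theorem reg_sound {φ : CSP} {ε : ℝ} (h : φ.Gap ε) (lab : Fin (10 * φ.length) → Fin 1024) :
    ε / 52000 * (Fintype.card (Fin (10 * φ.length)) * Fintype.card (Fin 52)) ≤
      (univ.filter fun p : Fin (10 * φ.length) × Fin 52 =>
        regOk φ p.2 p.1 (lab p.1) (lab (stepF φ p.2 p.1)) = false).card := by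
  set L : ℕ → ℕ := fun o => if h : o < 10 * φ.length then (lab ⟨o, h⟩ : ℕ) else 0 with hL
  have hLe : ∀ o : Fin (10 * φ.length), (lab o : ℕ) = L o := fun o => by simp [hL]
  set W : ℕ → ℕ → ℝ := fun o s =>
    if regOk φ s o (L o) (L (regStep φ s o)) = false then 1 else 0 with hW
  have hW0 : ∀ o s, 0 ≤ W o s := fun o s => by simp only [hW]; split_ifs <;> norm_num
  have h1 : ((univ.filter fun p : Fin (10 * φ.length) × Fin 52 =>
      regOk φ p.2 p.1 (lab p.1) (lab (stepF φ p.2 p.1)) = false).card : ℝ) =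
      ∑ o ∈ range (10 * φ.length), ∑ s ∈ range 52, W o s := by
    rw [Finset.card_filter, Nat.cast_sum, Fintype.sum_prod_type,
      ← Fin.sum_univ_eq_sum_range (fun o => ∑ s ∈ range 52, W o s)]
    refine sum_congr rfl fun o _ => ?_
    rw [← Fin.sum_univ_eq_sum_range (fun s => W o s)]
    refine sum_congr rfl fun s _ => ?_
    simp only [hW, hLe, stepF]
    split_ifs <;> simp
  obtain ⟨σ, hσ⟩ := minority_le φ fun o => (L o).testBit (o % 10)
  have h2 := h σ
  rw [countP_eq_sum φ []] at h2
  have h3 : ∑ i ∈ range φ.length, (if (!conSat σ (φ.getD i [])) = true then (1 : ℝ) else 0) ≤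
      ∑ o ∈ range (10 * φ.length),
        (W o 0 + if (L o).testBit (o % 10) = σ (varAt φ o) then (0 : ℝ) else 1) := by
    rw [sum_range_ten]
    refine sum_le_sum fun i _ => ?_
    have hn : ∀ j ∈ range 10, 0 ≤ W (10 * i + j) 0 +
        if (L (10 * i + j)).testBit ((10 * i + j) % 10) = σ (varAt φ (10 * i + j))
          then (0 : ℝ) else 1 := fun j _ =>
      add_nonneg (hW0 _ _) (by split_ifs <;> norm_num)
    split_ifs with hc
    · by_contra hlt
      have hz : ∀ j < 10, W (10 * i + j) 0 +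
          (if (L (10 * i + j)).testBit ((10 * i + j) % 10) = σ (varAt φ (10 * i + j))
            then (0 : ℝ) else 1) < 1 := fun j hj =>
        (Finset.single_le_sum hn (mem_range.mpr hj)).trans_lt (not_le.mp hlt)
      have := con_of_ok φ L σ i (fun j hj => ?_) (fun j hj => ?_)
      · rw [this] at hc
        exact absurd hc (by decide)
      · by_contra hne
        have h4 := hz j hj
        have h5 : W (10 * i + j) 0 = 1 := by
          simp only [hW]; rw [if_pos (Bool.eq_false_iff.mpr hne)]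
        rw [h5] at h4
        split_ifs at h4 <;> linarith
      · by_contra hne
        have h4 := hz j hj
        rw [if_neg hne] at h4
        linarith [hW0 (10 * i + j) 0]
    · exact sum_nonneg hn
  have h4 : ∀ o, W o 0 + 100 * ∑ s ∈ range 12, (if (L o).testBit (o % 10) =
      (L (regStep φ (2 + s) o)).testBit (regStep φ (2 + s) o % 10) then (0 : ℝ) else 1) ≤
      100 * ∑ s ∈ range 52, W o s := by
    intro o
    have h5 : ∑ s ∈ range 12, (if (L o).testBit (o % 10) =
        (L (regStep φ (2 + s) o)).testBit (regStep φ (2 + s) o % 10) then (0 : ℝ) else 1) =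
        ∑ s ∈ range 12, W o (2 + s) := by
      refine sum_congr rfl fun s hs => ?_
      have hs' := mem_range.mp hs
      simp only [hW]
      rw [regOk_cloud φ (by omega) (by omega)]
      cases (L o).testBit (o % 10) <;>
        cases (L (regStep φ (2 + s) o)).testBit (regStep φ (2 + s) o % 10) <;> simp
    rw [h5, show 52 = 2 + 12 + 38 by norm_num, Finset.sum_range_add, Finset.sum_range_add,
      Finset.sum_range_succ (n := 1), Finset.sum_range_one]
    have h6 : 0 ≤ ∑ s ∈ range 38, W o (2 + 12 + s) := sum_nonneg fun s _ => hW0 _ _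
    linarith [hW0 o 0, hW0 o 1]
  have h5 := sum_le_sum fun o (_ : o ∈ range (10 * φ.length)) => h4 o
  rw [Finset.sum_add_distrib] at h3 h5
  rw [← Finset.mul_sum _ (fun o => ∑ s ∈ range 52, W o s)] at h5
  rw [h1]
  simp only [Fintype.card_fin]
  push_cast
  linarith

theorem reg_spectral (φ : CSP) (f : Fin (10 * φ.length) → ℝ) (hf : ∑ o, f o = 0) :
    ∑ o, ((∑ s, f (stepF φ s o)) / Fintype.card (Fin 52)) ^ 2 ≤
      (1 - 1 / 10400) ^ 2 * ∑ o, f o ^ 2 := by
  set T : ℕ → Fin (10 * φ.length) → Fin (10 * φ.length) := fun s o =>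
    ⟨regStep φ s o, regStep_lt φ s o.2⟩ with hT
  have hbij : ∀ s < 52, ∑ o, f (T s o) ^ 2 = ∑ o, f o ^ 2 := by
    intro s hs
    have hinj : Function.Injective (stepF φ ⟨s, hs⟩) :=
      Function.LeftInverse.injective (stepF_inv φ ⟨s, hs⟩)
    exact (Finite.injective_iff_bijective.mp hinj).sum_comp fun o => f o ^ 2
  set Q : ℝ := ∑ o, f o ^ 2 with hQ
  have hQ0 : 0 ≤ Q := sum_nonneg fun o _ => sq_nonneg _
  have h1 : ∀ o, ∑ s, f (stepF φ s o) = ∑ s ∈ range 26, f (T s o) + 26 * f o := by
    intro o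
    have : ∑ s, f (stepF φ s o) = ∑ s ∈ range 52, f (T s o) :=
      Fin.sum_univ_eq_sum_range (fun s => f (T s o)) 52
    rw [this, show 52 = 26 + 26 by norm_num, Finset.sum_range_add]
    congr 1
    have h2 : ∀ s ∈ range 26, f (T (26 + s) o) = f o := fun s _ => by
      congr 1
      exact Fin.ext (regStep_loop φ (by omega) _)
    rw [sum_congr rfl h2]
    simp
  have h2 : ∑ o, (∑ s ∈ range 26, f (T s o)) ^ 2 ≤ 26 * 26 * Q := by
    have h3 : ∀ o, (∑ s ∈ range 26, f (T s o)) ^ 2 ≤ 26 * ∑ s ∈ range 26, f (T s o) ^ 2 := by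
      intro o
      have := sq_sum_le_card_mul_sum_sq (s := range 26) (f := fun s => f (T s o))
      simpa using this
    refine (sum_le_sum fun o _ => h3 o).trans (le_of_eq ?_)
    rw [← Finset.mul_sum, Finset.sum_comm,
      sum_congr rfl fun s hs => hbij s ((mem_range.mp hs).trans (by norm_num))]
    simp [mul_assoc]
  have h3 : ∑ s ∈ range 26, ∑ o, (f o - f (T s o)) ^ 2 =
      52 * Q - 2 * ∑ o, f o * ∑ s ∈ range 26, f (T s o) := by
    have h4 : ∀ s ∈ range 26, ∑ o, (f o - f (T s o)) ^ 2 = 2 * Q - 2 * ∑ o, f o * f (T s o) := by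
      intro s hs
      have h5 := hbij s ((mem_range.mp hs).trans (by norm_num))
      have h6 : ∑ o, (f o - f (T s o)) ^ 2 =
          ∑ o, f o ^ 2 + ∑ o, f (T s o) ^ 2 - 2 * ∑ o, f o * f (T s o) := by
        rw [Finset.mul_sum, ← Finset.sum_add_distrib, ← Finset.sum_sub_distrib]
        exact sum_congr rfl fun o _ => by ring
      rw [h6, h5]; ring
    have h5 : ∑ o, f o * ∑ s ∈ range 26, f (T s o) = ∑ s ∈ range 26, ∑ o, f o * f (T s o) := by
      rw [Finset.sum_comm]
      exact sum_congr rfl fun o _ => Finset.mul_sum _ _ _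
    rw [sum_congr rfl h4, Finset.sum_sub_distrib, h5, sum_const, card_range, nsmul_eq_mul,
      ← Finset.mul_sum (range 26)]
    push_cast
    ring
  have h4 : Q ≤ 50 * ∑ s ∈ range 26, ∑ o, (f o - f (T s o)) ^ 2 := by
    set F : ℕ → ℝ := fun x => if h : x < 10 * φ.length then f ⟨x, h⟩ else 0 with hF
    have hFe : ∀ o : Fin (10 * φ.length), F o = f o := fun o => by simp [hF]
    obtain ⟨a, ha⟩ := expStep_poincare (10 * φ.length) F
    rw [← Fin.sum_univ_eq_sum_range (fun x => (F x - a) ^ 2)] at ha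
    have h5 : Q ≤ ∑ o : Fin (10 * φ.length), (F o - a) ^ 2 := by
      have h6 : ∑ o : Fin (10 * φ.length), (F o - a) ^ 2 =
          Q - 2 * a * ∑ o, f o + ∑ _o : Fin (10 * φ.length), a ^ 2 := by
        rw [hQ, Finset.mul_sum, ← Finset.sum_sub_distrib, ← Finset.sum_add_distrib]
        exact sum_congr rfl fun o _ => by rw [hFe]; ring
      have h7 : 0 ≤ ∑ _o : Fin (10 * φ.length), a ^ 2 := sum_nonneg fun _ _ => sq_nonneg _
      rw [h6, hf]
      linarith
    have h6 : ∑ i ∈ range 12, ∑ x ∈ range (10 * φ.length),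
        (F x - F (expStep (10 * φ.length) i x)) ^ 2 =
        ∑ i ∈ range 12, ∑ o, (f o - f (T (14 + i) o)) ^ 2 := by
      refine sum_congr rfl fun i hi => ?_
      have hi' := mem_range.mp hi
      rw [← Fin.sum_univ_eq_sum_range (fun x => (F x - F (expStep (10 * φ.length) i x)) ^ 2)]
      refine sum_congr rfl fun o _ => ?_
      rw [← hFe o, ← hFe (T (14 + i) o)]
      show _ = (F o - F (regStep φ (14 + i) o)) ^ 2
      rw [regStep_exp φ (by omega) (by omega), Nat.add_sub_cancel_left]
    rw [h6] at ha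
    have h7 : 0 ≤ ∑ s ∈ range 14, ∑ o, (f o - f (T s o)) ^ 2 :=
      sum_nonneg fun _ _ => sum_nonneg fun _ _ => sq_nonneg _
    rw [show 26 = 14 + 12 by norm_num, Finset.sum_range_add]
    linarith
  have h5 : ∑ o, ((∑ s, f (stepF φ s o)) / Fintype.card (Fin 52)) ^ 2 =
      (∑ o, (∑ s ∈ range 26, f (T s o)) ^ 2 + 52 * ∑ o, f o * ∑ s ∈ range 26, f (T s o) +
        26 * 26 * Q) / 52 ^ 2 := by
    rw [hQ, Finset.mul_sum, Finset.mul_sum, ← Finset.sum_add_distrib, ← Finset.sum_add_distrib,
      Finset.sum_div]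
    refine sum_congr rfl fun o _ => ?_
    rw [h1, Fintype.card_fin]
    push_cast
    ring
  rw [h5]
  linarith

/-- Every constraint of the regular graph is satisfiable. -/
theorem regOk_exists (φ : CSP) (s o : ℕ) : ∃ a < 1024, ∃ b < 1024, regOk φ s o a b = true := by
  by_cases h0 : s = 0
  · subst h0
    refine ⟨32, by norm_num, 32, by norm_num, ?_⟩
    rw [regOk_zero]
    decide
  by_cases h1 : 2 ≤ s ∧ s < 14
  · refine ⟨0, by norm_num, 0, by norm_num, ?_⟩
    rw [regOk_cloud φ h1.1 h1.2]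
    simp
  · exact ⟨0, by norm_num, 0, by norm_num, regOk_other φ h0 h1 _ _ _⟩

@[fun_prop]
theorem ct_varAt {α : Type} [Enc α] {e : ℕ} {φ : α → CSP} {o : α → ℕ} (hφ : CT e φ)
    (ho : CT e o) : CT e fun a => varAt (φ a) (o a) := by
  unfold varAt
  fun_prop

@[fun_prop]
theorem ct_cloud {α : Type} [Enc α] {e : ℕ} {φ : α → CSP} {o : α → ℕ} (hφ : CT e φ)
    (ho : CT e o) : CT e fun a => cloud (φ a) (o a) :=
  CT.filter (f := fun a o' => varAt (φ a) o' == varAt (φ a) (o a)) (by fun_prop)
    (CT.range_mul_length 10 hφ)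

@[fun_prop]
theorem ct_rank {α : Type} [Enc α] {e : ℕ} {φ : α → CSP} {o : α → ℕ} (hφ : CT e φ)
    (ho : CT e o) : CT e fun a => rank (φ a) (o a) :=
  CT.countP (f := fun a o' => decide (o' < o a)) (by fun_prop) (ct_cloud hφ ho)

@[fun_prop]
theorem ct_regStep {α : Type} [Enc α] {e : ℕ} {φ : α → CSP} {s o : α → ℕ} (hφ : CT e φ)
    (hs : CT e s) (ho : CT e o) : CT e fun a => regStep (φ a) (s a) (o a) := by
  have h1 : CT e fun a => expStep (cloud (φ a) (o a)).length (s a - 2) (rank (φ a) (o a)) :=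
    ct_expStep (ct_cloud hφ ho).length (ct_cloud hφ ho).bd_length (by fun_prop) (ct_rank hφ ho)
  have h2 : CT e fun a => expStep (10 * (φ a).length) (s a - 14) (o a) :=
    ct_expStep ((CT.const 10).mul hφ.length) ((Bd.const 10).mul hφ.bd_length) (by fun_prop) ho
  unfold regStep
  fun_prop

@[fun_prop]
theorem ct_regOk {α : Type} [Enc α] {e : ℕ} {φ : α → CSP} {s o x y : α → ℕ} (hφ : CT e φ)
    (hs : CT e s) (ho : CT e o) (hx : CT e x) (hy : CT e y) :
    CT e fun a => regOk (φ a) (s a) (o a) (x a) (y a) := by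
  unfold regOk Phi
  fun_prop

end Vale.Agent.Lib.PCP
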